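import Mathlib
import Vale.Agent.P078.Basic

/-!
# C*-algebras with a state centralised by a MASA

An `SMasa M` is a C*-algebra `M` with a faithful state `φ`, bounded sets complete in the 2-norm of
`φ`, and a maximal abelian star subalgebra `A` in the centraliser of `φ`. Right multiplication is
required to be continuous on bounded sets for the 2-norm.
-/

open scoped ComplexOrder InnerProductSpace Topology
open Filter

namespace Vale.Agent.P078.Sing

universe u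

variable {M : Type u} [CStarAlgebra M] [PartialOrder M] [StarOrderedRing M]

/-- Faithful state centralised by a MASA, with complete bounded sets. -/
structure SMasa (M : Type u) [CStarAlgebra M] [PartialOrder M] [StarOrderedRing M] where
  φ : M →ₚ[ℂ] ℂ
  φ_one : φ 1 = 1
  φ_faithful : ∀ x, φ (star x * x) = 0 → x = 0
  complete : ∀ (x : ℕ → M) (C : ℝ), (∀ n, ‖x n‖ ≤ C) →
    CauchySeq (fun n => φ.toPreGNS (x n)) →
    ∃ l : M, ‖l‖ ≤ C ∧ Tendsto (fun n => φ.toPreGNS (x n)) atTop (𝓝 (φ.toPreGNS l))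
  right_cont : ∀ (z : M) (C ε : ℝ), 0 < ε → ∃ δ : ℝ, 0 < δ ∧ ∀ x : M, ‖x‖ ≤ C →
    ‖φ.toPreGNS x‖ ≤ δ → ‖φ.toPreGNS (x * z)‖ ≤ ε
  A : StarSubalgebra ℂ M
  A_comm : ∀ a ∈ A, ∀ b ∈ A, a * b = b * a
  A_max : ∀ y : M, (∀ a ∈ A, a * y = y * a) → y ∈ A
  φ_central : ∀ a ∈ A, ∀ x, φ (a * x) = φ (x * a)

namespace SMasa

variable (T : SMasa M)

/-- The 2-norm. -/
noncomputable def n2 (x : M) : ℝ := ‖T.φ.toPreGNS x‖

/-- Real part of the state. -/
noncomputable def tr (x : M) : ℝ := (T.φ x).re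

lemma n2_nonneg (x : M) : 0 ≤ T.n2 x := norm_nonneg _

lemma n2_sq (x : M) : T.n2 x ^ 2 = T.tr (star x * x) := by
  have h := T.φ.preGNS_norm_sq (T.φ.toPreGNS x)
  have := congrArg Complex.re h
  simpa [n2, tr, ← Complex.ofReal_pow] using this

lemma n2_zero : T.n2 0 = 0 := by simp [n2]

lemma n2_add_le (x y : M) : T.n2 (x + y) ≤ T.n2 x + T.n2 y := by
  unfold n2; rw [map_add]; exact norm_add_le _ _

lemma n2_sub_le (x y z : M) : T.n2 (x - z) ≤ T.n2 (x - y) + T.n2 (y - z) := by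
  simpa using T.n2_add_le (x - y) (y - z)

lemma n2_neg (x : M) : T.n2 (-x) = T.n2 x := by simp [n2]

lemma n2_smul (c : ℂ) (x : M) : T.n2 (c • x) = ‖c‖ * T.n2 x := by
  unfold n2; rw [map_smul, norm_smul]

lemma n2_sub_comm (x y : M) : T.n2 (x - y) = T.n2 (y - x) := by
  rw [← T.n2_neg, neg_sub]

lemma n2_sum_le {ι : Type*} (s : Finset ι) (f : ι → M) :
    T.n2 (∑ i ∈ s, f i) ≤ ∑ i ∈ s, T.n2 (f i) := by
  unfold n2; rw [map_sum]; exact norm_sum_le _ _

lemma n2_mul_le_left (a x : M) : T.n2 (a * x) ≤ ‖a‖ * T.n2 x := by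
  have h := (T.φ.leftMulMapPreGNS a).le_opNorm (T.φ.toPreGNS x)
  have h2 : ‖T.φ.leftMulMapPreGNS a‖ ≤ ‖a‖ :=
    LinearMap.mkContinuous_norm_le _ (norm_nonneg a) _
  have h3 : T.φ.leftMulMapPreGNS a (T.φ.toPreGNS x) = T.φ.toPreGNS (a * x) := by simp
  rw [h3] at h
  exact h.trans (mul_le_mul_of_nonneg_right h2 (norm_nonneg _))

lemma norm_φ_star_mul_le (x y : M) : ‖T.φ (star x * y)‖ ≤ T.n2 x * T.n2 y := by
  have h := norm_inner_le_norm (𝕜 := ℂ) (T.φ.toPreGNS x) (T.φ.toPreGNS y)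
  simpa [PositiveLinearMap.preGNS_inner_def, n2] using h

lemma abs_tr_star_mul_le (x y : M) : |T.tr (star x * y)| ≤ T.n2 x * T.n2 y :=
  (Complex.abs_re_le_norm _).trans (T.norm_φ_star_mul_le x y)

lemma n2_one : T.n2 (1 : M) = 1 := by
  have h : T.n2 (1 : M) ^ 2 = 1 := by rw [T.n2_sq]; simp [tr, T.φ_one]
  exact (sq_eq_one_iff.1 h).resolve_right (by have := T.n2_nonneg (1 : M); linarith)

lemma n2_le_norm (x : M) : T.n2 x ≤ ‖x‖ := by
  simpa [T.n2_one] using T.n2_mul_le_left x 1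

lemma norm_φ_le_n2 (x : M) : ‖T.φ x‖ ≤ T.n2 x := by
  simpa [T.n2_one] using T.norm_φ_star_mul_le 1 x

lemma abs_tr_le_n2 (x : M) : |T.tr x| ≤ T.n2 x :=
  (Complex.abs_re_le_norm _).trans (T.norm_φ_le_n2 x)

lemma abs_tr_le_norm (x : M) : |T.tr x| ≤ ‖x‖ := (T.abs_tr_le_n2 x).trans (T.n2_le_norm x)

lemma eq_zero_of_n2 {x : M} (h : T.n2 x = 0) : x = 0 := by
  apply T.φ_faithful
  have h' := T.φ.preGNS_norm_sq (T.φ.toPreGNS x)
  simpa [n2] using (h'.symm.trans (by simp [show ‖T.φ.toPreGNS x‖ = 0 from h]))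

lemma eq_of_n2 {x y : M} (h : T.n2 (x - y) = 0) : x = y :=
  sub_eq_zero.1 (T.eq_zero_of_n2 h)

lemma tr_nonneg {x : M} (h : 0 ≤ x) : 0 ≤ T.tr x :=
  (Complex.nonneg_iff.1 (T.φ.map_nonneg h)).1

lemma tr_mono {x y : M} (h : x ≤ y) : T.tr x ≤ T.tr y := by
  have := T.tr_nonneg (sub_nonneg.2 h)
  simpa [tr] using this

lemma tr_one : T.tr (1 : M) = 1 := by simp [tr, T.φ_one]

lemma tr_zero : T.tr (0 : M) = 0 := by simp [tr]

lemma tr_add (x y : M) : T.tr (x + y) = T.tr x + T.tr y := by simp [tr]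

lemma tr_sub (x y : M) : T.tr (x - y) = T.tr x - T.tr y := by simp [tr]

lemma tr_neg (x : M) : T.tr (-x) = -T.tr x := by simp [tr]

lemma tr_smul (c : ℝ) (x : M) : T.tr (c • x) = c * T.tr x := by
  rw [← Complex.coe_smul]; simp [tr]

lemma tr_sum {ι : Type*} (s : Finset ι) (f : ι → M) :
    T.tr (∑ i ∈ s, f i) = ∑ i ∈ s, T.tr (f i) := by
  simp [tr]

lemma tr_star (x : M) : T.tr (star x) = T.tr x := by simp [tr, map_star]

lemma tr_comm_A {a : M} (ha : a ∈ T.A) (x : M) : T.tr (a * x) = T.tr (x * a) := by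
  rw [tr, tr, T.φ_central a ha]

lemma sq_le_norm_smul {d : M} (hd : 0 ≤ d) : d * d ≤ ‖d‖ • d := by
  have hs := IsSelfAdjoint.of_nonneg hd
  conv_lhs => rw [← cfc_id' ℝ d, ← cfc_mul (fun x : ℝ => x) (fun x => x) d]
  conv_rhs => rw [← cfc_id' ℝ d]; arg 1; rw [cfc_id' ℝ d]
  rw [← cfc_smul (‖d‖) (fun x : ℝ => x) d]
  refine cfc_mono fun x hx => ?_
  rw [smul_eq_mul]
  refine mul_le_mul_of_nonneg_right ((Real.le_norm_self x).trans ?_) (spectrum_nonneg_of_nonneg hd hx)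
  cases subsingleton_or_nontrivial M
  · simp [spectrum.of_subsingleton] at hx
  · exact spectrum.norm_le_norm_of_mem hx

lemma n2_sq_le_norm_mul_tr {d : M} (hd : 0 ≤ d) : T.n2 d ^ 2 ≤ ‖d‖ * T.tr d := by
  rw [T.n2_sq, (IsSelfAdjoint.of_nonneg hd).star_eq, ← T.tr_smul]
  exact T.tr_mono (sq_le_norm_smul hd)

lemma n2_sq_proj {e : M} (he : IsStarProjection e) : T.n2 e ^ 2 = T.tr e := by
  rw [T.n2_sq, he.isSelfAdjoint.star_eq, he.isIdempotentElem.eq]

lemma le_norm_smul_one {a : M} (ha : IsSelfAdjoint a) : a ≤ ‖a‖ • (1 : M) := by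
  rw [← Algebra.algebraMap_eq_smul_one]
  exact IsSelfAdjoint.le_algebraMap_norm_self ha

/-- Right multiplication by the MASA is bounded. -/
lemma n2_mul_le_right (x : M) {a : M} (ha : a ∈ T.A) : T.n2 (x * a) ≤ T.n2 x * ‖a‖ := by
  set b := a * star a with hb
  have hbA : b ∈ T.A := mul_mem ha (star_mem ha)
  have hb0 : 0 ≤ b := mul_star_self_nonneg a
  have hbn : ‖b‖ = ‖a‖ * ‖a‖ := CStarRing.norm_self_mul_star
  set c := (‖b‖ • (1 : M)) - b with hc
  have hc0 : 0 ≤ c := sub_nonneg.2 (le_norm_smul_one (IsSelfAdjoint.of_nonneg hb0))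
  set d := CFC.sqrt c
  have hdA : d ∈ T.A := by
    refine T.A_max _ fun y hy => ?_
    have hcA : c ∈ T.A := by
      refine sub_mem ?_ hbA
      rw [← Complex.coe_smul]; exact T.A.smul_mem (one_mem _) _
    rw [show d = CFC.sqrt c from rfl, CFC.sqrt_eq_real_sqrt c hc0]
    exact ((Commute.cfcₙ_real (T.A_comm c hcA y hy : Commute c y) _).symm).eq
  have hds : star d = d := (IsSelfAdjoint.of_nonneg (CFC.sqrt_nonneg c)).star_eq
  have hdd : d * d = c := CFC.sqrt_mul_sqrt_self c hc0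
  have hz : 0 ≤ star x * x := star_mul_self_nonneg x
  have h1 : T.n2 (x * a) ^ 2 = T.tr (star x * x * b) := by
    rw [T.n2_sq, star_mul, mul_assoc, T.tr_comm_A (star_mem ha), hb]
    congr 1; noncomm_ring
  have h2 : T.tr (star (d) * (star x * x) * d) = T.tr (star x * x * c) := by
    rw [hds, mul_assoc, T.tr_comm_A hdA, mul_assoc, hdd]
  have h3 : 0 ≤ T.tr (star x * x * c) := h2 ▸ T.tr_nonneg (star_left_conjugate_nonneg hz d)
  rw [hc, mul_sub, T.tr_sub, mul_smul_comm, mul_one, T.tr_smul, ← h1, ← T.n2_sq, hbn] at h3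
  refine le_of_pow_le_pow_left₀ two_ne_zero (mul_nonneg (T.n2_nonneg _) (norm_nonneg _)) ?_
  nlinarith

/-- Convergence in the 2-norm. -/
def Tends {ι : Type*} (l : Filter ι) (x : ι → M) (y : M) : Prop :=
  Tendsto (fun i => T.n2 (x i - y)) l (𝓝 0)

variable {T} {ι : Type*} {l : Filter ι} {x x' : ι → M} {y y' : M}

lemma Tends.unique [l.NeBot] (h : T.Tends l x y) (h' : T.Tends l x y') : y = y' := by
  apply T.eq_of_n2
  refine le_antisymm ?_ (T.n2_nonneg _)
  have h2 := h.add h'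
  rw [add_zero] at h2
  refine ge_of_tendsto h2 (Eventually.of_forall fun i => ?_)
  rw [T.n2_sub_comm (x i) y]
  exact T.n2_sub_le y (x i) y'

lemma tends_const (c : M) : T.Tends l (fun _ => c) c := by
  simpa [Tends, T.n2_zero] using tendsto_const_nhds

lemma Tends.congr' (h : T.Tends l x y) (he : x =ᶠ[l] x') : T.Tends l x' y :=
  Tendsto.congr' (he.mono fun i hi => by simp [hi]) h

lemma Tends.add (h : T.Tends l x y) (h' : T.Tends l x' y') :
    T.Tends l (fun i => x i + x' i) (y + y') := by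
  have h2 := Tendsto.add h h'
  rw [add_zero] at h2
  refine squeeze_zero (fun i => T.n2_nonneg _) (fun i => ?_) h2
  rw [show x i + x' i - (y + y') = (x i - y) + (x' i - y') by abel]
  exact T.n2_add_le _ _

lemma Tends.neg (h : T.Tends l x y) : T.Tends l (fun i => - x i) (-y) := by
  refine Tendsto.congr (fun i => ?_) h
  rw [← T.n2_neg, neg_sub]; congr 1; abel

lemma Tends.sub (h : T.Tends l x y) (h' : T.Tends l x' y') :
    T.Tends l (fun i => x i - x' i) (y - y') := by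
  simpa [sub_eq_add_neg] using h.add h'.neg

lemma Tends.smul (c : ℂ) (h : T.Tends l x y) : T.Tends l (fun i => c • x i) (c • y) := by
  have h2 := Tendsto.const_mul ‖c‖ h
  rw [mul_zero] at h2
  refine Tendsto.congr (fun i => ?_) h2
  rw [← smul_sub, T.n2_smul]

lemma Tends.const_mul (a : M) (h : T.Tends l x y) :
    T.Tends l (fun i => a * x i) (a * y) := by
  have h2 := Tendsto.const_mul ‖a‖ h
  rw [mul_zero] at h2
  refine squeeze_zero (fun i => T.n2_nonneg _) (fun i => ?_) h2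
  rw [← mul_sub]; exact T.n2_mul_le_left _ _

lemma Tends.mul_mem (h : T.Tends l x y) {a : M} (ha : a ∈ T.A) :
    T.Tends l (fun i => x i * a) (y * a) := by
  have h2 := Tendsto.mul_const ‖a‖ h
  rw [zero_mul] at h2
  refine squeeze_zero (fun i => T.n2_nonneg _) (fun i => ?_) h2
  rw [← sub_mul]; exact T.n2_mul_le_right _ ha

/-- Right multiplication of a bounded convergent family. -/
lemma Tends.mul_right (h : T.Tends l x y) {C : ℝ} (hC : ∀ᶠ i in l, ‖x i‖ ≤ C) (z : M) :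
    T.Tends l (fun i => x i * z) (y * z) := by
  refine Metric.tendsto_nhds.2 fun ε hε => ?_
  obtain ⟨δ, hδ, hr⟩ := T.right_cont z (C + ‖y‖) (ε / 2) (half_pos hε)
  filter_upwards [hC, (Metric.tendsto_nhds.1 h) δ hδ] with i hi hi'
  rw [dist_zero_right, Real.norm_eq_abs, abs_of_nonneg (T.n2_nonneg _)] at hi' ⊢
  rw [← sub_mul]
  exact lt_of_le_of_lt (hr _ ((norm_sub_le _ _).trans (by linarith)) hi'.le) (half_lt_self hε)

lemma Tends.tendsto_φ (h : T.Tends l x y) : Tendsto (fun i => T.φ (x i)) l (𝓝 (T.φ y)) := by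
  rw [tendsto_iff_norm_sub_tendsto_zero]
  refine squeeze_zero (fun i => norm_nonneg _) (fun i => ?_) h
  rw [← map_sub]; exact T.norm_φ_le_n2 _

lemma Tends.tendsto_tr (h : T.Tends l x y) : Tendsto (fun i => T.tr (x i)) l (𝓝 (T.tr y)) :=
  (Complex.continuous_re.tendsto _).comp h.tendsto_φ

lemma Tends.isSelfAdjoint [l.NeBot] (h : T.Tends l x y) {C : ℝ} (hC : ∀ᶠ i in l, ‖x i‖ ≤ C)
    (hx : ∀ᶠ i in l, IsSelfAdjoint (x i)) : IsSelfAdjoint y := by
  set z := star (y - star y) with hz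
  have h1 : Tendsto (fun i => T.φ (x i * z)) l (𝓝 (T.φ (y * z))) :=
    (h.mul_right hC z).tendsto_φ
  have h2 : Tendsto (fun i => T.φ (x i * z)) l (𝓝 (T.φ (star y * z))) := by
    have h3 := (h.const_mul (star z)).tendsto_φ
    have h4 := ((RCLike.continuous_conj (K := ℂ)).tendsto _).comp h3
    have e : ∀ w, starRingEnd ℂ (T.φ (star z * w)) = T.φ (star w * z) := fun w => by
      rw [← Complex.star_def, ← map_star, star_mul, star_star]
    rw [e] at h4
    refine h4.congr' (hx.mono fun i hi => ?_)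
    show starRingEnd ℂ (T.φ (star z * x i)) = _
    rw [e, hi.star_eq]
  have h5 : T.φ ((y - star y) * z) = 0 := by
    rw [sub_mul, map_sub, tendsto_nhds_unique h1 h2, sub_self]
  have h6 : z = 0 := T.φ_faithful z (by rwa [hz, star_star, ← hz])
  rw [hz, star_eq_zero, sub_eq_zero] at h6
  exact h6.symm

lemma Tends.nonneg [l.NeBot] (h : T.Tends l x y) {C : ℝ} (hC : ∀ᶠ i in l, ‖x i‖ ≤ C)
    (hx : ∀ᶠ i in l, 0 ≤ x i) : 0 ≤ y := by
  have hys : IsSelfAdjoint y := h.isSelfAdjoint hC (hx.mono fun _ hi => IsSelfAdjoint.of_nonneg hi)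
  have hns : IsSelfAdjoint y⁻ := IsSelfAdjoint.of_nonneg (CFC.negPart_nonneg y)
  have h1 : 0 ≤ T.tr (y⁻ * (y * y⁻)) := by
    refine ge_of_tendsto ((h.mul_right hC y⁻).const_mul y⁻).tendsto_tr (hx.mono fun i hi => ?_)
    rw [← mul_assoc]
    exact T.tr_nonneg (hns.conjugate_nonneg hi)
  have h2 : y⁻ * (y * y⁻) = -(y⁻ * y⁻ * y⁻) := by
    nth_rewrite 2 [← CFC.posPart_sub_negPart y hys]
    rw [sub_mul, CFC.posPart_mul_negPart, zero_sub, mul_neg, mul_assoc]
  have h3 : 0 ≤ y⁻ * y⁻ * y⁻ := hns.conjugate_nonneg (CFC.negPart_nonneg y)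
  rw [h2, T.tr_neg] at h1
  have h4 : T.n2 (y⁻ * y⁻) = 0 := by
    have h5 : T.n2 (y⁻ * y⁻) ^ 2 ≤ ‖y⁻‖ * T.tr (y⁻ * y⁻ * y⁻) := by
      rw [T.n2_sq, star_mul, hns.star_eq, ← T.tr_smul]
      refine T.tr_mono ?_
      have := hns.conjugate_le_conjugate (sq_le_norm_smul (CFC.negPart_nonneg y))
      rw [mul_smul_comm, smul_mul_assoc] at this
      simpa [mul_assoc] using this
    have h6 := T.tr_nonneg h3
    have : T.tr (y⁻ * y⁻ * y⁻) = 0 := by linarith
    rw [this, mul_zero] at h5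
    nlinarith [T.n2_nonneg (y⁻ * y⁻)]
  have h7 : y⁻ * y⁻ = 0 := T.eq_zero_of_n2 h4
  have h8 : ‖y⁻‖ * ‖y⁻‖ = 0 := by
    rw [← CStarRing.norm_star_mul_self, hns.star_eq, h7, norm_zero]
  exact (CFC.negPart_eq_zero_iff y hys).1 (norm_eq_zero.1 (mul_self_eq_zero.1 h8))

lemma Tends.mono [l.NeBot] (h : T.Tends l x y) (h' : T.Tends l x' y') {C C' : ℝ}
    (hC : ∀ᶠ i in l, ‖x i‖ ≤ C) (hC' : ∀ᶠ i in l, ‖x' i‖ ≤ C')
    (hx : ∀ᶠ i in l, x i ≤ x' i) : y ≤ y' := by
  refine sub_nonneg.1 ((h'.sub h).nonneg (C := C' + C) ?_ (hx.mono fun _ hi => sub_nonneg.2 hi))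
  filter_upwards [hC, hC'] with i hi hi'
  exact (norm_sub_le _ _).trans (by linarith)

lemma Tends.mem_A [l.NeBot] (h : T.Tends l x y) (hx : ∀ᶠ i in l, x i ∈ T.A) : y ∈ T.A := by
  refine T.A_max y fun a ha => ?_
  exact (h.const_mul a).unique
    ((h.mul_mem ha).congr' (hx.mono fun i hi => (T.A_comm a ha _ hi).symm))

variable (T)

/-- A bounded sequence which is Cauchy in the 2-norm converges in the 2-norm. -/
lemma exists_tends (x : ℕ → M) (C : ℝ) (hC : ∀ n, ‖x n‖ ≤ C) (b : ℕ → ℝ)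
    (hb : ∀ n m, n ≤ m → T.n2 (x m - x n) ≤ b n) (hb0 : Tendsto b atTop (𝓝 0)) :
    ∃ y, ‖y‖ ≤ C ∧ T.Tends atTop x y := by
  have hcs : CauchySeq (fun n => T.φ.toPreGNS (x n)) := by
    refine cauchySeq_of_le_tendsto_0' b (fun n m hnm => ?_) hb0
    rw [dist_eq_norm, ← map_sub]
    exact (T.n2_sub_comm (x n) (x m)).trans_le (hb n m hnm)
  obtain ⟨y, hy, hlim⟩ := T.complete x C hC hcs
  refine ⟨y, hy, ?_⟩
  have := tendsto_iff_norm_sub_tendsto_zero.1 hlim
  simpa [Tends, n2, map_sub] using this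

/-- A bounded monotone sequence converges in the 2-norm. -/
lemma exists_tends_of_monotone (x : ℕ → M) (C : ℝ) (hC : ∀ n, ‖x n‖ ≤ C)
    (hm : Monotone x) : ∃ y, ‖y‖ ≤ C ∧ T.Tends atTop x y := by
  have hmt : Monotone (fun n => T.tr (x n)) := fun n m h => T.tr_mono (hm h)
  have hbdd : BddAbove (Set.range fun n => T.tr (x n)) :=
    ⟨C, by rintro _ ⟨n, rfl⟩; exact (le_abs_self _).trans ((T.abs_tr_le_norm _).trans (hC n))⟩
  set S := ⨆ n, T.tr (x n)
  have hlim : Tendsto (fun n => T.tr (x n)) atTop (𝓝 S) := tendsto_atTop_ciSup hmt hbdd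
  refine T.exists_tends x C hC (fun n => Real.sqrt (2 * C * (S - T.tr (x n)))) (fun n m h => ?_) ?_
  · refine Real.le_sqrt_of_sq_le ((T.n2_sq_le_norm_mul_tr (sub_nonneg.2 (hm h))).trans ?_)
    have h3 : ‖x m - x n‖ ≤ 2 * C := (norm_sub_le _ _).trans (by linarith [hC n, hC m])
    refine mul_le_mul h3 ?_ (T.tr_nonneg (sub_nonneg.2 (hm h)))
      (by linarith [(norm_nonneg _).trans (hC 0)])
    rw [T.tr_sub]; linarith [le_ciSup hbdd m]
  · have : Tendsto (fun n => 2 * C * (S - T.tr (x n))) atTop (𝓝 (2 * C * (S - S))) :=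
      (tendsto_const_nhds.sub hlim).const_mul _
    rw [sub_self, mul_zero] at this
    simpa using this.sqrt

end SMasa

end Vale.Agent.P078.Sing
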