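import Mathlib
import Vale.Agent.P078.Sing.Proj

/-!
# Partitions, pinchings, and the trace preserving conditional expectation onto the MASA
-/

open scoped ComplexOrder InnerProductSpace Topology
open Filter

namespace Vale.Agent.P078.Sing

universe u

variable {M : Type u} [CStarAlgebra M] [PartialOrder M] [StarOrderedRing M]

namespace SMasa

variable {T : SMasa M}

namespace Part

variable (P : T.Part)

lemma e_mul_e (i j : Fin P.n) : P.e i * P.e j = if i = j then P.e i else 0 := by
  by_cases h : i = j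
  · subst h; rw [if_pos rfl, (P.proj i).isIdempotentElem.eq]
  · rw [if_neg h, P.orth i j h]

lemma star_e (i : Fin P.n) : star (P.e i) = P.e i := (P.proj i).isSelfAdjoint.star_eq

lemma commute_A {a : M} (ha : a ∈ T.A) (i : Fin P.n) : Commute (P.e i) a :=
  T.A_comm _ (P.mem i) _ ha

end Part

/-- Refinement order: `P ≤ Q` if every piece of `Q` lies under a piece of `P`. -/
instance : Preorder T.Part where
  le P Q := ∀ k, ∃ i, Q.e k * P.e i = Q.e k
  le_refl P k := ⟨k, (P.proj k).isIdempotentElem.eq⟩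
  le_trans P Q R h1 h2 k := by
    obtain ⟨j, hj⟩ := h2 k
    obtain ⟨i, hi⟩ := h1 j
    exact ⟨i, by rw [← hj, mul_assoc, hi]⟩

variable (T)

/-- The trivial partition. -/
def trivPart : T.Part where
  n := 1
  e _ := 1
  mem _ := one_mem _
  proj _ := IsStarProjection.one M
  orth i j h := absurd (Subsingleton.elim i j) h
  sum_one := by simp

variable {T}

/-- Common refinement. -/
noncomputable def Part.inf (P Q : T.Part) : T.Part where
  n := P.n * Q.n
  e k := P.e (finProdFinEquiv.symm k).1 * Q.e (finProdFinEquiv.symm k).2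
  mem k := mul_mem (P.mem _) (Q.mem _)
  proj k := (P.proj _).mul (Q.proj _) (P.commute_A (Q.mem _) _)
  orth k l h := by
    have hne : finProdFinEquiv.symm k ≠ finProdFinEquiv.symm l :=
      fun hh => h (finProdFinEquiv.symm.injective hh)
    generalize finProdFinEquiv.symm k = a at *
    generalize finProdFinEquiv.symm l = b at *
    rw [(T.A_comm _ (P.mem b.1) _ (Q.mem b.2)), mul_assoc, ← mul_assoc (Q.e a.2) (Q.e b.2)]
    by_cases h2 : a.2 = b.2
    · have h1 : a.1 ≠ b.1 := fun h1 => hne (Prod.ext h1 h2)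
      rw [h2, Q.e_mul_e, if_pos rfl, ← T.A_comm _ (P.mem b.1) _ (Q.mem b.2), ← mul_assoc,
        P.orth _ _ h1, zero_mul]
    · rw [Q.orth _ _ h2, zero_mul, mul_zero]
  sum_one := by
    rw [← finProdFinEquiv.sum_comp]
    simp only [Equiv.symm_apply_apply, Fintype.sum_prod_type]
    rw [← Finset.sum_congr rfl (fun i _ => Finset.mul_sum _ _ (P.e i))]
    simp [Q.sum_one, P.sum_one]

lemma Part.le_inf_left (P Q : T.Part) : P ≤ P.inf Q := fun k =>
  ⟨(finProdFinEquiv.symm k).1, by
    show _ * _ * P.e _ = _ * _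
    rw [mul_assoc, ← (P.commute_A (Q.mem _) _).eq, ← mul_assoc,
      (P.proj _).isIdempotentElem.eq]⟩

lemma Part.le_inf_right (P Q : T.Part) : Q ≤ P.inf Q := fun k =>
  ⟨(finProdFinEquiv.symm k).2, by
    show _ * _ * Q.e _ = _ * _
    rw [mul_assoc, (Q.proj _).isIdempotentElem.eq]⟩

instance : IsDirectedOrder T.Part :=
  ⟨fun P Q => ⟨P.inf Q, Part.le_inf_left P Q, Part.le_inf_right P Q⟩⟩

instance : Nonempty T.Part := ⟨T.trivPart⟩

/-- The two-piece partition given by a projection. -/
def pairPart {p : M} (hp : IsStarProjection p) (hpA : p ∈ T.A) : T.Part where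
  n := 2
  e := ![p, 1 - p]
  mem := by
    intro i; fin_cases i
    · exact hpA
    · exact sub_mem (one_mem _) hpA
  proj := by
    intro i; fin_cases i
    · exact hp
    · exact hp.one_sub
  orth := by
    intro i j h; fin_cases i <;> fin_cases j
    · exact absurd rfl h
    · exact hp.mul_one_sub_self
    · exact hp.one_sub_mul_self
    · exact absurd rfl h
  sum_one := by simp [Fin.sum_univ_two]

/-- Pinching by a partition. -/
def pinch (P : T.Part) (x : M) : M := ∑ i, P.e i * x * P.e i

lemma pinch_star (P : T.Part) (x : M) : star (pinch P x) = pinch P (star x) := by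
  simp only [pinch, star_sum, star_mul, P.star_e, mul_assoc]

lemma pinch_add (P : T.Part) (x y : M) : pinch P (x + y) = pinch P x + pinch P y := by
  simp [pinch, mul_add, add_mul, Finset.sum_add_distrib]

lemma pinch_smul (P : T.Part) (c : ℂ) (x : M) : pinch P (c • x) = c • pinch P x := by
  simp [pinch, Finset.smul_sum]

lemma pinch_mul_left (P : T.Part) {a : M} (ha : a ∈ T.A) (x : M) :
    pinch P (a * x) = a * pinch P x := by
  simp only [pinch, Finset.mul_sum]
  refine Finset.sum_congr rfl fun i _ => ?_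
  rw [← mul_assoc (P.e i), (P.commute_A ha i).eq, mul_assoc a, mul_assoc a]

lemma pinch_mul_right (P : T.Part) {a : M} (ha : a ∈ T.A) (x : M) :
    pinch P (x * a) = pinch P x * a := by
  simp only [pinch, Finset.sum_mul]
  refine Finset.sum_congr rfl fun i _ => ?_
  rw [mul_assoc (P.e i), mul_assoc x, ← (P.commute_A ha i).eq]
  noncomm_ring

lemma pinch_eq_self (P : T.Part) {a : M} (ha : a ∈ T.A) : pinch P a = a := by
  simp only [pinch]
  conv_rhs => rw [← mul_one a, ← P.sum_one, Finset.mul_sum]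
  refine Finset.sum_congr rfl fun i _ => ?_
  rw [(P.commute_A ha i).eq, mul_assoc, (P.proj i).isIdempotentElem.eq]

lemma pinch_nonneg (P : T.Part) {x : M} (hx : 0 ≤ x) : 0 ≤ pinch P x :=
  Finset.sum_nonneg fun i _ => (P.proj i).isSelfAdjoint.conjugate_nonneg hx

lemma pinch_mono (P : T.Part) {x y : M} (h : x ≤ y) : pinch P x ≤ pinch P y :=
  Finset.sum_le_sum fun i _ => (P.proj i).isSelfAdjoint.conjugate_le_conjugate h

lemma φ_pinch (P : T.Part) (x : M) : T.φ (pinch P x) = T.φ x := by
  simp only [pinch, map_sum]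
  conv_rhs => rw [← one_mul x, ← P.sum_one, Finset.sum_mul, map_sum]
  refine Finset.sum_congr rfl fun i _ => ?_
  rw [← T.φ_central _ (P.mem i), ← mul_assoc, (P.proj i).isIdempotentElem.eq]

lemma star_pinch_mul_pinch (P : T.Part) (x : M) :
    star (pinch P x) * pinch P x = ∑ i, P.e i * star x * P.e i * x * P.e i := by
  rw [pinch_star]
  simp only [pinch, Finset.sum_mul, Finset.mul_sum]
  refine Finset.sum_congr rfl fun i _ => ?_
  rw [Finset.sum_eq_single i]
  · calc P.e i * star x * P.e i * (P.e i * x * P.e i)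
        = P.e i * star x * (P.e i * P.e i) * x * P.e i := by noncomm_ring
      _ = _ := by rw [(P.proj i).isIdempotentElem.eq]
  · intro j _ hj
    calc P.e j * star x * P.e j * (P.e i * x * P.e i)
        = P.e j * star x * (P.e j * P.e i) * x * P.e i := by noncomm_ring
      _ = 0 := by rw [P.orth j i hj]; simp
  · simp

lemma norm_pinch_le (P : T.Part) (x : M) : ‖pinch P x‖ ≤ ‖x‖ := by
  have h1 : star (pinch P x) * pinch P x ≤ (‖x‖ * ‖x‖) • (1 : M) := by
    have hx : star x * x ≤ (‖x‖ * ‖x‖) • (1 : M) := by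
      rw [← CStarRing.norm_star_mul_self]
      exact le_norm_smul_one (IsSelfAdjoint.star_mul_self x)
    refine le_trans ?_ ((pinch_mono P hx).trans_eq ?_)
    · rw [star_pinch_mul_pinch]
      refine Finset.sum_le_sum fun i _ => ?_
      rw [show P.e i * star x * P.e i * x * P.e i = P.e i * (star x * P.e i * x) * P.e i by
        noncomm_ring]
      refine (P.proj i).isSelfAdjoint.conjugate_le_conjugate ?_
      simpa using star_left_conjugate_le_conjugate (P.proj i).le_one x
    · rw [← Complex.coe_smul, pinch_smul, pinch_eq_self P (one_mem _)]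
  have h2 : ‖star (pinch P x) * pinch P x‖ ≤ ‖x‖ * ‖x‖ := by
    refine (CStarAlgebra.norm_le_iff_le_algebraMap _ (by positivity) (star_mul_self_nonneg _)).2 ?_
    rwa [Algebra.algebraMap_eq_smul_one]
  rw [CStarRing.norm_star_mul_self] at h2
  nlinarith [norm_nonneg x, norm_nonneg (pinch P x)]

lemma pinch_pinch {P Q : T.Part} (h : P ≤ Q) (x : M) : pinch Q (pinch P x) = pinch Q x := by
  unfold pinch
  refine Finset.sum_congr rfl fun k _ => ?_
  obtain ⟨i, hi⟩ := h k
  have hne : ∀ j, j ≠ i → Q.e k * P.e j = 0 := fun j hj => by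
    rw [← hi, mul_assoc, P.orth i j (Ne.symm hj), mul_zero]
  rw [Finset.mul_sum, Finset.sum_mul, Finset.sum_eq_single i]
  · calc Q.e k * (P.e i * x * P.e i) * Q.e k
        = (Q.e k * P.e i) * x * (P.e i * Q.e k) := by noncomm_ring
      _ = _ := by rw [(P.commute_A (Q.mem k) i).eq, hi]
  · intro j _ hj
    calc Q.e k * (P.e j * x * P.e j) * Q.e k
        = (Q.e k * P.e j) * x * (P.e j * Q.e k) := by noncomm_ring
      _ = 0 := by rw [hne j hj]; simp
  · simp

lemma φ_star_pinch_mul (P : T.Part) (x y : M) :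
    T.φ (star (pinch P x) * y) = T.φ (star x * pinch P y) := by
  rw [pinch_star]
  simp only [pinch, Finset.sum_mul, Finset.mul_sum, map_sum]
  refine Finset.sum_congr rfl fun i _ => ?_
  calc T.φ (P.e i * star x * P.e i * y) = T.φ (P.e i * (star x * P.e i * y)) := by
        rw [mul_assoc (P.e i) (star x) (P.e i), mul_assoc]
    _ = T.φ (star x * P.e i * y * P.e i) := T.φ_central _ (P.mem i) _
    _ = _ := by rw [mul_assoc (star x), mul_assoc (star x), mul_assoc]

lemma n2_pinch_sub_sq {P Q : T.Part} (h : P ≤ Q) (x : M) :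
    T.n2 (pinch P x - pinch Q x) ^ 2 = T.n2 (pinch P x) ^ 2 - T.n2 (pinch Q x) ^ 2 := by
  have h1 : T.φ (star (pinch Q x) * pinch P x) = T.φ (star (pinch Q x) * pinch Q x) := by
    rw [φ_star_pinch_mul Q x (pinch P x), φ_star_pinch_mul Q x (pinch Q x), pinch_pinch h,
      pinch_pinch le_rfl]
  have h2 : T.tr (star (pinch P x) * pinch Q x) = T.tr (star (pinch Q x) * pinch P x) := by
    have hs : ∀ z : M, T.tr (star z) = T.tr z := fun z => by
      simp [tr, map_star]
    rw [← hs, star_mul, star_star]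
  simp only [T.n2_sq, star_sub, sub_mul, mul_sub, T.tr_sub, h2]
  simp only [tr, h1]
  ring

lemma n2_pinch_anti {P Q : T.Part} (h : P ≤ Q) (x : M) : T.n2 (pinch Q x) ≤ T.n2 (pinch P x) := by
  have := n2_pinch_sub_sq h x
  nlinarith [sq_nonneg (T.n2 (pinch P x - pinch Q x)), T.n2_nonneg (pinch P x),
    T.n2_nonneg (pinch Q x)]

variable (T)

lemma exists_expect (x : M) :
    ∃ y, ‖y‖ ≤ ‖x‖ ∧ T.Tends atTop (fun P : T.Part => pinch P x) y := by
  set f : T.Part → ℝ := fun P => T.n2 (pinch P x) ^ 2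
  have hbb : BddBelow (Set.range f) := ⟨0, by rintro _ ⟨P, rfl⟩; exact sq_nonneg _⟩
  have hex : ∀ n : ℕ, ∃ P, f P < (⨅ P, f P) + 1 / ((n : ℝ) + 1) := fun n =>
    exists_lt_of_ciInf_lt (lt_add_of_pos_right _ (by positivity))
  choose P hP using hex
  let R : ℕ → T.Part := fun n => Nat.rec (P 0) (fun k r => r.inf (P (k + 1))) n
  have hRP : ∀ n, P n ≤ R n := fun n => by
    cases n with
    | zero => exact le_rfl
    | succ k => exact Part.le_inf_right _ _
  have hRm : Monotone R := monotone_nat_of_le_succ fun n => Part.le_inf_left _ _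
  have key : ∀ n Q, R n ≤ Q →
      T.n2 (pinch (R n) x - pinch Q x) ≤ Real.sqrt (1 / ((n : ℝ) + 1)) := by
    intro n Q hQ
    refine Real.le_sqrt_of_sq_le ?_
    rw [n2_pinch_sub_sq hQ]
    have h1 : f (R n) ≤ f (P n) :=
      pow_le_pow_left₀ (T.n2_nonneg _) (n2_pinch_anti (hRP n) x) 2
    have h2 := ciInf_le hbb Q
    have h3 := hP n
    simp only [f] at *
    linarith
  have h0 : Tendsto (fun n : ℕ => Real.sqrt (1 / ((n : ℝ) + 1))) atTop (𝓝 0) := by
    simpa using (tendsto_one_div_add_atTop_nhds_zero_nat (𝕜 := ℝ)).sqrt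
  obtain ⟨y, hy, hlim⟩ := T.exists_tends (fun n => pinch (R n) x) ‖x‖
    (fun n => norm_pinch_le _ x) _
    (fun n m h => (T.n2_sub_comm _ _).trans_le (key n (R m) (hRm h))) h0
  refine ⟨y, hy, Metric.tendsto_nhds.2 fun ε hε => ?_⟩
  have h5 : Tendsto (fun n : ℕ => Real.sqrt (1 / ((n : ℝ) + 1)) + T.n2 (pinch (R n) x - y))
      atTop (𝓝 0) := by
    simpa using h0.add hlim
  obtain ⟨n, hn⟩ := (h5.eventually (gt_mem_nhds hε)).exists
  refine (eventually_ge_atTop (R n)).mono fun Q hQ => ?_
  rw [dist_zero_right, Real.norm_eq_abs, abs_of_nonneg (T.n2_nonneg _)]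
  refine lt_of_le_of_lt ?_ hn
  refine (T.n2_sub_le _ (pinch (R n) x) _).trans ?_
  rw [T.n2_sub_comm]
  exact add_le_add (key n Q hQ) le_rfl

/-- The trace preserving conditional expectation onto the MASA. -/
noncomputable def E (x : M) : M := (T.exists_expect x).choose

lemma tends_E (x : M) : T.Tends atTop (fun P : T.Part => pinch P x) (T.E x) :=
  (T.exists_expect x).choose_spec.2

lemma norm_E_le (x : M) : ‖T.E x‖ ≤ ‖x‖ := (T.exists_expect x).choose_spec.1

lemma E_commute_proj (x : M) {p : M} (hp : IsStarProjection p) (hpA : p ∈ T.A) :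
    Commute p (T.E x) := by
  refine ((T.tends_E x).const_mul p).unique (((T.tends_E x).mul_mem hpA).congr' ?_)
  refine (eventually_ge_atTop (pairPart hp hpA)).mono fun Q hQ => ?_
  simp only [pinch, Finset.mul_sum, Finset.sum_mul]
  refine Finset.sum_congr rfl fun k _ => ?_
  obtain ⟨i, hi⟩ := hQ k
  have hc := (Q.commute_A hpA k).eq
  rw [show p * (Q.e k * x * Q.e k) = (p * Q.e k) * x * Q.e k by noncomm_ring, ← hc,
    mul_assoc (Q.e k * x) (Q.e k) p]
  fin_cases i
  · have hi' : Q.e k * p = Q.e k := by simpa [pairPart] using hi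
    rw [hi']
  · have hi' : Q.e k * p = 0 := by
      have : Q.e k * (1 - p) = Q.e k := by simpa [pairPart] using hi
      rwa [mul_sub, mul_one, sub_eq_self] at this
    rw [hi']; simp

lemma E_mem (x : M) : T.E x ∈ T.A := by
  refine T.A_max _ fun a ha => ?_
  -- reduce to self-adjoint elements, then use the staircase
  suffices h : ∀ b ∈ T.A, IsSelfAdjoint b → Commute b (T.E x) by
    have h1 : realPart a + Complex.I • (imaginaryPart a : M) = a :=
      realPart_add_I_smul_imaginaryPart a
    have hre : (realPart a : M) ∈ T.A := by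
      rw [realPart_apply_coe]; exact T.real_smul_mem_A (add_mem ha (star_mem ha)) _
    have him : (imaginaryPart a : M) ∈ T.A := by
      rw [imaginaryPart_apply_coe]
      exact T.A.smul_mem (T.real_smul_mem_A (sub_mem ha (star_mem ha)) _) _
    have := (h _ hre (realPart a).2).add_left ((h _ him (imaginaryPart a).2).smul_left Complex.I)
    rw [h1] at this
    exact this.eq
  intro b hb hbs
  refine eq_of_forall_dist_le fun ε hε => ?_
  obtain ⟨P, t, ht, -⟩ := T.exists_staircase hb hbs
    (h := ε / (2 * (‖T.E x‖ + 1))) (by positivity)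
  set s := ∑ i, t i • P.e i
  have hs : Commute s (T.E x) :=
    Commute.sum_left _ _ _ fun i _ => (T.E_commute_proj x (P.proj i) (P.mem i)).smul_left (t i)
  rw [dist_eq_norm, show b * T.E x - T.E x * b = (b - s) * T.E x - T.E x * (b - s) by
    rw [sub_mul, mul_sub, hs.eq]; abel]
  refine (norm_sub_le _ _).trans ((add_le_add (norm_mul_le _ _) (norm_mul_le _ _)).trans ?_)
  have h2 : ‖b - s‖ * (‖T.E x‖ + 1) ≤ ε / 2 := by
    refine (mul_le_mul_of_nonneg_right ht (by positivity)).trans_eq ?_
    field_simp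
  nlinarith [norm_nonneg (b - s), norm_nonneg (T.E x)]

lemma E_of_mem {a : M} (ha : a ∈ T.A) : T.E a = a :=
  (T.tends_E a).unique ((tends_const a).congr'
    (Eventually.of_forall fun P => (pinch_eq_self P ha).symm))

lemma E_add (x y : M) : T.E (x + y) = T.E x + T.E y :=
  (T.tends_E (x + y)).unique (((T.tends_E x).add (T.tends_E y)).congr'
    (Eventually.of_forall fun P => (pinch_add P x y).symm))

lemma E_smul (c : ℂ) (x : M) : T.E (c • x) = c • T.E x :=
  (T.tends_E (c • x)).unique (((T.tends_E x).smul c).congr'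
    (Eventually.of_forall fun P => (pinch_smul P c x).symm))

lemma E_isSelfAdjoint {x : M} (hx : IsSelfAdjoint x) : IsSelfAdjoint (T.E x) :=
  (T.tends_E x).isSelfAdjoint (Eventually.of_forall fun P => norm_pinch_le P x)
    (Eventually.of_forall fun P => by rw [IsSelfAdjoint, pinch_star, hx.star_eq])

lemma E_star (x : M) : T.E (star x) = star (T.E x) := by
  have hre : ((realPart x : selfAdjoint M) : M) + Complex.I • ((imaginaryPart x : selfAdjoint M) : M) = x :=
    realPart_add_I_smul_imaginaryPart x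
  set u : M := ((realPart x : selfAdjoint M) : M)
  set v : M := ((imaginaryPart x : selfAdjoint M) : M)
  have hu : IsSelfAdjoint u := (realPart x).2
  have hv : IsSelfAdjoint v := (imaginaryPart x).2
  rw [← hre, star_add, star_smul, hu.star_eq, hv.star_eq, T.E_add, T.E_add, T.E_smul, T.E_smul,
    star_add, star_smul, (T.E_isSelfAdjoint hu).star_eq, (T.E_isSelfAdjoint hv).star_eq]

lemma E_mul_left {a : M} (ha : a ∈ T.A) (x : M) : T.E (a * x) = a * T.E x :=
  (T.tends_E (a * x)).unique (((T.tends_E x).const_mul a).congr'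
    (Eventually.of_forall fun P => (pinch_mul_left P ha x).symm))

lemma E_mul_right (x : M) {a : M} (ha : a ∈ T.A) : T.E (x * a) = T.E x * a :=
  (T.tends_E (x * a)).unique (((T.tends_E x).mul_mem ha).congr'
    (Eventually.of_forall fun P => (pinch_mul_right P ha x).symm))

lemma E_nonneg {x : M} (hx : 0 ≤ x) : 0 ≤ T.E x :=
  (T.tends_E x).nonneg (Eventually.of_forall fun P => norm_pinch_le P x)
    (Eventually.of_forall fun P => pinch_nonneg P hx)

lemma φ_E (x : M) : T.φ (T.E x) = T.φ x :=
  tendsto_nhds_unique (T.tends_E x).tendsto_φ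
    (tendsto_const_nhds.congr fun P => (φ_pinch P x).symm)

lemma tr_E (x : M) : T.tr (T.E x) = T.tr x := by rw [tr, tr, T.φ_E]

lemma φ_mul_E {a : M} (ha : a ∈ T.A) (x : M) : T.φ (a * T.E x) = T.φ (a * x) := by
  rw [← T.E_mul_left ha, T.φ_E]

lemma n2_E_le (x : M) : T.n2 (T.E x) ≤ T.n2 x := by
  have h1 : T.n2 (T.E x) ^ 2 = T.tr (star (T.E x) * x) := by
    rw [T.n2_sq, tr, tr, T.φ_mul_E (star_mem (T.E_mem x))]
  have h2 := T.abs_tr_star_mul_le (T.E x) x
  rw [← h1, abs_of_nonneg (sq_nonneg _)] at h2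
  nlinarith [T.n2_nonneg (T.E x), T.n2_nonneg x]

/-- `E` as a continuous linear map. -/
noncomputable def EL : M →L[ℂ] M :=
  LinearMap.mkContinuous { toFun := T.E, map_add' := T.E_add, map_smul' := T.E_smul } 1
    fun x => by simpa using T.norm_E_le x

@[simp] lemma EL_apply (x : M) : T.EL x = T.E x := rfl

lemma E_zero : T.E 0 = 0 := by simpa using map_zero T.EL

lemma E_mono {x y : M} (h : x ≤ y) : T.E x ≤ T.E y := by
  have := T.E_nonneg (sub_nonneg.2 h)
  rwa [show y - x = y + (-1 : ℂ) • x by simp [sub_eq_add_neg], T.E_add, T.E_smul, neg_one_smul, ← sub_eq_add_neg, sub_nonneg] at this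

lemma E_neg (x : M) : T.E (-x) = -T.E x := by simpa using map_neg T.EL x

lemma E_sub (x y : M) : T.E (x - y) = T.E x - T.E y := by simpa using map_sub T.EL x y

lemma E_sum {ι : Type*} (s : Finset ι) (f : ι → M) : T.E (∑ i ∈ s, f i) = ∑ i ∈ s, T.E (f i) :=
  map_sum T.EL f s

end SMasa

end Vale.Agent.P078.Sing
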