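import Mathlib
import Vale.Agent.P078.Sing.RA

/-!
# The square mass of the compressions of the MASA by an element, and selection of a homomorphism

For `W` in `M` we consider the additive map `e ↦ E (W* e W)` on projections of the MASA. If the sum
of the squares of its values does not tend to `0` along refining partitions, then, below a cell,
it selects a Boolean homomorphism.
-/

open scoped ComplexOrder InnerProductSpace Topology
open Filter

set_option linter.unusedSectionVars false

namespace Vale.Agent.P078.Sing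

universe u

variable {M : Type u} [CStarAlgebra M] [PartialOrder M] [StarOrderedRing M]

namespace SMasa

variable (T : SMasa M)

/-- A projection of the MASA. -/
def AProj (e : M) : Prop := e ∈ T.A ∧ IsStarProjection e

variable {T}

lemma AProj.ra {e : M} (h : T.AProj e) : T.IsRA e := isRA_of_proj h.1 h.2

lemma AProj.one_sub {e : M} (h : T.AProj e) : T.AProj (1 - e) :=
  ⟨sub_mem (one_mem _) h.1, h.2.one_sub⟩

lemma AProj.mul {e f : M} (he : T.AProj e) (hf : T.AProj f) : T.AProj (e * f) :=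
  ⟨mul_mem he.1 hf.1, he.2.mul hf.2 (T.A_comm _ he.1 _ hf.1)⟩

lemma AProj.add {e f : M} (he : T.AProj e) (hf : T.AProj f) (h : e * f = 0) : T.AProj (e + f) :=
  ⟨add_mem he.1 hf.1, he.2.add hf.2 h⟩

lemma aproj_one : T.AProj (1 : M) := ⟨one_mem _, IsStarProjection.one M⟩

lemma aproj_zero : T.AProj (0 : M) := ⟨zero_mem _, IsStarProjection.zero M⟩

lemma Part.aproj (P : T.Part) (i : Fin P.n) : T.AProj (P.e i) := ⟨P.mem i, P.proj i⟩

lemma aproj_cut {b : M} (hb : b ∈ T.A) (θ : ℝ) : T.AProj (T.cut b θ) :=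
  ⟨T.cut_mem_A θ hb, T.cut_isStarProjection θ b⟩

/-- Elements commuting with every projection of the MASA belong to it. -/
lemma mem_A_of_commute_proj {y : M} (h : ∀ e, T.AProj e → e * y = y * e) : y ∈ T.A := by
  refine T.A_max _ fun a ha => ?_
  suffices h2 : ∀ b ∈ T.A, IsSelfAdjoint b → Commute b y by
    have h1 : realPart a + Complex.I • (imaginaryPart a : M) = a :=
      realPart_add_I_smul_imaginaryPart a
    have hre : (realPart a : M) ∈ T.A := by
      rw [realPart_apply_coe]; exact T.real_smul_mem_A (add_mem ha (star_mem ha)) _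
    have him : (imaginaryPart a : M) ∈ T.A := by
      rw [imaginaryPart_apply_coe]
      exact T.A.smul_mem (T.real_smul_mem_A (sub_mem ha (star_mem ha)) _) _
    have := (h2 _ hre (realPart a).2).add_left ((h2 _ him (imaginaryPart a).2).smul_left Complex.I)
    rw [h1] at this
    exact this.eq
  intro b hb hbs
  refine eq_of_forall_dist_le fun ε hε => ?_
  obtain ⟨P, t, ht, -⟩ := T.exists_staircase hb hbs
    (h := ε / (2 * (‖y‖ + 1))) (by positivity)
  set s := ∑ i, t i • P.e i
  have hs : Commute s y :=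
    Commute.sum_left _ _ _ fun i _ => (show Commute (P.e i) y from h _ (P.aproj i)).smul_left (t i)
  rw [dist_eq_norm, show b * y - y * b = (b - s) * y - y * (b - s) by
    rw [sub_mul, mul_sub, hs.eq]; abel]
  refine (norm_sub_le _ _).trans ((add_le_add (norm_mul_le _ _) (norm_mul_le _ _)).trans ?_)
  have h2 : ‖b - s‖ * (‖y‖ + 1) ≤ ε / 2 := by
    refine (mul_le_mul_of_nonneg_right ht (by positivity)).trans_eq ?_
    field_simp
  nlinarith [norm_nonneg (b - s), norm_nonneg y]

variable (T)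

/-- `E (W* e W)`. -/
noncomputable def comp (W e : M) : M := T.E (star W * e * W)

/-- The sum of the squared norms of the compressions of the cells. -/
noncomputable def mass (W : M) (P : T.Part) : ℝ := ∑ i, T.tr (T.comp W (P.e i) * T.comp W (P.e i))

variable {T} {W : M}

lemma comp_mem (e : M) : T.comp W e ∈ T.A := T.E_mem _

lemma comp_nonneg {e : M} (he : T.AProj e) : 0 ≤ T.comp W e :=
  T.E_nonneg (star_left_conjugate_nonneg he.2.nonneg W)

lemma isRA_comp {e : M} (he : T.AProj e) : T.IsRA (T.comp W e) :=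
  ⟨comp_mem e, IsSelfAdjoint.of_nonneg (comp_nonneg he)⟩

lemma val_comp_nonneg {e : M} (he : T.AProj e) (χ : T.Chi) : 0 ≤ T.val χ (T.comp W e) :=
  val_nonneg χ (comp_mem e) (comp_nonneg he)

lemma comp_add (e f : M) : T.comp W (e + f) = T.comp W e + T.comp W f := by
  rw [comp, mul_add, add_mul, T.E_add]; rfl

lemma comp_sum {ι : Type*} (s : Finset ι) (f : ι → M) :
    T.comp W (∑ i ∈ s, f i) = ∑ i ∈ s, T.comp W (f i) := by
  rw [comp, Finset.mul_sum, Finset.sum_mul, T.E_sum]; rfl

lemma comp_zero : T.comp W 0 = 0 := by rw [comp, mul_zero, zero_mul, T.E_zero]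

lemma norm_comp_le {e : M} (he : T.AProj e) : ‖T.comp W e‖ ≤ ‖W‖ * ‖W‖ := by
  refine (T.norm_E_le _).trans ((norm_mul₃_le).trans ?_)
  rw [norm_star]
  exact (mul_le_mul_of_nonneg_right (mul_le_of_le_one_right (norm_nonneg _) he.2.norm_le)
    (norm_nonneg _))

lemma comp_mono {e f : M} (he : T.AProj e) (hf : T.AProj f) (h : e * f = e) :
    T.comp W e ≤ T.comp W f := by
  have hd : f * (1 - e) = f - e := by
    rw [mul_sub, mul_one, T.A_comm _ hf.1 _ he.1, h]
  have := comp_nonneg (W := W) (hd ▸ hf.mul he.one_sub : T.AProj (f - e))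
  have e1 : T.comp W f = T.comp W e + T.comp W (f - e) := by rw [← comp_add, add_sub_cancel]
  rw [e1]
  exact le_add_of_nonneg_right this

/-- The squares of nonnegative numbers sum to at most the square of their sum. -/
lemma sum_sq_le_sq_sum {ι : Type*} (s : Finset ι) {x : ι → ℝ} (hx : ∀ i ∈ s, 0 ≤ x i) :
    ∑ i ∈ s, x i * x i ≤ (∑ i ∈ s, x i) * ∑ i ∈ s, x i := by
  rw [Finset.sum_mul]
  exact Finset.sum_le_sum fun i hi =>
    mul_le_mul_of_nonneg_left (Finset.single_le_sum hx hi) (hx i hi)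

/-- The deficiency of a cell `f` along a partition. -/
noncomputable def defect (T : SMasa M) (W f : M) (Q : T.Part) : M :=
  T.comp W f * T.comp W f - ∑ k, T.comp W (Q.e k * f) * T.comp W (Q.e k * f)

lemma comp_split (Q : T.Part) (f : M) : ∑ k, T.comp W (Q.e k * f) = T.comp W f := by
  rw [← comp_sum, ← Finset.sum_mul, Q.sum_one, one_mul]

lemma isRA_defect {f : M} (hf : T.AProj f) (Q : T.Part) : T.IsRA (T.defect W f Q) :=
  ((isRA_comp hf).mul (isRA_comp hf)).sub
    (isRA_sum fun k _ => (isRA_comp ((Q.aproj k).mul hf)).mul (isRA_comp ((Q.aproj k).mul hf)))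

lemma val_defect {f : M} (hf : T.AProj f) (Q : T.Part) (χ : T.Chi) :
    T.val χ (T.defect W f Q) = T.val χ (T.comp W f) * T.val χ (T.comp W f) -
      ∑ k, T.val χ (T.comp W (Q.e k * f)) * T.val χ (T.comp W (Q.e k * f)) := by
  have hk := fun k => isRA_comp (W := W) ((Q.aproj k).mul hf)
  rw [defect, ((isRA_comp hf).mul (isRA_comp hf)).val_sub χ
      (isRA_sum fun k _ => (hk k).mul (hk k)),
    (isRA_comp hf).val_mul χ (isRA_comp hf), val_sum χ _ _ fun k _ => ((hk k).mul (hk k)).mem]
  exact congrArg _ (Finset.sum_congr rfl fun k _ => (hk k).val_mul χ (hk k))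

lemma val_comp_split {f : M} (hf : T.AProj f) (Q : T.Part) (χ : T.Chi) :
    ∑ k, T.val χ (T.comp W (Q.e k * f)) = T.val χ (T.comp W f) := by
  rw [← val_sum χ _ _ fun k _ => (isRA_comp ((Q.aproj k).mul hf)).mem, comp_split]

lemma defect_nonneg {f : M} (hf : T.AProj f) (Q : T.Part) : 0 ≤ T.defect W f Q := by
  refine (isRA_defect hf Q).nonneg_of_val fun χ => ?_
  rw [val_defect hf Q χ, ← val_comp_split hf Q χ, sub_nonneg]
  exact sum_sq_le_sq_sum _ fun k _ => val_comp_nonneg ((Q.aproj k).mul hf) χ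

lemma norm_defect_le {f : M} (hf : T.AProj f) (Q : T.Part) :
    ‖T.defect W f Q‖ ≤ (‖W‖ * ‖W‖) * (‖W‖ * ‖W‖) := by
  refine (CStarAlgebra.norm_le_norm_of_nonneg_of_le (defect_nonneg hf Q) ?_).trans
    ((norm_mul_le _ _).trans (mul_le_mul (norm_comp_le hf) (norm_comp_le hf) (norm_nonneg _)
      (by positivity)))
  rw [defect, sub_le_self_iff]
  refine Finset.sum_nonneg fun k _ => ?_
  have := (isRA_comp (W := W) ((Q.aproj k).mul hf)).sa
  conv => arg 2; arg 1; rw [← this.star_eq]
  exact star_mul_self_nonneg _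

/-- Along a refinement every cell lies in exactly one old cell. -/
lemma sum_parent {N : Type*} [AddCommMonoid N] {P Q : T.Part} (h : P ≤ Q) (F : M → N) (hF : F 0 = 0)
    (f : M) (k : Fin Q.n) : ∑ i, F (Q.e k * P.e i * f) = F (Q.e k * f) := by
  obtain ⟨i, hi⟩ := h k
  rw [Finset.sum_eq_single i, hi]
  · intro j _ hj
    rw [← hi, mul_assoc (Q.e k), P.orth i j (Ne.symm hj), mul_zero, zero_mul, hF]
  · simp

lemma defect_mono {f : M} (hf : T.AProj f) {P Q : T.Part} (h : P ≤ Q) :
    T.defect W f P ≤ T.defect W f Q := by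
  refine (isRA_defect hf P).le_of_val (isRA_defect hf Q) fun χ => ?_
  rw [val_defect hf P χ, val_defect hf Q χ, sub_le_sub_iff_left]
  set F : M → ℝ := fun e => T.val χ (T.comp W e) * T.val χ (T.comp W e) with hF
  have hF0 : F 0 = 0 := by simp [hF, comp_zero, val_zero]
  show ∑ k, F (Q.e k * f) ≤ ∑ i, F (P.e i * f)
  rw [← Finset.sum_congr rfl fun k _ => sum_parent h F hF0 f k, Finset.sum_comm]
  refine Finset.sum_le_sum fun i _ => ?_
  have hpi := (P.aproj i).mul hf
  have hs : ∑ k, T.val χ (T.comp W (Q.e k * P.e i * f)) = T.val χ (T.comp W (P.e i * f)) := by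
    simpa [mul_assoc] using val_comp_split (W := W) hpi Q χ
  show ∑ k, F (Q.e k * P.e i * f) ≤ F (P.e i * f)
  simp only [hF]
  rw [← hs]
  exact sum_sq_le_sq_sum _ fun k _ => val_comp_nonneg (((Q.aproj k).mul (P.aproj i)).mul hf) χ

lemma mass_eq_sub_defect (Q : T.Part) :
    T.mass W Q = T.tr (T.comp W 1 * T.comp W 1) - T.tr (T.defect W 1 Q) := by
  simp only [defect, T.tr_sub, T.tr_sum, mass, mul_one, sub_sub_cancel]

lemma tr_defect_cells {P Q : T.Part} (h : P ≤ Q) :
    ∑ i, T.tr (T.defect W (P.e i) Q) = T.mass W P - T.mass W Q := by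
  simp only [defect, T.tr_sub, Finset.sum_sub_distrib, T.tr_sum, mass]
  congr 1
  rw [Finset.sum_comm]
  refine Finset.sum_congr rfl fun k _ => ?_
  have := sum_parent h (fun e => T.tr (T.comp W e * T.comp W e))
    (by simp [comp_zero, T.tr_zero]) 1 k
  simpa using this

lemma mass_nonneg (P : T.Part) : 0 ≤ T.mass W P := Finset.sum_nonneg fun i _ => by
  have h := (isRA_comp (W := W) (P.aproj i)).sa
  refine T.tr_nonneg ?_
  conv => arg 2; arg 1; rw [← h.star_eq]
  exact star_mul_self_nonneg _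

lemma mass_anti {P Q : T.Part} (h : P ≤ Q) : T.mass W Q ≤ T.mass W P := by
  have := tr_defect_cells (W := W) h
  have h0 : 0 ≤ ∑ i, T.tr (T.defect W (P.e i) Q) :=
    Finset.sum_nonneg fun i _ => T.tr_nonneg (defect_nonneg (P.aproj i) Q)
  linarith

/-- A Boolean homomorphism from the projections of the MASA onto those below `g`. -/
structure BHom (T : SMasa M) (π : M → M) (g : M) : Prop where
  one : π 1 = g
  proj : ∀ e, T.AProj e → T.AProj (π e)
  orth : ∀ e f, T.AProj e → T.AProj f → e * f = 0 → π e * π f = 0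
  add : ∀ e f, T.AProj e → T.AProj f → e * f = 0 → π (e + f) = π e + π f

/-- The supremum of the deficiencies below a cell. -/
lemma exists_defect_bound {c : ℝ} (hc : ∀ P, c ≤ T.mass W P) {P : T.Part} {δ : ℝ} (hδ : 0 < δ)
    (hP : T.mass W P ≤ (⨅ Q, T.mass W Q) + δ) :
    ∃ D : Fin P.n → M, (∀ i, T.IsRA (D i)) ∧ (∀ i, 0 ≤ D i) ∧ ∑ i, T.tr (D i) ≤ δ ∧
      ∀ i Q, P ≤ Q → T.defect W (P.e i) Q ≤ D i := by
  set m := ⨅ Q, T.mass W Q
  have hbb : BddBelow (Set.range fun Q => T.mass W Q) :=
    ⟨c, by rintro _ ⟨Q, rfl⟩; exact hc Q⟩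
  have hex : ∀ n : ℕ, ∃ Q, T.mass W Q < m + 1 / ((n : ℝ) + 1) := fun n =>
    exists_lt_of_ciInf_lt (lt_add_of_pos_right _ (by positivity))
  choose Q0 hQ0 using hex
  let R : ℕ → T.Part := fun n => Nat.rec P (fun k r => r.inf (Q0 k)) n
  have hRm : Monotone R := monotone_nat_of_le_succ fun n => Part.le_inf_left _ _
  have hPR : ∀ n, P ≤ R n := fun n => hRm (Nat.zero_le n)
  have hC : ∀ i n, ‖T.defect W (P.e i) (R n)‖ ≤ (‖W‖ * ‖W‖) * (‖W‖ * ‖W‖) := fun i n =>
    norm_defect_le (P.aproj i) _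
  have hlim : ∀ i, ∃ D, T.Tends atTop (fun n => T.defect W (P.e i) (R n)) D := fun i =>
    (T.exists_tends_of_monotone _ _ (hC i) fun n m h => defect_mono (P.aproj i) (hRm h)).imp
      fun D h => h.2
  choose D hD using hlim
  refine ⟨D, fun i => ⟨(hD i).mem_A (Eventually.of_forall fun n => (isRA_defect (P.aproj i) _).mem),
    (hD i).isSelfAdjoint (Eventually.of_forall (hC i))
      (Eventually.of_forall fun n => (isRA_defect (P.aproj i) _).sa)⟩,
    fun i => (hD i).nonneg (Eventually.of_forall (hC i))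
      (Eventually.of_forall fun n => defect_nonneg (P.aproj i) _), ?_, fun i Q hQ => ?_⟩
  · refine le_of_tendsto (tendsto_finsetSum _ fun i _ => (hD i).tendsto_tr)
      (Eventually.of_forall fun n => ?_)
    rw [tr_defect_cells (hPR n)]
    linarith [ciInf_le hbb (R n)]
  · have h2 : T.Tends atTop (fun n => T.defect W (P.e i) ((R n).inf Q)) (D i) := by
      refine squeeze_zero' (Eventually.of_forall fun _ => T.n2_nonneg _)
        (g := fun n => T.n2 (T.defect W (P.e i) ((R n).inf Q) - T.defect W (P.e i) (R n)) +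
          T.n2 (T.defect W (P.e i) (R n) - D i))
        (Eventually.of_forall fun n => T.n2_sub_le _ _ _) ?_
      have h3 : Tendsto (fun n => T.n2 (T.defect W (P.e i) ((R n).inf Q) -
          T.defect W (P.e i) (R n))) atTop (𝓝 0) := by
        set B := (‖W‖ * ‖W‖) * (‖W‖ * ‖W‖)
        rw [← tendsto_add_atTop_iff_nat 1]
        have hg : Tendsto (fun n : ℕ => Real.sqrt (2 * B * (1 / ((n : ℝ) + 1)))) atTop (𝓝 0) := by
          simpa using ((tendsto_one_div_add_atTop_nhds_zero_nat (𝕜 := ℝ)).const_mul (2 * B)).sqrt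
        refine squeeze_zero (fun n => T.n2_nonneg _) (fun n => ?_) hg
        set R' := R (n + 1)
        have hle : R' ≤ R'.inf Q := Part.le_inf_left _ _
        have hn : ∀ j, 0 ≤ T.defect W (P.e j) (R'.inf Q) - T.defect W (P.e j) R' := fun j =>
          sub_nonneg.2 (defect_mono (P.aproj j) hle)
        refine Real.le_sqrt_of_sq_le ((T.n2_sq_le_norm_mul_tr (hn i)).trans ?_)
        refine mul_le_mul ((norm_sub_le _ _).trans ?_) ?_ (T.tr_nonneg (hn i))
          (by positivity)
        · linarith [norm_defect_le (W := W) (P.aproj i) (R'.inf Q),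
            norm_defect_le (W := W) (P.aproj i) R']
        · refine (Finset.single_le_sum (fun j _ => T.tr_nonneg (hn j)) (Finset.mem_univ i)).trans ?_
          simp only [T.tr_sub, Finset.sum_sub_distrib]
          rw [tr_defect_cells ((hPR (n + 1)).trans hle), tr_defect_cells (hPR (n + 1))]
          have h5 : T.mass W R' ≤ T.mass W (Q0 n) := mass_anti (Part.le_inf_right _ _)
          linarith [ciInf_le hbb (R'.inf Q), hQ0 n]
      simpa using h3.add (hD i)
    exact (tends_const (T.defect W (P.e i) Q)).mono h2 (Eventually.of_forall fun _ => le_rfl)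
      (Eventually.of_forall fun n => norm_defect_le (P.aproj i) _)
      (Eventually.of_forall fun n => defect_mono (P.aproj i) (Part.le_inf_right _ _))

/-- Below a suitable cell the compressions select a Boolean homomorphism. -/
theorem exists_hom {c : ℝ} (hc0 : 0 < c) (hc : ∀ P, c ≤ T.mass W P) :
    ∃ (e0 g : M) (π : M → M) (θ : ℝ), T.AProj e0 ∧ T.BHom π g ∧ g ≠ 0 ∧ 0 < θ ∧
      ∀ e, T.AProj e → θ • π e ≤ T.comp (e0 * W) e := by
  set B := ‖W‖ * ‖W‖ with hB
  have hB0 : 0 ≤ B := by positivity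
  set θ := c / (2 * (B + 1)) with hθdef
  have hθ : 0 < θ := by positivity
  set τ := θ ^ 2 / 16 with hτdef
  have hτ : 0 < τ := by positivity
  set δ := c * τ / (4 * (B * B + 1)) with hδdef
  have hδ : 0 < δ := by positivity
  obtain ⟨P, hP⟩ := exists_lt_of_ciInf_lt (lt_add_of_pos_right (⨅ Q, T.mass W Q) hδ)
  obtain ⟨D, hDA, hD0, hDtr, hDle⟩ := exists_defect_bound hc hδ hP.le
  set g : Fin P.n → M := fun i =>
    T.cut (T.comp W (P.e i)) θ * (1 - T.cut (D i) τ) with hg
  have hgA : ∀ i, T.AProj (g i) := fun i =>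
    (aproj_cut (comp_mem _) θ).mul (aproj_cut (hDA i).mem τ).one_sub
  obtain ⟨i, hi⟩ : ∃ i, g i ≠ 0 := by
    by_contra hall
    push Not at hall
    have h1 : ∀ j, T.tr (T.comp W (P.e j) * T.comp W (P.e j)) ≤
        θ * T.tr (T.comp W (P.e j)) + B * B / τ * T.tr (D j) := by
      intro j
      have ha := isRA_comp (W := W) (P.aproj j)
      rw [← T.tr_smul, ← T.tr_smul, ← T.tr_add]
      refine T.tr_mono ((ha.mul ha).le_of_val ((ha.smul _).add ((hDA j).smul _)) fun χ => ?_)
      rw [ha.val_mul χ ha, (ha.smul _).val_add χ ((hDA j).smul _), ha.val_smul, (hDA j).val_smul]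
      have hx := val_comp_nonneg (W := W) (P.aproj j) χ
      have hxB : T.val χ (T.comp W (P.e j)) ≤ B :=
        (le_abs_self _).trans ((ha.abs_val_le χ).trans (norm_comp_le (P.aproj j)))
      have hd := val_nonneg χ (hDA j).mem (hD0 j)
      have hz := congrArg (T.val χ) (hall j)
      have hc1 := aproj_cut (T := T) (comp_mem (W := W) (P.e j)) θ
      have hc2 := aproj_cut (T := T) (hDA j).mem τ
      simp only [hg] at hz
      rw [val_zero, hc1.ra.val_mul χ hc2.one_sub.ra, isRA_one.val_sub χ hc2.ra, val_one] at hz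
      have hd' : 0 ≤ B * B / τ * T.val χ (D j) := mul_nonneg (by positivity) hd
      rcases hc1.ra.val_proj χ hc1.2 with h1 | h1
      · have := mul_le_mul_of_nonneg_right (val_le_of_cut χ (comp_mem _) ha.sa h1) hx
        linarith
      · rw [h1, one_mul, sub_eq_zero] at hz
        have h3 := le_val_of_cut χ (hDA j).mem (hDA j).sa hz.symm
        have h4 : B * B ≤ B * B / τ * T.val χ (D j) := by
          rw [div_mul_eq_mul_div, le_div_iff₀ hτ]
          exact mul_le_mul_of_nonneg_left h3 (by positivity)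
        nlinarith [mul_le_mul hxB hxB hx hB0, mul_nonneg hθ.le hx]
    have h2 : ∑ j, T.tr (T.comp W (P.e j)) ≤ B := by
      rw [← T.tr_sum, ← comp_sum, P.sum_one]
      exact (le_abs_self _).trans ((T.abs_tr_le_norm _).trans (norm_comp_le aproj_one))
    have h3 := Finset.sum_le_sum (fun j (_ : j ∈ Finset.univ) => h1 j)
    rw [Finset.sum_add_distrib, ← Finset.mul_sum, ← Finset.mul_sum] at h3
    have h4 : θ * B ≤ c / 2 := by
      rw [hθdef, div_mul_eq_mul_div, div_le_div_iff₀ (by positivity) two_pos]; nlinarith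
    have h5 : B * B / τ * δ ≤ c / 4 := by
      rw [hδdef, div_mul_div_comm, div_le_div_iff₀ (by positivity) (by norm_num)]
      nlinarith [mul_pos hc0 hτ]
    have h6 := hc P
    simp only [mass] at h6
    nlinarith [mul_le_mul_of_nonneg_left h2 hθ.le,
      mul_le_mul_of_nonneg_left hDtr (show 0 ≤ B * B / τ by positivity)]
  set e0 := P.e i with he0
  have hcomp : ∀ e, T.AProj e → T.comp (e0 * W) e = T.comp W (e * e0) := fun e he => by
    rw [comp, comp, star_mul, (P.proj i).isSelfAdjoint.star_eq]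
    congr 1
    calc star W * e0 * e * (e0 * W) = star W * (e0 * e * e0) * W := by noncomm_ring
      _ = _ := by rw [T.A_comm _ (P.mem i) _ he.1, mul_assoc e, (P.proj i).isIdempotentElem.eq]
  -- dichotomy on the selected region
  have hdic : ∀ (χ : T.Chi), T.val χ (g i) = 1 → ∀ e, T.AProj e →
      θ ≤ T.val χ (T.comp W (e * e0)) + T.val χ (T.comp W ((1 - e) * e0)) ∧
      2 * (T.val χ (T.comp W (e * e0)) * T.val χ (T.comp W ((1 - e) * e0))) ≤ τ := by
    intro χ hχ e he
    have hc1 := aproj_cut (T := T) (comp_mem (W := W) e0) θ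
    have hc2 := aproj_cut (T := T) (hDA i).mem τ
    simp only [hg] at hχ
    rw [hc1.ra.val_mul χ hc2.one_sub.ra, isRA_one.val_sub χ hc2.ra, val_one] at hχ
    rcases hc1.ra.val_proj χ hc1.2 with h1 | h1
    · rw [h1, zero_mul] at hχ; exact absurd hχ zero_ne_one
    rw [h1, one_mul, sub_eq_self] at hχ
    have ha := le_val_of_cut χ (comp_mem _) (isRA_comp (P.aproj i)).sa h1
    have hd := val_le_of_cut χ (hDA i).mem (hDA i).sa hχ
    have hsum : T.comp W e0 = T.comp W (e * e0) + T.comp W ((1 - e) * e0) := by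
      rw [← comp_add, ← add_mul, add_sub_cancel, one_mul]
    have hx := isRA_comp (W := W) (he.mul (P.aproj i))
    have hy := isRA_comp (W := W) (he.one_sub.mul (P.aproj i))
    rw [hsum, hx.val_add χ hy] at ha
    refine ⟨ha, ?_⟩
    have hle := hDle i (P.inf (SMasa.pairPart he.2 he.1)) (Part.le_inf_left _ _)
    have h2 := defect_mono (W := W) (P.aproj i)
      (Part.le_inf_right P (SMasa.pairPart he.2 he.1))
    have h3 := val_mono χ (isRA_defect (W := W) (P.aproj i) _).mem (hDA i).mem (h2.trans hle)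
    rw [val_defect (P.aproj i)] at h3
    simp only [SMasa.pairPart] at h3
    erw [Fin.sum_univ_two] at h3
    simp only [Matrix.cons_val_zero, Matrix.cons_val_one, he0] at h3 ⊢
    rw [hsum, hx.val_add χ hy] at h3
    linarith
  set π : M → M := fun e => g i * T.cut (T.comp W (e * e0)) (θ / 2) with hπ
  have hπA : ∀ e, T.AProj e → T.AProj (π e) := fun e he =>
    (hgA i).mul (aproj_cut (comp_mem _) _)
  have hval : ∀ e, T.AProj e → ∀ χ : T.Chi, T.val χ (π e) =
      T.val χ (g i) * T.val χ (T.cut (T.comp W (e * e0)) (θ / 2)) := fun e he χ =>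
    (hgA i).ra.val_mul χ (aproj_cut (comp_mem _) _).ra
  -- pointwise behaviour
  have hcases : ∀ e, T.AProj e → ∀ χ : T.Chi, T.val χ (g i) = 1 →
      (T.val χ (π e) = 1 ∧ θ / 2 ≤ T.val χ (T.comp W (e * e0)) ∧
        T.val χ (T.comp W ((1 - e) * e0)) ≤ θ / 16) ∨
      (T.val χ (π e) = 0 ∧ T.val χ (T.comp W (e * e0)) ≤ θ / 16) := by
    intro e he χ hχ
    obtain ⟨h1, h2⟩ := hdic χ hχ e he
    have hcx := aproj_cut (T := T) (comp_mem (W := W) (e * e0)) (θ / 2)
    rw [hval e he, hχ, one_mul]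
    have hx0 := val_comp_nonneg (W := W) (he.mul (P.aproj i)) χ
    have hy0 := val_comp_nonneg (W := W) (he.one_sub.mul (P.aproj i)) χ
    set x := T.val χ (T.comp W (e * e0))
    set y := T.val χ (T.comp W ((1 - e) * e0))
    rcases hcx.ra.val_proj χ hcx.2 with hv | hv
    · have h3 := val_le_of_cut χ (comp_mem _) (isRA_comp (he.mul (P.aproj i))).sa hv
      refine Or.inr ⟨hv, ?_⟩
      have := mul_le_mul_of_nonneg_left (show θ / 2 ≤ y by linarith) hx0
      rw [hτdef] at h2
      nlinarith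
    · have h3 := le_val_of_cut χ (comp_mem _) (isRA_comp (he.mul (P.aproj i))).sa hv
      refine Or.inl ⟨hv, h3, ?_⟩
      have := mul_le_mul_of_nonneg_right h3 hy0
      rw [hτdef] at h2
      nlinarith
  have hzero : ∀ e, T.AProj e → ∀ χ : T.Chi, T.val χ (g i) = 0 → T.val χ (π e) = 0 := fun e he χ h => by
    rw [hval e he, h, zero_mul]
  have hmono : ∀ e f, T.AProj e → T.AProj f → e * f = 0 → ∀ χ : T.Chi,
      T.val χ (T.comp W (f * e0)) ≤ T.val χ (T.comp W ((1 - e) * e0)) := fun e f he hf hef χ =>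
    val_mono χ (comp_mem _) (comp_mem _) (comp_mono (hf.mul (P.aproj i))
      (he.one_sub.mul (P.aproj i)) (by
        have h1 : f * (1 - e) = f := by rw [mul_sub, mul_one, T.A_comm _ hf.1 _ he.1, hef, sub_zero]
        calc f * e0 * ((1 - e) * e0) = f * (e0 * (1 - e)) * e0 := by noncomm_ring
          _ = f * (1 - e) * (e0 * e0) := by
              rw [T.A_comm _ (P.mem i) _ he.one_sub.1]; noncomm_ring
          _ = _ := by rw [h1, (P.proj i).isIdempotentElem.eq]))
  refine ⟨e0, g i, π, θ / 2, P.aproj i, ⟨?_, hπA, fun e f he hf hef => ?_, fun e f he hf hef => ?_⟩,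
    hi, half_pos hθ, fun e he => ?_⟩
  · refine ((hπA 1 aproj_one).ra).eq_of_val (hgA i).ra fun χ => ?_
    rcases (hgA i).ra.val_proj χ (hgA i).2 with h | h
    · rw [hzero 1 aproj_one χ h, h]
    · rcases hcases 1 aproj_one χ h with ⟨h1, -, -⟩ | ⟨-, h2⟩
      · rw [h1, h]
      · obtain ⟨h3, -⟩ := hdic χ h 1 aproj_one
        rw [sub_self, zero_mul, comp_zero, val_zero] at h3
        linarith
  · refine ((hπA e he).ra.mul (hπA f hf).ra).eq_of_val isRA_zero fun χ => ?_
    rw [(hπA e he).ra.val_mul χ (hπA f hf).ra, val_zero]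
    rcases (hgA i).ra.val_proj χ (hgA i).2 with h | h
    · rw [hzero e he χ h, zero_mul]
    · rcases hcases e he χ h with ⟨-, -, h1⟩ | ⟨h1, -⟩
      · rcases hcases f hf χ h with ⟨-, h2, -⟩ | ⟨h2, -⟩
        · linarith [hmono e f he hf hef χ]
        · rw [h2, mul_zero]
      · rw [h1, zero_mul]
  · refine ((hπA _ (he.add hf hef)).ra).eq_of_val ((hπA e he).ra.add (hπA f hf).ra) fun χ => ?_
    rw [(hπA e he).ra.val_add χ (hπA f hf).ra]
    rcases (hgA i).ra.val_proj χ (hgA i).2 with h | h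
    · rw [hzero e he χ h, hzero f hf χ h, hzero _ (he.add hf hef) χ h, add_zero]
    have hadd : T.val χ (T.comp W ((e + f) * e0)) =
        T.val χ (T.comp W (e * e0)) + T.val χ (T.comp W (f * e0)) := by
      rw [add_mul, comp_add, (isRA_comp (he.mul (P.aproj i))).val_add χ
        (isRA_comp (hf.mul (P.aproj i)))]
    have hf0 := val_comp_nonneg (W := W) (hf.mul (P.aproj i)) χ
    have he0' := val_comp_nonneg (W := W) (he.mul (P.aproj i)) χ
    have hef' : f * e = 0 := by rw [T.A_comm _ hf.1 _ he.1, hef]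
    rcases hcases e he χ h with ⟨a1, a2, a3⟩ | ⟨a1, a2⟩ <;>
      rcases hcases f hf χ h with ⟨b1, b2, b3⟩ | ⟨b1, b2⟩
    · linarith [hmono e f he hf hef χ]
    all_goals
      rcases hcases _ (he.add hf hef) χ h with ⟨s1, s2, s3⟩ | ⟨s1, s2⟩ <;>
        rw [a1, b1, s1] <;> linarith
  · refine ((hπA e he).ra.smul _).le_of_val (isRA_comp he) fun χ => ?_
    rw [(hπA e he).ra.val_smul, hcomp e he]
    have hx0 := val_comp_nonneg (W := W) (he.mul (P.aproj i)) χ
    rcases (hgA i).ra.val_proj χ (hgA i).2 with h | h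
    · rw [hzero e he χ h, mul_zero]; exact hx0
    · rcases hcases e he χ h with ⟨h1, h2, -⟩ | ⟨h1, -⟩
      · rw [h1, mul_one]; exact h2
      · rw [h1, mul_zero]; exact hx0

end SMasa

end Vale.Agent.P078.Sing
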