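import Mathlib
import Vale.Agent.P078.Sing.Mass

/-!
# The limit of the block compressions twisted by a Boolean homomorphism

If `θ • π e ≤ E (W* e W)` for all projections `e` of the MASA, then `∑ e_i W π(e_i)` converges
along refining partitions to a nonzero element `η` with `e η = η π(e)`.
-/

open scoped ComplexOrder InnerProductSpace Topology
open Filter

namespace Vale.Agent.P078.Sing

universe u

variable {M : Type u} [CStarAlgebra M] [PartialOrder M] [StarOrderedRing M]

namespace SMasa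

variable {T : SMasa M} {π : M → M} {g : M}

/-- A family indexed by partitions which satisfies the Pythagoras relation converges. -/
lemma exists_tends_part (f : T.Part → M) (C : ℝ) (hC : ∀ P, ‖f P‖ ≤ C)
    (hf : ∀ P Q, P ≤ Q → T.n2 (f P - f Q) ^ 2 = T.n2 (f P) ^ 2 - T.n2 (f Q) ^ 2) :
    ∃ y, ‖y‖ ≤ C ∧ T.Tends atTop f y := by
  have hanti : ∀ P Q, P ≤ Q → T.n2 (f Q) ^ 2 ≤ T.n2 (f P) ^ 2 := fun P Q h => by
    linarith [hf P Q h, sq_nonneg (T.n2 (f P - f Q))]
  have hbb : BddBelow (Set.range fun P => T.n2 (f P) ^ 2) :=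
    ⟨0, by rintro _ ⟨P, rfl⟩; exact sq_nonneg _⟩
  have hex : ∀ n : ℕ, ∃ P, T.n2 (f P) ^ 2 < (⨅ P, T.n2 (f P) ^ 2) + 1 / ((n : ℝ) + 1) := fun n =>
    exists_lt_of_ciInf_lt (lt_add_of_pos_right _ (by positivity))
  choose P hP using hex
  let R : ℕ → T.Part := fun n => Nat.rec (P 0) (fun k r => r.inf (P (k + 1))) n
  have hRP : ∀ n, P n ≤ R n := fun n => by
    cases n with
    | zero => exact le_rfl
    | succ k => exact Part.le_inf_right _ _
  have hRm : Monotone R := monotone_nat_of_le_succ fun n => Part.le_inf_left _ _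
  have key : ∀ n Q, R n ≤ Q → T.n2 (f (R n) - f Q) ≤ Real.sqrt (1 / ((n : ℝ) + 1)) := by
    intro n Q hQ
    refine Real.le_sqrt_of_sq_le ?_
    linarith [hf _ _ hQ, hanti _ _ (hRP n), ciInf_le hbb Q, hP n]
  have h0 : Tendsto (fun n : ℕ => Real.sqrt (1 / ((n : ℝ) + 1))) atTop (𝓝 0) := by
    simpa using (tendsto_one_div_add_atTop_nhds_zero_nat (𝕜 := ℝ)).sqrt
  obtain ⟨y, hy, hlim⟩ := T.exists_tends (fun n => f (R n)) C (fun n => hC _) _
    (fun n m h => (T.n2_sub_comm _ _).trans_le (key n (R m) (hRm h))) h0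
  refine ⟨y, hy, Metric.tendsto_nhds.2 fun ε hε => ?_⟩
  have h5 : Tendsto (fun n : ℕ => Real.sqrt (1 / ((n : ℝ) + 1)) + T.n2 (f (R n) - y))
      atTop (𝓝 0) := by
    simpa using h0.add hlim
  obtain ⟨n, hn⟩ := (h5.eventually (gt_mem_nhds hε)).exists
  refine (eventually_ge_atTop (R n)).mono fun Q hQ => ?_
  rw [dist_zero_right, Real.norm_eq_abs, abs_of_nonneg (T.n2_nonneg _)]
  refine lt_of_le_of_lt ((T.n2_sub_le _ (f (R n)) _).trans ?_) hn
  rw [T.n2_sub_comm]
  exact add_le_add (key n Q hQ) le_rfl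

namespace BHom

variable (h : T.BHom π g)
include h

lemma map_zero : π 0 = 0 := by
  simpa using h.add 0 0 aproj_zero aproj_zero (mul_zero 0)

lemma aproj_g : T.AProj g := h.one ▸ h.proj 1 aproj_one

lemma compl {e : M} (he : T.AProj e) : π e + π (1 - e) = g := by
  rw [← h.add e _ he he.one_sub he.2.mul_one_sub_self, add_sub_cancel, h.one]

lemma mul_of_le {e f : M} (he : T.AProj e) (hf : T.AProj f) (hef : e * f = e) :
    π e * π f = π e := by
  have hd : T.AProj (f - e) := by
    have h1 : f * (1 - e) = f - e := by rw [mul_sub, mul_one, T.A_comm _ hf.1 _ he.1, hef]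
    exact h1 ▸ hf.mul he.one_sub
  have h0 : e * (f - e) = 0 := by rw [mul_sub, hef, he.2.isIdempotentElem.eq, sub_self]
  have h2 := h.add e (f - e) he hd h0
  rw [add_sub_cancel] at h2
  rw [h2, mul_add, h.orth e _ he hd h0, add_zero, (h.proj e he).2.isIdempotentElem.eq]

lemma mul_g {e : M} (he : T.AProj e) : π e * g = π e := by
  rw [← h.one]; exact h.mul_of_le he aproj_one (mul_one e)

lemma sum_part (P : T.Part) : ∑ i, π (P.e i) = g := by
  suffices hs : ∀ s : Finset (Fin P.n), π (∑ i ∈ s, P.e i) = ∑ i ∈ s, π (P.e i) ∧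
      T.AProj (∑ i ∈ s, P.e i) by
    rw [← (hs Finset.univ).1, P.sum_one, h.one]
  intro s
  induction s using Finset.induction_on with
  | empty => simp [h.map_zero, aproj_zero]
  | insert a s ha ih =>
    have h0 : P.e a * ∑ i ∈ s, P.e i = 0 := by
      rw [Finset.mul_sum]
      exact Finset.sum_eq_zero fun i hi => P.orth a i fun e => ha (e ▸ hi)
    rw [Finset.sum_insert ha, Finset.sum_insert ha]
    exact ⟨by rw [h.add _ _ (P.aproj a) ih.2 h0, ih.1], (P.aproj a).add ih.2 h0⟩

end BHom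

/-- The block compression twisted by `π`. -/
def preTwist (π : M → M) (W : M) (P : T.Part) : M := ∑ i, P.e i * W * π (P.e i)

variable {W : M}

lemma star_preTwist_mul (h : T.BHom π g) (P : T.Part) :
    star (preTwist π W P) * preTwist π W P =
      ∑ i, π (P.e i) * (star W * P.e i * W) * π (P.e i) := by
  simp only [preTwist, star_sum, Finset.sum_mul, Finset.mul_sum, star_mul, P.star_e,
    (h.proj _ (P.aproj _)).2.isSelfAdjoint.star_eq]
  refine Finset.sum_congr rfl fun i _ => ?_
  rw [Finset.sum_eq_single i]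
  · calc π (P.e i) * (star W * P.e i) * (P.e i * W * π (P.e i))
        = π (P.e i) * (star W * (P.e i * P.e i) * W) * π (P.e i) := by noncomm_ring
      _ = _ := by rw [(P.proj i).isIdempotentElem.eq]
  · intro j _ hj
    calc π (P.e j) * (star W * P.e j) * (P.e i * W * π (P.e i))
        = π (P.e j) * (star W * (P.e j * P.e i) * W) * π (P.e i) := by noncomm_ring
      _ = 0 := by rw [P.orth j i hj]; simp
  · simp

lemma norm_preTwist_le (h : T.BHom π g) (P : T.Part) : ‖preTwist (T := T) π W P‖ ≤ ‖W‖ := by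
  have h1 : star (preTwist (T := T) π W P) * preTwist π W P ≤ (‖W‖ * ‖W‖) • (1 : M) := by
    have hX : ∀ i, star W * P.e i * W ≤ (‖W‖ * ‖W‖) • (1 : M) := fun i => by
      refine (star_left_conjugate_le_conjugate (P.proj i).le_one W).trans ?_
      rw [mul_one, ← CStarRing.norm_star_mul_self]
      exact le_norm_smul_one (IsSelfAdjoint.star_mul_self W)
    rw [star_preTwist_mul h]
    calc ∑ i, π (P.e i) * (star W * P.e i * W) * π (P.e i)
        ≤ ∑ i, π (P.e i) * ((‖W‖ * ‖W‖) • (1 : M)) * π (P.e i) := Finset.sum_le_sum fun i _ =>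
          (h.proj _ (P.aproj i)).2.isSelfAdjoint.conjugate_le_conjugate (hX i)
      _ = (‖W‖ * ‖W‖) • g := by
          rw [← h.sum_part P, Finset.smul_sum]
          refine Finset.sum_congr rfl fun i _ => ?_
          rw [mul_smul_comm, mul_one, smul_mul_assoc,
            (h.proj _ (P.aproj i)).2.isIdempotentElem.eq]
      _ ≤ _ := smul_le_smul_of_nonneg_left h.aproj_g.2.le_one (by positivity)
  have h2 : ‖star (preTwist (T := T) π W P) * preTwist π W P‖ ≤ ‖W‖ * ‖W‖ := by
    refine (CStarAlgebra.norm_le_iff_le_algebraMap _ (by positivity) (star_mul_self_nonneg _)).2 ?_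
    rwa [Algebra.algebraMap_eq_smul_one]
  rw [CStarRing.norm_star_mul_self] at h2
  nlinarith [norm_nonneg W, norm_nonneg (preTwist (T := T) π W P)]

lemma n2_preTwist_sub_sq (h : T.BHom π g) {P Q : T.Part} (hPQ : P ≤ Q) :
    T.n2 (preTwist π W P - preTwist π W Q) ^ 2 =
      T.n2 (preTwist (T := T) π W P) ^ 2 - T.n2 (preTwist (T := T) π W Q) ^ 2 := by
  have h1 : T.φ (star (preTwist π W Q) * preTwist π W P) =
      T.φ (star (preTwist (T := T) π W Q) * preTwist π W Q) := by
    rw [star_preTwist_mul h]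
    conv_lhs => rw [preTwist, star_sum, Finset.sum_mul]
    simp only [map_sum]
    refine Finset.sum_congr rfl fun k _ => ?_
    have hπ := h.proj _ (Q.aproj k)
    rw [star_mul, star_mul, hπ.2.isSelfAdjoint.star_eq, Q.star_e, mul_assoc, T.φ_central _ hπ.1,
      preTwist]
    have e1 : star W * Q.e k * (∑ i, P.e i * W * π (P.e i)) * π (Q.e k) =
        star W * ∑ i, Q.e k * P.e i * W * π (P.e i) * π (Q.e k) := by
      simp only [Finset.mul_sum, Finset.sum_mul, mul_assoc]
    rw [e1]
    have e2 : T.φ (π (Q.e k) * (star W * ∑ i, Q.e k * P.e i * W * π (P.e i) * π (Q.e k))) =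
        T.φ (star W * ∑ i, Q.e k * P.e i * W * π (P.e i) * π (Q.e k)) := by
      rw [T.φ_central _ hπ.1]
      congr 1
      simp only [Finset.mul_sum, Finset.sum_mul, mul_assoc, hπ.2.isIdempotentElem.eq]
    rw [← e2]
    obtain ⟨i, hi⟩ := hPQ k
    congr 1
    rw [Finset.sum_eq_single i]
    · rw [hi, mul_assoc (Q.e k * W), T.A_comm _ (h.proj _ (P.aproj i)).1 _ (h.proj _ (Q.aproj k)).1,
        h.mul_of_le (Q.aproj k) (P.aproj i) hi]
      noncomm_ring
    · intro j _ hj
      rw [← hi, mul_assoc (Q.e k), P.orth i j (Ne.symm hj)]; simp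
    · simp
  have h2 : T.tr (star (preTwist π W P) * preTwist π W Q) =
      T.tr (star (preTwist (T := T) π W Q) * preTwist π W P) := by
    rw [← T.tr_star, star_mul, star_star]
  simp only [T.n2_sq, star_sub, sub_mul, mul_sub, T.tr_sub, h2]
  simp only [tr, h1]
  ring

/-- The twisted limit. -/
theorem exists_twist (h : T.BHom π g) (hg : g ≠ 0) {θ : ℝ} (hθ : 0 < θ)
    (hle : ∀ e, T.AProj e → θ • π e ≤ T.comp W e) :
    ∃ η : M, η ≠ 0 ∧ η * g = η ∧ ∀ e, T.AProj e → e * η = η * π e := by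
  obtain ⟨η, -, hη⟩ := exists_tends_part (fun P : T.Part => preTwist π W P) ‖W‖
    (norm_preTwist_le h) fun P Q => n2_preTwist_sub_sq h
  refine ⟨η, fun h0 => ?_, ?_, fun e he => ?_⟩
  · have h1 : θ * T.tr g ≤ T.tr (star W * η) := by
      refine ge_of_tendsto (hη.const_mul (star W)).tendsto_tr (Eventually.of_forall fun P => ?_)
      rw [preTwist, Finset.mul_sum, T.tr_sum, ← h.sum_part P, T.tr_sum, Finset.mul_sum]
      refine Finset.sum_le_sum fun i _ => ?_
      have hπ := h.proj _ (P.aproj i)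
      have h3 : θ • π (P.e i) ≤ π (P.e i) * T.comp W (P.e i) := by
        refine (hπ.ra.smul θ).le_of_val (hπ.ra.mul (isRA_comp (P.aproj i))) fun χ => ?_
        have := val_mono χ (hπ.ra.smul θ).mem (comp_mem _) (hle _ (P.aproj i))
        rw [hπ.ra.val_smul] at this ⊢
        rw [hπ.ra.val_mul χ (isRA_comp (P.aproj i))]
        rcases hπ.ra.val_proj χ hπ.2 with hv | hv <;> rw [hv] at this ⊢ <;> linarith
      rw [← T.tr_smul]
      refine (T.tr_mono h3).trans_eq ?_
      rw [comp, ← T.E_mul_left hπ.1, T.tr_E, T.tr_comm_A hπ.1]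
      congr 1; noncomm_ring
    rw [h0, mul_zero, T.tr_zero] at h1
    have h2 : T.tr g ≤ 0 := nonpos_of_mul_nonpos_right h1 hθ
    have hgA := h.aproj_g
    refine hg (T.eq_zero_of_n2 (sq_eq_zero_iff.1 (le_antisymm ?_ (sq_nonneg _))))
    rwa [T.n2_sq_proj hgA.2]
  · refine ((hη.mul_mem h.aproj_g.1).congr' (Eventually.of_forall fun P => ?_)).unique hη
    simp only [preTwist, Finset.sum_mul, mul_assoc, h.mul_g (P.aproj _)]
  · refine (hη.const_mul e).unique ((hη.mul_mem (h.proj e he).1).congr' ?_)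
    refine (eventually_ge_atTop (pairPart he.2 he.1)).mono fun Q hQ => ?_
    simp only [preTwist, Finset.mul_sum, Finset.sum_mul]
    refine Finset.sum_congr rfl fun k _ => ?_
    obtain ⟨i, hi⟩ := hQ k
    rw [mul_assoc (Q.e k * W), show e * (Q.e k * W * π (Q.e k)) = (Q.e k * e) * W * π (Q.e k) by
      rw [(Q.commute_A he.1 k).eq]; noncomm_ring]
    fin_cases i
    · have hi' : Q.e k * e = Q.e k := by simpa [pairPart] using hi
      rw [hi', h.mul_of_le (Q.aproj k) he hi']
    · have hi' : Q.e k * e = 0 := by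
        have : Q.e k * (1 - e) = Q.e k := by simpa [pairPart] using hi
        rwa [mul_sub, mul_one, sub_eq_self] at this
      rw [hi', h.orth _ _ (Q.aproj k) he hi']; simp

end SMasa

end Vale.Agent.P078.Sing
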