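import Mathlib
import Vale.Agent.P078.Sing.Twist

/-!
# Singular MASAs: the square mass of an element orthogonal to the MASA tends to zero

If `A` is singular and `E W = 0`, then `∑ φ (E (W* e_i W)²)` tends to zero along refining partitions.
-/

open scoped ComplexOrder InnerProductSpace Topology
open Filter

namespace Vale.Agent.P078.Sing

universe u

variable {M : Type u} [CStarAlgebra M] [PartialOrder M] [StarOrderedRing M]

namespace SMasa

/-- The MASA is singular: its unitary normaliser is contained in it. -/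
def Singular (T : SMasa M) : Prop :=
  ∀ u ∈ unitary M, (∀ a ∈ T.A, u * a * star u ∈ T.A ∧ star u * a * u ∈ T.A) → u ∈ T.A

variable {T : SMasa M}

/-- A partial isometry normalising a singular MASA, with initial projection in it, belongs to it. -/
theorem partialIsometry_mem (hS : T.Singular) {v q : M} (hq : T.AProj q) (hvv : star v * v = q)
    (hv : ∀ b ∈ T.A, v * b * star v ∈ T.A ∧ star v * b * v ∈ T.A) : v ∈ T.A := by
  have hvq : v * q = v := by
    have h1 : star (v - v * q) * (v - v * q) = 0 := by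
      rw [star_sub, star_mul, hq.2.isSelfAdjoint.star_eq]
      calc (star v - q * star v) * (v - v * q)
          = star v * v - (star v * v) * q - q * (star v * v) + q * (star v * v) * q := by
            noncomm_ring
        _ = 0 := by simp [hvv, hq.2.isIdempotentElem.eq]
    have h2 : ‖v - v * q‖ * ‖v - v * q‖ = 0 := by
      rw [← CStarRing.norm_star_mul_self, h1, norm_zero]
    exact (sub_eq_zero.1 (norm_eq_zero.1 (mul_self_eq_zero.1 h2))).symm
  set p := v * star v with hp
  have hpv : p * v = v := by rw [hp, mul_assoc, hvv, hvq]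
  have hpA : p ∈ T.A := by simpa using (hv 1 (one_mem _)).1
  have hX : ∀ e, T.AProj e → v * e * star v * v = v * e := fun e he => by
    calc v * e * star v * v = v * (e * (star v * v)) := by noncomm_ring
      _ = (v * q) * e := by rw [hvv, T.A_comm _ he.1 _ hq.1, mul_assoc]
      _ = _ := by rw [hvq]
  have hXX : ∀ e, T.AProj e → T.AProj (v * e * star v) := fun e he =>
    ⟨(hv e he.1).1, ⟨by
      show v * e * star v * (v * e * star v) = _
      rw [← mul_assoc, ← mul_assoc, hX e he, mul_assoc v e e, he.2.isIdempotentElem.eq], by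
      rw [IsSelfAdjoint, star_mul, star_mul, star_star, he.2.isSelfAdjoint.star_eq, mul_assoc]⟩⟩
  by_cases hall : ∀ e, T.AProj e → v * e * star v * (1 - e) = 0
  · refine mem_A_of_commute_proj fun e he => ?_
    have h1 := hall e he
    have h2 := hall (1 - e) he.one_sub
    rw [sub_sub_cancel] at h2
    have hsum : v * e * star v + v * (1 - e) * star v = p := by
      rw [hp, ← add_mul, ← mul_add, add_sub_cancel, mul_one]
    have h3 : v * e * star v = p * e := by
      rw [mul_sub, mul_one, sub_eq_zero] at h1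
      rw [← hsum, add_mul, h2, add_zero, ← h1]
    calc e * v = e * (p * v) := by rw [hpv]
      _ = (p * e) * v := by rw [← mul_assoc, T.A_comm _ he.1 _ hpA]
      _ = v * e := by rw [← h3, hX e he]
  exfalso
  push Not at hall
  obtain ⟨e, he, hne⟩ := hall
  set f := v * e * star v * (1 - e) with hfdef
  have hf : T.AProj f := (hXX e he).mul he.one_sub
  have hXp : v * e * star v * p = v * e * star v := by
    rw [hp, ← mul_assoc, hX e he]
  have hfp : f * p = f := by
    rw [hfdef, mul_assoc _ (1 - e) p, T.A_comm _ he.one_sub.1 _ hpA, ← mul_assoc, hXp]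
  have hfX : f * (v * e * star v) = f := by
    rw [hfdef, mul_assoc _ (1 - e), T.A_comm _ he.one_sub.1 _ (hXX e he).1, ← mul_assoc,
      (hXX e he).2.isIdempotentElem.eq]
  have hfe : f * e = 0 := by
    rw [hfdef, mul_assoc _ (1 - e) e, he.2.one_sub_mul_self, mul_zero]
  set w := f * v with hw
  set q0 := star v * f * v with hq0
  have hq0A : q0 ∈ T.A := (hv f hf.1).2
  have hww : w * star w = f := by
    rw [hw, star_mul, hf.2.isSelfAdjoint.star_eq]
    calc f * v * (star v * f) = (f * p) * f := by rw [hp]; noncomm_ring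
      _ = f := by rw [hfp, hf.2.isIdempotentElem.eq]
  have hws : star w * w = q0 := by
    rw [hw, star_mul, hf.2.isSelfAdjoint.star_eq, hq0]
    calc star v * f * (f * v) = star v * (f * f) * v := by noncomm_ring
      _ = _ := by rw [hf.2.isIdempotentElem.eq]
  have hwq : w * q0 = w := by
    rw [← hws, ← mul_assoc, hww, hw, ← mul_assoc, hf.2.isIdempotentElem.eq]
  have hfw : f * w = w := by rw [hw, ← mul_assoc, hf.2.isIdempotentElem.eq]
  have hq0p : IsStarProjection q0 := ⟨by
    show q0 * q0 = q0
    nth_rewrite 1 [← hws]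
    rw [mul_assoc, hwq, hws], by rw [← hws]; exact IsSelfAdjoint.star_mul_self w⟩
  have hq0e : q0 * e = q0 := by
    calc q0 * e = star v * f * (v * e) := by rw [hq0]; noncomm_ring
      _ = star v * (f * (v * e * star v)) * v := by
        conv_lhs => rw [← hX e he]
        noncomm_ring
      _ = q0 := by rw [hfX]
  have hfq : f * q0 = 0 := by
    rw [← hq0e, T.A_comm _ hq0A _ he.1, ← mul_assoc, hfe, zero_mul]
  have hqf : q0 * f = 0 := by rw [T.A_comm _ hq0A _ hf.1, hfq]
  set k := 1 - f - q0 with hk
  have hkA : k ∈ T.A := sub_mem (sub_mem (one_mem _) hf.1) hq0A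
  have hks : star k = k := by
    rw [hk, star_sub, star_sub, star_one, hf.2.isSelfAdjoint.star_eq, hq0p.isSelfAdjoint.star_eq]
  have hkk : k * k = k := by
    rw [hk]; simp [mul_sub, sub_mul, hf.2.isIdempotentElem.eq, hq0p.isIdempotentElem.eq, hfq, hqf]
  have hqk : q0 * k = 0 := by
    rw [hk]; simp [mul_sub, hq0p.isIdempotentElem.eq, hqf]
  have hkf : k * f = 0 := by
    rw [hk]; simp [sub_mul, hf.2.isIdempotentElem.eq, hqf]
  have hwaw : ∀ a ∈ T.A, w * a * w = 0 := fun a ha => by
    calc w * a * w = (w * q0) * a * (f * w) := by rw [hwq, hfw]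
      _ = w * (q0 * a) * f * w := by noncomm_ring
      _ = w * a * (q0 * f) * w := by rw [T.A_comm _ hq0A _ ha]; noncomm_ring
      _ = 0 := by simp [hqf]
  have hwak : ∀ a ∈ T.A, w * a * k = 0 := fun a ha => by
    calc w * a * k = (w * q0) * a * k := by rw [hwq]
      _ = w * (q0 * a) * k := by noncomm_ring
      _ = w * a * (q0 * k) := by rw [T.A_comm _ hq0A _ ha]; noncomm_ring
      _ = 0 := by simp [hqk]
  have hkaw : ∀ a ∈ T.A, k * a * w = 0 := fun a ha => by
    calc k * a * w = k * a * (f * w) := by rw [hfw]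
      _ = k * (a * f) * w := by noncomm_ring
      _ = (k * f) * a * w := by rw [T.A_comm _ ha _ hf.1]; noncomm_ring
      _ = 0 := by simp [hkf]
  have hst : ∀ {x y : M} (a : M), a ∈ T.A → (∀ b ∈ T.A, x * b * y = 0) →
      star y * a * star x = 0 := fun {x y} a ha h => by
    have := congrArg star (h (star a) (star_mem ha))
    simpa [star_mul, mul_assoc] using this
  set u := w + star w + k with hu
  have hus : star u = u := by
    simp [hu, hks, add_comm (star w) w]
  have huau : ∀ a ∈ T.A, u * a * u = w * a * star w + star w * a * w + k * a * k := fun a ha => by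
    have h1 : star w * a * star w = 0 := hst a ha hwaw
    have h2 : k * a * star w = 0 := by
      have := hst a ha hwak
      rwa [hks] at this
    have h3 : star w * a * k = 0 := by
      have := hst a ha hkaw
      rwa [hks] at this
    rw [hu]
    simp only [add_mul, mul_add, hwaw a ha, hwak a ha, hkaw a ha, h1, h2, h3]
    abel
  have huu : u * u = 1 := by
    have := huau 1 (one_mem _)
    rw [mul_one, mul_one, mul_one, mul_one, hww, hws, hkk] at this
    rw [this, hk]; abel
  have hunit : u ∈ unitary M := Unitary.mem_iff.2 ⟨by rw [hus, huu], by rw [hus, huu]⟩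
  have hnorm : ∀ a ∈ T.A, u * a * u ∈ T.A := fun a ha => by
    rw [huau a ha]
    refine add_mem (add_mem ?_ ?_) (mul_mem (mul_mem hkA ha) hkA)
    · rw [hw, star_mul, hf.2.isSelfAdjoint.star_eq,
        show f * v * a * (star v * f) = f * (v * a * star v) * f by noncomm_ring]
      exact mul_mem (mul_mem hf.1 (hv a ha).1) hf.1
    · rw [hw, star_mul, hf.2.isSelfAdjoint.star_eq,
        show star v * f * a * (f * v) = star v * (f * a * f) * v by noncomm_ring]
      exact (hv _ (mul_mem (mul_mem hf.1 ha) hf.1)).2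
  have huA : u ∈ T.A := hS u hunit fun a ha => by
    rw [hus]; exact ⟨hnorm a ha, hnorm a ha⟩
  have hwA : w ∈ T.A := by
    have hfu : f * u = w := by
      have h1 : f * star w = 0 := by
        have : star (w * f) = 0 := by
          rw [show w * f = (w * q0) * f by rw [hwq], mul_assoc, hqf, mul_zero, star_zero]
        rwa [star_mul, hf.2.isSelfAdjoint.star_eq] at this
      have h2 : f * k = 0 := by rw [T.A_comm _ hf.1 _ hkA, hkf]
      rw [hu, mul_add, mul_add, hfw, h1, h2, add_zero, add_zero]
    exact hfu ▸ mul_mem hf.1 huA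
  have hw0 : w = 0 := by
    calc w = (f * w) * q0 := by rw [hfw, hwq]
      _ = (w * f) * q0 := by rw [T.A_comm _ hf.1 _ hwA]
      _ = 0 := by rw [mul_assoc, hfq, mul_zero]
  exact hne (by rw [← hww, hw0, zero_mul])

/-- An intertwiner of two maps of projections of the MASA. -/
structure Inter (T : SMasa M) (η : M) (π σ : M → M) : Prop where
  left : ∀ e, T.AProj e → T.AProj (π e) ∧ η * e = π e * η
  right : ∀ e, T.AProj e → T.AProj (σ e) ∧ e * η = η * σ e

namespace Inter

variable {η : M} {π σ : M → M} (h : T.Inter η π σ)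
include h

lemma mul_mul_star_mem {b : M} (hb : b ∈ T.A) : η * b * star η ∈ T.A := by
  refine mem_A_of_commute_proj fun e he => ?_
  obtain ⟨hσ, hr⟩ := h.right e he
  have hr' : star η * e = σ e * star η := by
    have := congrArg star hr
    rwa [star_mul, star_mul, he.2.isSelfAdjoint.star_eq, hσ.2.isSelfAdjoint.star_eq] at this
  calc e * (η * b * star η) = (e * η) * b * star η := by noncomm_ring
    _ = η * (σ e * b) * star η := by rw [hr]; noncomm_ring
    _ = η * b * (σ e * star η) := by rw [T.A_comm _ hσ.1 _ hb]; noncomm_ring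
    _ = η * b * star η * e := by rw [← hr']; noncomm_ring

lemma star_mul_mul_mem {b : M} (hb : b ∈ T.A) : star η * b * η ∈ T.A := by
  refine mem_A_of_commute_proj fun e he => ?_
  obtain ⟨hπ, hl⟩ := h.left e he
  have hl' : e * star η = star η * π e := by
    have := congrArg star hl
    rwa [star_mul, star_mul, he.2.isSelfAdjoint.star_eq, hπ.2.isSelfAdjoint.star_eq] at this
  calc e * (star η * b * η) = (e * star η) * b * η := by noncomm_ring
    _ = star η * (π e * b) * η := by rw [hl']; noncomm_ring
    _ = star η * b * (π e * η) := by rw [T.A_comm _ hπ.1 _ hb]; noncomm_ring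
    _ = star η * b * η * e := by rw [← hl]; noncomm_ring

/-- In a singular MASA every intertwiner belongs to the MASA. -/
theorem mem (hS : T.Singular) : η ∈ T.A := by
  set a := star η * η with ha
  have haA : a ∈ T.A := by simpa using h.star_mul_mul_mem (one_mem _)
  have har : T.IsRA a := ⟨haA, IsSelfAdjoint.star_mul_self η⟩
  refine T.A_isClosed.closure_subset (Metric.mem_closure_iff.2 fun ε hε => ?_)
  set τ := (ε / 2) ^ 2 with hτdef
  have hτ : 0 < τ := by positivity
  set q := T.cut a τ
  have hq : T.AProj q := aproj_cut haA τ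
  have hsq : Continuous fun x : ℝ => Real.sqrt (max x τ) := by fun_prop
  have hinv : Continuous fun x : ℝ => (Real.sqrt (max x τ))⁻¹ :=
    hsq.inv₀ fun x => (Real.sqrt_pos.2 (lt_max_of_lt_right hτ)).ne'
  set d := cfc (fun x : ℝ => (Real.sqrt (max x τ))⁻¹) a
  set w := cfc (fun x : ℝ => Real.sqrt (max x τ)) a
  have hdr : T.IsRA d := har.cfc _
  have hwr : T.IsRA w := har.cfc _
  have hdq := hdr.mul hq.ra
  have h1 : star (η * (d * q)) * (η * (d * q)) = q := by
    rw [star_mul, hdq.sa.star_eq, show d * q * star η * (η * (d * q)) = d * q * a * (d * q) by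
      rw [ha]; noncomm_ring]
    refine ((hdq.mul har).mul hdq).eq_of_val hq.ra fun χ => ?_
    rw [(hdq.mul har).val_mul χ hdq, hdq.val_mul χ har, hdr.val_mul χ hq.ra, har.val_cfc χ hinv]
    rcases hq.ra.val_proj χ hq.2 with hv | hv
    · simp [hv]
    · have h2 := le_val_of_cut χ haA har.sa hv
      rw [hv, max_eq_left h2]
      have h3 : 0 < Real.sqrt (T.val χ a) := Real.sqrt_pos.2 (hτ.trans_le h2)
      field_simp
      rw [Real.sq_sqrt (hτ.le.trans h2)]
  have hv : η * (d * q) ∈ T.A := by
    refine partialIsometry_mem hS hq h1 fun b hb => ⟨?_, ?_⟩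
    · rw [star_mul, hdq.sa.star_eq,
        show η * (d * q) * b * (d * q * star η) = η * (d * q * b * (d * q)) * star η by noncomm_ring]
      exact h.mul_mul_star_mem (mul_mem (mul_mem hdq.mem hb) hdq.mem)
    · rw [star_mul, hdq.sa.star_eq,
        show d * q * star η * b * (η * (d * q)) = d * q * (star η * b * η) * (d * q) by noncomm_ring]
      exact mul_mem (mul_mem hdq.mem (h.star_mul_mul_mem hb)) hdq.mem
  refine ⟨η * q, ?_, ?_⟩
  · have h2 : d * q * w = q := by
      refine (hdq.mul hwr).eq_of_val hq.ra fun χ => ?_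
      rw [hdq.val_mul χ hwr, hdr.val_mul χ hq.ra, har.val_cfc χ hinv, har.val_cfc χ hsq]
      have h3 : 0 < Real.sqrt (max (T.val χ a) τ) := Real.sqrt_pos.2 (lt_max_of_lt_right hτ)
      field_simp
    rw [← h2, ← mul_assoc]
    exact mul_mem hv hwr.mem
  · have hq1 := hq.one_sub
    have h4 : ‖η - η * q‖ * ‖η - η * q‖ ≤ τ := by
      rw [← CStarRing.norm_star_mul_self, show η - η * q = η * (1 - q) by rw [mul_sub, mul_one],
        star_mul, hq1.2.isSelfAdjoint.star_eq,
        show (1 - q) * star η * (η * (1 - q)) = (1 - q) * a * (1 - q) by rw [ha]; noncomm_ring]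
      refine ((hq1.ra.mul har).mul hq1.ra).norm_le hτ.le fun χ => ?_
      rw [(hq1.ra.mul har).val_mul χ hq1.ra, hq1.ra.val_mul χ har, isRA_one.val_sub χ hq.ra,
        val_one]
      rcases hq.ra.val_proj χ hq.2 with hv | hv
      · rw [hv, sub_zero, one_mul, mul_one, abs_of_nonneg (val_nonneg χ haA (star_mul_self_nonneg η))]
        exact val_le_of_cut χ haA har.sa hv
      · simp [hv, hτ.le]
    rw [dist_eq_norm]
    nlinarith [norm_nonneg (η - η * q)]

end Inter

lemma n2_pinch_sq (P : T.Part) (W : M) :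
    T.n2 (pinch P W) ^ 2 = ∑ i, T.tr (P.e i * T.comp W (P.e i)) := by
  rw [T.n2_sq, star_pinch_mul_pinch, T.tr_sum]
  refine Finset.sum_congr rfl fun i _ => ?_
  rw [comp, ← T.E_mul_left (P.mem i), T.tr_E, T.tr_comm_A (P.mem i),
    show P.e i * star W * P.e i * W * P.e i = P.e i * (star W * P.e i * W * P.e i) by noncomm_ring,
    T.tr_comm_A (P.mem i), mul_assoc _ (P.e i) (P.e i), (P.proj i).isIdempotentElem.eq]

/-- The square mass of an element orthogonal to a singular MASA tends to zero. -/
theorem tendsto_mass (hS : T.Singular) {W : M} (hW : T.E W = 0) :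
    Tendsto (fun P : T.Part => T.mass W P) atTop (𝓝 0) := by
  have hbb : BddBelow (Set.range fun P : T.Part => T.mass W P) :=
    ⟨0, by rintro _ ⟨P, rfl⟩; exact mass_nonneg P⟩
  have hlim := tendsto_atTop_ciInf (fun P Q h => mass_anti (W := W) h : Antitone fun P : T.Part =>
    T.mass W P) hbb
  rcases (le_ciInf fun P => mass_nonneg (W := W) P).eq_or_lt with hc | hc
  · rwa [← hc] at hlim
  exfalso
  obtain ⟨e0, g, π, θ, he0, hπ, hg, hθ, hle⟩ := exists_hom hc fun P => ciInf_le hbb P
  obtain ⟨η, hη0, hηg, hη⟩ := exists_twist hπ hg hθ hle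
  have hm : ∀ b ∈ T.A, η * b * star η ∈ T.A := fun b hb => by
    refine mem_A_of_commute_proj fun e he => ?_
    have hp := hπ.proj e he
    have h' : star η * e = π e * star η := by
      have := congrArg star (hη e he)
      rwa [star_mul, star_mul, he.2.isSelfAdjoint.star_eq, hp.2.isSelfAdjoint.star_eq] at this
    calc e * (η * b * star η) = (e * η) * b * star η := by noncomm_ring
      _ = η * (π e * b) * star η := by rw [hη e he]; noncomm_ring
      _ = η * b * (π e * star η) := by rw [T.A_comm _ hp.1 _ hb]; noncomm_ring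
      _ = η * b * star η * e := by rw [← h']; noncomm_ring
  -- the square mass of `η*` stays positive
  have hcompη : ∀ e ∈ T.A, T.comp (star η) e = η * e * star η := fun e he => by
    rw [comp, star_star, T.E_of_mem (hm e he)]
  have hmassη : ∀ P : T.Part, T.mass (star η) P = T.tr (η * pinch P (star η * η) * star η) := by
    intro P
    rw [mass, pinch, Finset.mul_sum, Finset.sum_mul, T.tr_sum]
    refine Finset.sum_congr rfl fun i _ => ?_
    rw [hcompη _ (P.mem i)]
    congr 1; noncomm_ring
  set z := T.E (star η * η) with hz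
  have hz0 : 0 ≤ z := T.E_nonneg (star_mul_self_nonneg η)
  have hc2 : ∀ P : T.Part, T.tr (η * z * star η) ≤ T.mass (star η) P := by
    intro P
    refine le_of_tendsto ((((T.tends_E (star η * η)).const_mul η).mul_right
      (C := ‖η‖ * ‖star η * η‖) (Eventually.of_forall fun Q => (norm_mul_le _ _).trans
        (mul_le_mul_of_nonneg_left (norm_pinch_le Q _) (norm_nonneg _))) (star η)).tendsto_tr) ?_
    exact (eventually_ge_atTop P).mono fun Q hQ => by rw [← hmassη Q]; exact mass_anti hQ
  have hc0 : 0 < T.tr (η * z * star η) := by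
    set s := CFC.sqrt z with hs
    have hss : star s = s := (IsSelfAdjoint.of_nonneg (CFC.sqrt_nonneg z)).star_eq
    have hs2 : s * s = z := CFC.sqrt_mul_sqrt_self z hz0
    have h1 : T.n2 (s * star η) ^ 2 = T.tr (η * z * star η) := by
      rw [T.n2_sq, star_mul, star_star, hss, ← hs2]
      congr 1; noncomm_ring
    refine lt_of_le_of_ne (h1 ▸ sq_nonneg _) fun h0 => hη0 ?_
    have h2 : s * star η = 0 := T.eq_zero_of_n2 (sq_eq_zero_iff.1 (h1.trans h0.symm))
    have h3 : z * (star η * η) = 0 := by
      rw [← hs2, ← mul_assoc, mul_assoc s s, h2, mul_zero, zero_mul]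
    have h4 : z * z = 0 := by
      nth_rewrite 2 [hz]
      rw [← T.E_mul_left (T.E_mem _), h3, T.E_zero]
    have h5 : z = 0 := T.eq_zero_of_n2 (sq_eq_zero_iff.1 (by
      rw [T.n2_sq, (IsSelfAdjoint.of_nonneg hz0).star_eq, h4, T.tr_zero]))
    refine T.eq_zero_of_n2 (sq_eq_zero_iff.1 ?_)
    rw [T.n2_sq, ← T.tr_E, ← hz, h5, T.tr_zero]
  obtain ⟨b0, g2, σ, θ2, hb0, hσ, hg2, hθ2, hle2⟩ := exists_hom hc0 hc2
  obtain ⟨η', hη'0, hη'g, hη'⟩ := exists_twist hσ hg2 hθ2 hle2
  -- `σ` inverts `π`
  have hX : ∀ e, T.AProj e → T.comp (b0 * star η) e = η * (b0 * e * b0) * star η := fun e he => by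
    have hbA : b0 * e * b0 ∈ T.A := mul_mem (mul_mem hb0.1 he.1) hb0.1
    rw [comp, star_mul, star_star, hb0.2.isSelfAdjoint.star_eq,
      show η * b0 * e * (b0 * star η) = η * (b0 * e * b0) * star η by noncomm_ring,
      T.E_of_mem (hm _ hbA)]
  have hkill : ∀ e f, T.AProj e → T.AProj f → f * (η * (b0 * e * b0) * star η) = 0 →
      σ e * f = 0 := by
    intro e f he hf h0
    have hp := hσ.proj e he
    have hXA : T.IsRA (η * (b0 * e * b0) * star η) := hX e he ▸ isRA_comp he
    refine (hp.ra.mul hf.ra).eq_of_val isRA_zero fun χ => ?_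
    have h1 := val_mono χ (hp.ra.smul θ2).mem (comp_mem _) (hle2 e he)
    rw [hp.ra.val_smul, hX e he] at h1
    have h2 := congrArg (T.val χ) h0
    rw [hf.ra.val_mul χ hXA, val_zero] at h2
    rw [hp.ra.val_mul χ hf.ra, val_zero]
    rcases hp.ra.val_proj χ hp.2 with hv | hv
    · rw [hv, zero_mul]
    · rw [hv] at h1
      rw [hv, one_mul]
      exact (mul_eq_zero.1 h2).resolve_right (by linarith)
  have hgA := hπ.aproj_g
  have hσg : σ g = g2 := by
    have h0 : σ (1 - g) * 1 = 0 := hkill _ _ hgA.one_sub aproj_one (by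
      rw [one_mul, T.A_comm _ hb0.1 _ hgA.one_sub.1,
        show η * ((1 - g) * b0 * b0) * star η = (η * (1 - g)) * (b0 * b0 * star η) by noncomm_ring,
        mul_sub, mul_one, hηg, sub_self, zero_mul])
    have := hσ.compl hgA
    rwa [← mul_one (σ (1 - g)), h0, add_zero] at this
  have hσπ : ∀ e, T.AProj e → σ (π e) = g2 * e := by
    intro e he
    have hk : ∀ f, T.AProj f → (1 - f) * (η * (b0 * π f * b0) * star η) = 0 := fun f hf => by
      rw [← mul_assoc, ← mul_assoc, hη _ hf.one_sub, mul_assoc η,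
        show π (1 - f) * (b0 * π f * b0) = (π (1 - f) * b0) * π f * b0 by noncomm_ring,
        T.A_comm _ (hπ.proj _ hf.one_sub).1 _ hb0.1, mul_assoc b0 (π (1 - f)),
        hπ.orth _ _ hf.one_sub hf hf.2.one_sub_mul_self]
      simp
    have h1 := hkill _ _ (hπ.proj e he) he.one_sub (hk e he)
    have h2 := hkill _ e (hπ.proj _ he.one_sub) he (by simpa using hk (1 - e) he.one_sub)
    have h3 := hσ.add _ _ (hπ.proj e he) (hπ.proj _ he.one_sub)
      (hπ.orth _ _ he he.one_sub he.2.mul_one_sub_self)
    rw [hπ.compl he, hσg] at h3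
    rw [mul_sub, mul_one, sub_eq_zero] at h1
    rw [h3, add_mul, h2, add_zero, ← h1]
  have hI : T.Inter η' π σ := by
    refine ⟨fun e he => ⟨hπ.proj e he, ?_⟩, fun e he => ⟨hσ.proj e he, hη' e he⟩⟩
    rw [hη' _ (hπ.proj e he), hσπ e he, ← mul_assoc, hη'g]
  have hη'A := hI.mem hS
  -- an intertwiner in the MASA contradicts `E W = 0`
  set a := star η' * η' with ha
  have haA : a ∈ T.A := mul_mem (star_mem hη'A) hη'A
  have har : T.IsRA a := ⟨haA, IsSelfAdjoint.star_mul_self η'⟩
  set W1 := e0 * W
  have hEW1 : T.E W1 = 0 := by rw [T.E_mul_left he0.1, hW, mul_zero]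
  have hsmall : ∀ τ : ℝ, 0 < τ → θ * T.tr (T.cut a τ) ≤ 0 := fun τ hτ => by
    have hq := aproj_cut (T := T) haA τ
    have hlim1 : Tendsto (fun P : T.Part => T.n2 (pinch P W1) ^ 2) atTop (𝓝 0) := by
      have := T.tends_E W1
      rw [Tends, hEW1] at this
      simpa using this.pow 2
    refine ge_of_tendsto hlim1 (Eventually.of_forall fun P => ?_)
    rw [n2_pinch_sq]
    conv_lhs => rw [← mul_one (T.cut a τ), ← P.sum_one, Finset.mul_sum, T.tr_sum, Finset.mul_sum]
    refine Finset.sum_le_sum fun i _ => ?_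
    have hei := P.aproj i
    have hpi := hπ.proj _ hei
    have hae : π (P.e i) * a = P.e i * a := by
      have h5 : π (P.e i) * η' = P.e i * η' := by
        rw [← (hI.left _ hei).2, T.A_comm _ hη'A _ hei.1]
      rw [ha, ← mul_assoc, ← mul_assoc, T.A_comm _ hpi.1 _ (star_mem hη'A),
        T.A_comm _ hei.1 _ (star_mem hη'A), mul_assoc, mul_assoc, h5]
    rw [← T.tr_smul]
    refine T.tr_mono (((hq.ra.mul hei.ra).smul θ).le_of_val
      (hei.ra.mul (isRA_comp hei)) fun χ => ?_)
    rw [(hq.ra.mul hei.ra).val_smul, hq.ra.val_mul χ hei.ra, hei.ra.val_mul χ (isRA_comp hei)]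
    rcases hq.ra.val_proj χ hq.2 with hv | hv
    · rw [hv, zero_mul, mul_zero]
      exact mul_nonneg (val_nonneg χ hei.1 hei.2.nonneg) (val_comp_nonneg hei χ)
    · have h5 := congrArg (T.val χ) hae
      rw [hpi.ra.val_mul χ har, hei.ra.val_mul χ har] at h5
      have h6 := le_val_of_cut χ haA har.sa hv
      have h7 : T.val χ (π (P.e i)) = T.val χ (P.e i) :=
        mul_right_cancel₀ (by linarith) h5
      have h8 := val_mono χ (hpi.ra.smul θ).mem (comp_mem _) (hle _ hei)
      rw [hpi.ra.val_smul, h7] at h8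
      rw [hv, one_mul]
      rcases hei.ra.val_proj χ hei.2 with he1 | he1 <;> rw [he1] at h8 ⊢ <;> linarith
  refine hη'0 ?_
  have ha0 : a = 0 := by
    refine har.eq_of_val isRA_zero fun χ => ?_
    rw [val_zero]
    refine le_antisymm (le_of_forall_pos_le_add fun τ hτ => ?_)
      (val_nonneg χ haA (star_mul_self_nonneg η'))
    have hq := aproj_cut (T := T) haA τ
    have h1 : T.cut a τ = 0 := T.eq_zero_of_n2 (sq_eq_zero_iff.1 (le_antisymm (by
      rw [T.n2_sq_proj hq.2]; exact nonpos_of_mul_nonpos_right (hsmall τ hτ) hθ) (sq_nonneg _)))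
    rw [zero_add]
    exact val_le_of_cut χ haA har.sa (by rw [h1, val_zero])
  have : ‖η'‖ * ‖η'‖ = 0 := by rw [← CStarRing.norm_star_mul_self, ← ha, ha0, norm_zero]
  exact norm_eq_zero.1 (mul_self_eq_zero.1 this)

end SMasa

end Vale.Agent.P078.Sing
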