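import Mathlib
import Vale.Agent.P078.Gen.Spec

/-!
# Singular MASAs
-/

namespace Vale.Agent.P078

universe u

variable {H : Type u} [NormedAddCommGroup H] [InnerProductSpace ℂ H] [CompleteSpace H]

/-- `A` is singular in `M`: every unitary of `M` which normalises it lies in it. -/
def IsSingular (M : VonNeumannAlgebra H) (A : StarSubalgebra ℂ (H →L[ℂ] H)) : Prop :=
  ∀ u ∈ M, star u * u = 1 → u * star u = 1 →
    (∀ a ∈ A, u * a * star u ∈ A ∧ star u * a * u ∈ A) → u ∈ A

end Vale.Agent.P078
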