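import Mathlib
import Vale.Agent.P078.FinalVN
import Vale.Agent.P078.Semi.Spectral
import Vale.Agent.P078.Sing.Basic

/-!
# A faithful normal state detects strong convergence on bounded sets

For a positive functional which is strongly continuous at `0` on the unit ball and faithful,
bounded elements which are small in the 2-norm of the functional are small at every vector.
-/

open scoped InnerProductSpace ComplexOrder Topology
open Filter

namespace Vale.Agent.P078.Sing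

universe u

attribute [-instance] Subtype.instLE Subtype.preorder Subtype.partialOrder

variable {H : Type u} [NormedAddCommGroup H] [InnerProductSpace ℂ H] [CompleteSpace H]
variable {M : VonNeumannAlgebra H}

/-- Continuity at `0` on the unit ball for pointwise convergence on vectors. -/
def IsNormalFun (φ : M.toStarSubalgebra →ₚ[ℂ] ℂ) : Prop :=
  ∀ ε : ℝ, 0 < ε → ∃ (F : Finset H) (δ : ℝ), 0 < δ ∧ ∀ x : M.toStarSubalgebra,
    ‖(x : H →L[ℂ] H)‖ ≤ 1 → (∀ v ∈ F, ‖(x : H →L[ℂ] H) v‖ ≤ δ) → ‖φ x‖ ≤ ε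

lemma coe_nonneg {x : M.toStarSubalgebra} (hx : 0 ≤ x) : 0 ≤ (x : H →L[ℂ] H) := by
  obtain ⟨s, rfl⟩ := CStarAlgebra.nonneg_iff_eq_star_mul_self.1 hx
  exact star_mul_self_nonneg (s : H →L[ℂ] H)

lemma nonneg_of_coe {x : M.toStarSubalgebra} (hx : 0 ≤ (x : H →L[ℂ] H)) : 0 ≤ x := by
  set g : H →L[ℂ] H := CFC.sqrt (x : H →L[ℂ] H)
  have hgs : IsSelfAdjoint g := IsSelfAdjoint.of_nonneg (CFC.sqrt_nonneg _)
  have hgM : g ∈ M := Semi.mem_vn fun y hy =>
    (show Commute g y by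
      simp only [g, CFC.sqrt_eq_real_sqrt _ hx]
      exact ((Semi.commute_commutant x.2 hy).symm).cfcₙ_real _).symm
  have e : x = star (⟨g, hgM⟩ : M.toStarSubalgebra) * ⟨g, hgM⟩ := Subtype.ext (by
    show (x : H →L[ℂ] H) = star g * g
    rw [hgs.star_eq]
    exact (CFC.sqrt_mul_sqrt_self (x : H →L[ℂ] H) hx).symm)
  rw [e]
  exact star_mul_self_nonneg _

lemma re_inner_mono {x y : M.toStarSubalgebra} (h : x ≤ y) (v : H) :
    (⟪v, (x : H →L[ℂ] H) v⟫_ℂ).re ≤ (⟪v, (y : H →L[ℂ] H) v⟫_ℂ).re := by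
  have h1 := Semi.re_inner_nonneg (coe_nonneg (sub_nonneg.2 h)) v
  simp only [AddSubgroupClass.coe_sub, ContinuousLinearMap.sub_apply, inner_sub_right,
    Complex.sub_re] at h1
  linarith

lemma inner_star_mul_self (x : M.toStarSubalgebra) (v : H) :
    (⟪v, ((star x * x : M.toStarSubalgebra) : H →L[ℂ] H) v⟫_ℂ).re
      = ‖(x : H →L[ℂ] H) v‖ ^ 2 := by
  show (⟪v, (star (x : H →L[ℂ] H) * (x : H →L[ℂ] H)) v⟫_ℂ).re = _
  rw [VN.inner_star_mul, Complex.ofReal_re]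

/-- A bounded pointwise Cauchy sequence converges pointwise to an element of the algebra. -/
lemma exists_strong_lim (X : ℕ → M.toStarSubalgebra) (C : ℝ) (hC : ∀ n, ‖X n‖ ≤ C)
    (hcs : ∀ v, CauchySeq fun n => (X n : H →L[ℂ] H) v) :
    ∃ Y : M.toStarSubalgebra, ‖Y‖ ≤ C ∧
      ∀ v, Tendsto (fun n => (X n : H →L[ℂ] H) v) atTop (𝓝 ((Y : H →L[ℂ] H) v)) := by
  choose f hf using fun v => cauchySeq_tendsto_of_complete (hcs v)
  have hfb : ∀ v, ‖f v‖ ≤ C * ‖v‖ := fun v =>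
    le_of_tendsto (hf v).norm (Eventually.of_forall fun n =>
      ((X n : H →L[ℂ] H).le_opNorm v).trans
        (mul_le_mul_of_nonneg_right (hC n) (norm_nonneg v)))
  let fl : H →ₗ[ℂ] H :=
    { toFun := f
      map_add' := fun v w => tendsto_nhds_unique (hf (v + w))
        (((hf v).add (hf w)).congr fun n => (map_add (X n : H →L[ℂ] H) v w).symm)
      map_smul' := fun c v => tendsto_nhds_unique (hf (c • v))
        (((hf v).const_smul c).congr fun n => (map_smul (X n : H →L[ℂ] H) c v).symm) }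
  have hlM : fl.mkContinuous C hfb ∈ M := by
    refine VN.mem_of_commute_commutant fun y hy => ?_
    ext v
    show y (f v) = f (y v)
    refine tendsto_nhds_unique ((y.continuous.tendsto _).comp (hf v)) ((hf (y v)).congr fun n => ?_)
    have := VonNeumannAlgebra.mem_commutant_iff.1 hy (X n : H →L[ℂ] H) (X n).2
    exact congrArg (fun T : H →L[ℂ] H => T v) this
  exact ⟨⟨_, hlM⟩, fl.mkContinuous_norm_le ((norm_nonneg _).trans (hC 0)) hfb, hf⟩

/-- A bounded increasing sequence converges pointwise. -/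
lemma exists_strong_lim_monotone (X : ℕ → M.toStarSubalgebra) (C : ℝ) (hC : ∀ n, ‖X n‖ ≤ C)
    (hm : Monotone X) :
    ∃ Y : M.toStarSubalgebra, ‖Y‖ ≤ C ∧
      ∀ v, Tendsto (fun n => (X n : H →L[ℂ] H) v) atTop (𝓝 ((Y : H →L[ℂ] H) v)) := by
  refine exists_strong_lim X C hC fun v => ?_
  have hC0 : 0 ≤ C := (norm_nonneg _).trans (hC 0)
  set r : ℕ → ℝ := fun n => (⟪v, (X n : H →L[ℂ] H) v⟫_ℂ).re
  have hr : Monotone r := fun n m h => re_inner_mono (hm h) v
  have hbdd : BddAbove (Set.range r) := ⟨C * ‖v‖ ^ 2, by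
    rintro _ ⟨n, rfl⟩
    refine (Complex.re_le_norm _).trans ((norm_inner_le_norm _ _).trans ?_)
    refine (mul_le_mul_of_nonneg_left ((X n : H →L[ℂ] H).le_opNorm v) (norm_nonneg v)).trans ?_
    have h2 := mul_le_mul_of_nonneg_left (hC n) (sq_nonneg ‖v‖)
    have h3 : ‖(X n : H →L[ℂ] H)‖ = ‖X n‖ := rfl
    rw [h3]; linarith⟩
  have hlim := tendsto_atTop_ciSup hr hbdd
  refine cauchySeq_of_le_tendsto_0' (fun n => Real.sqrt (2 * C * ((⨆ k, r k) - r n)))
    (fun n m hnm => ?_) ?_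
  · rw [dist_eq_norm, ← norm_neg, neg_sub]
    refine Real.le_sqrt_of_sq_le ?_
    have hd : 0 ≤ X m - X n := sub_nonneg.2 (hm hnm)
    have h1 := re_inner_mono (SMasa.sq_le_norm_smul hd) v
    have h2 : (⟪v, ((‖X m - X n‖ • (X m - X n) : M.toStarSubalgebra) : H →L[ℂ] H) v⟫_ℂ).re
        = ‖X m - X n‖ * (r m - r n) := by
      rw [← Complex.coe_smul]
      simp [r, Complex.mul_re]
    rw [h2] at h1
    have h3 := inner_star_mul_self (X m - X n) v
    rw [(IsSelfAdjoint.of_nonneg hd).star_eq] at h3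
    rw [h3] at h1
    refine le_trans ?_ (h1.trans (mul_le_mul ((norm_sub_le _ _).trans (by linarith [hC n, hC m]) :
      ‖X m - X n‖ ≤ 2 * C) (sub_le_sub_right (le_ciSup hbdd m) _)
      (sub_nonneg.2 (hr hnm)) (by positivity)))
    simp
  · have := ((tendsto_const_nhds (x := ⨆ k, r k)).sub hlim).const_mul (2 * C)
    rw [sub_self, mul_zero] at this
    simpa using this.sqrt

lemma lim_nonneg {ι : Type*} {l : Filter ι} [l.NeBot] {X : ι → M.toStarSubalgebra}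
    {Y : M.toStarSubalgebra} (hX : ∀ i, 0 ≤ X i)
    (h : ∀ v, Tendsto (fun i => (X i : H →L[ℂ] H) v) l (𝓝 ((Y : H →L[ℂ] H) v))) : 0 ≤ Y := by
  refine nonneg_of_coe ((ContinuousLinearMap.nonneg_iff_isPositive _).2
    ((ContinuousLinearMap.isPositive_iff_complex _).2 fun v => ?_))
  have hl := (h v).inner (tendsto_const_nhds (x := v)) (𝕜 := ℂ)
  have hp : ∀ i, 0 ≤ ⟪(X i : H →L[ℂ] H) v, v⟫_ℂ := fun i =>
    ((ContinuousLinearMap.nonneg_iff_isPositive _).1 (coe_nonneg (hX i))).inner_nonneg_left v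
  have h0 := ge_of_tendsto hl (Eventually.of_forall hp)
  obtain ⟨h1, h2⟩ := Complex.nonneg_iff.1 h0
  exact ⟨Complex.ext (by simp) (by simpa using h2), h1⟩

variable {φ : M.toStarSubalgebra →ₚ[ℂ] ℂ} (hn : IsNormalFun φ)
include hn

lemma IsNormalFun.small (C : ℝ) {ε : ℝ} (hε : 0 < ε) :
    ∃ (F : Finset H) (δ : ℝ), 0 < δ ∧ ∀ x : M.toStarSubalgebra, ‖x‖ ≤ C →
      (∀ v ∈ F, ‖(x : H →L[ℂ] H) v‖ ≤ δ) → ‖φ x‖ ≤ ε := by
  have hc : 0 < |C| + 1 := by positivity
  obtain ⟨F, δ, hδ, h⟩ := hn (ε / (|C| + 1)) (by positivity)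
  refine ⟨F, δ * (|C| + 1), by positivity, fun x hx hs => ?_⟩
  set c : ℂ := (((|C| + 1)⁻¹ : ℝ) : ℂ)
  have hcn : ‖c‖ = (|C| + 1)⁻¹ := by
    rw [Complex.norm_real, Real.norm_of_nonneg (inv_nonneg.2 hc.le)]
  have h1 := h (c • x) ?_ fun v hv => ?_
  · rw [map_smul, norm_smul, hcn, inv_mul_le_iff₀ hc] at h1
    exact h1.trans_eq (by field_simp)
  · show ‖c • (x : H →L[ℂ] H)‖ ≤ 1
    rw [norm_smul, hcn, inv_mul_le_iff₀ hc, mul_one]
    exact hx.trans ((le_abs_self C).trans (by linarith))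
  · show ‖c • (x : H →L[ℂ] H) v‖ ≤ δ
    rw [norm_smul, hcn, inv_mul_le_iff₀ hc, mul_comm]
    exact hs v hv

lemma IsNormalFun.tendsto {ι : Type*} {l : Filter ι} {X : ι → M.toStarSubalgebra}
    {Y : M.toStarSubalgebra} {C : ℝ} (hC : ∀ i, ‖X i‖ ≤ C)
    (h : ∀ v, Tendsto (fun i => (X i : H →L[ℂ] H) v) l (𝓝 ((Y : H →L[ℂ] H) v))) :
    Tendsto (fun i => φ (X i)) l (𝓝 (φ Y)) := by
  refine Metric.tendsto_nhds.2 fun ε hε => ?_
  obtain ⟨F, δ, hδ, hs⟩ := hn.small (C + ‖Y‖) (half_pos hε)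
  have hev : ∀ᶠ i in l, ∀ v ∈ F, dist ((X i : H →L[ℂ] H) v) ((Y : H →L[ℂ] H) v) < δ :=
    (eventually_all_finset F).2 fun v _ => Metric.tendsto_nhds.1 (h v) δ hδ
  refine hev.mono fun i hi => ?_
  rw [dist_eq_norm, ← map_sub]
  refine (hs _ ((norm_sub_le _ _).trans (by linarith [hC i])) fun v hv => ?_).trans_lt
    (half_lt_self hε)
  have := (hi v hv).le
  rw [dist_eq_norm] at this
  simpa using this

omit hn in
lemma squash_le {X : M.toStarSubalgebra} (hX : 0 ≤ X) :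
    0 ≤ cfc (fun t : ℝ => 1 - (1 + t)⁻¹) X ∧ cfc (fun t : ℝ => 1 - (1 + t)⁻¹) X ≤ X ∧
      ‖cfc (fun t : ℝ => 1 - (1 + t)⁻¹) X‖ ≤ 1 := by
  have hc : ContinuousOn (fun t : ℝ => 1 - (1 + t)⁻¹) (spectrum ℝ X) :=
    continuousOn_const.sub ((continuousOn_const.add continuousOn_id).inv₀ fun t ht =>
      (show (0 : ℝ) < 1 + t by linarith [spectrum_nonneg_of_nonneg hX ht]).ne')
  have hb : ∀ t : ℝ, 0 ≤ t → 0 ≤ 1 - (1 + t)⁻¹ ∧ 1 - (1 + t)⁻¹ ≤ t ∧ 1 - (1 + t)⁻¹ ≤ 1 := by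
    intro t ht
    have h1 : 0 < 1 + t := by linarith
    have e : 1 - (1 + t)⁻¹ = t / (1 + t) := by field_simp; ring
    refine ⟨by rw [e]; positivity, by rw [e]; exact div_le_self ht (by linarith), ?_⟩
    have : 0 < (1 + t)⁻¹ := inv_pos.2 h1
    linarith
  refine ⟨cfc_nonneg fun t ht => (hb t (spectrum_nonneg_of_nonneg hX ht)).1, ?_,
    norm_cfc_le zero_le_one fun t ht => ?_⟩
  · conv_rhs => rw [← cfc_id' ℝ X]
    exact cfc_mono fun t ht => (hb t (spectrum_nonneg_of_nonneg hX ht)).2.1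
  · rw [Real.norm_eq_abs, abs_of_nonneg (hb t (spectrum_nonneg_of_nonneg hX ht)).1]
    exact (hb t (spectrum_nonneg_of_nonneg hX ht)).2.2

omit hn in
lemma squash_mono {X Y : M.toStarSubalgebra} (hX : 0 ≤ X) (h : X ≤ Y) :
    cfc (fun t : ℝ => 1 - (1 + t)⁻¹) X ≤ cfc (fun t : ℝ => 1 - (1 + t)⁻¹) Y := by
  have e : ∀ Z : M.toStarSubalgebra, 0 ≤ Z → cfc (fun t : ℝ => 1 - (1 + t)⁻¹) Z
      = cfcₙ (fun t : ℝ => 1 - (1 + t)⁻¹) Z := fun Z hZ => by
    refine (cfcₙ_eq_cfc ?_ (by simp)).symm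
    exact continuousOn_const.sub ((continuousOn_const.add continuousOn_id).inv₀ fun t ht =>
      (show (0 : ℝ) < 1 + t by linarith [quasispectrum_nonneg_of_nonneg Z hZ t ht]).ne')
  rw [e X hX, e Y (hX.trans h)]
  exact CFC.monotoneOn_one_sub_one_add_inv_real hX (hX.trans h) h

omit hn in
lemma half_le_squash {X : M.toStarSubalgebra} (hX : 0 ≤ X) (hX1 : ‖X‖ ≤ 1) :
    (1 / 2 : ℝ) • X ≤ cfc (fun t : ℝ => 1 - (1 + t)⁻¹) X := by
  have hc : ContinuousOn (fun t : ℝ => 1 - (1 + t)⁻¹) (spectrum ℝ X) :=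
    continuousOn_const.sub ((continuousOn_const.add continuousOn_id).inv₀ fun t ht =>
      (show (0 : ℝ) < 1 + t by linarith [spectrum_nonneg_of_nonneg hX ht]).ne')
  rw [← cfc_smul_id (R := ℝ) (1 / 2 : ℝ) X (IsSelfAdjoint.of_nonneg hX)]
  refine cfc_mono (hf := by fun_prop) (hg := hc) fun t ht => ?_
  have h0 := spectrum_nonneg_of_nonneg hX ht
  have h1 : t ≤ 1 := by
    rcases subsingleton_or_nontrivial M.toStarSubalgebra with h | h
    · simp [spectrum.of_subsingleton] at ht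
    · exact (Real.le_norm_self t).trans ((spectrum.norm_le_norm_of_mem ht).trans hX1)
  rw [smul_eq_mul, show 1 - (1 + t)⁻¹ = t / (1 + t) by field_simp; ring,
    le_div_iff₀ (by linarith)]
  nlinarith

/-- Bounded elements which are small in the 2-norm are small at each vector. -/
theorem IsNormalFun.small_at (hf : ∀ x, φ (star x * x) = 0 → x = 0) (C : ℝ) (v : H) {δ : ℝ}
    (hδ : 0 < δ) :
    ∃ η : ℝ, 0 < η ∧ ∀ x : M.toStarSubalgebra, ‖x‖ ≤ C → (φ (star x * x)).re ≤ η →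
      ‖(x : H →L[ℂ] H) v‖ ≤ δ := by
  by_contra! hcon
  choose x hxC hxη hxv using fun n : ℕ => hcon ((1 / 2 : ℝ) ^ n) (by positivity)
  have hc : 0 < |C| + 1 := by positivity
  set c : ℝ := (|C| + 1)⁻¹ with hcdef
  have hc0 : 0 < c := inv_pos.2 hc
  set T : ℕ → M.toStarSubalgebra := fun n => (c ^ 2) • (star (x n) * x n) with hT
  have hT0 : ∀ n, 0 ≤ T n := fun n => smul_nonneg (sq_nonneg c) (star_mul_self_nonneg _)
  have hT1 : ∀ n, ‖T n‖ ≤ 1 := fun n => by
    rw [hT, norm_smul, CStarRing.norm_star_mul_self, Real.norm_eq_abs, abs_of_nonneg (sq_nonneg c)]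
    have h1 : c * ‖x n‖ ≤ 1 := by
      rw [hcdef, inv_mul_le_iff₀ hc, mul_one]
      exact (hxC n).trans ((le_abs_self C).trans (by linarith))
    have h2 : 0 ≤ c * ‖x n‖ := by positivity
    nlinarith
  have hTφ : ∀ n, (φ (T n)).re ≤ c ^ 2 * (1 / 2 : ℝ) ^ n := fun n => by
    have e : φ (T n) = ((c ^ 2 : ℝ) : ℂ) * φ (star (x n) * x n) := by
      rw [hT, ← smul_eq_mul, ← map_smul, Complex.coe_smul]
    rw [e, Complex.re_ofReal_mul]
    exact mul_le_mul_of_nonneg_left (hxη n) (sq_nonneg c)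
  have hTv : ∀ n, c ^ 2 * δ ^ 2 ≤ (⟪v, (T n : H →L[ℂ] H) v⟫_ℂ).re := fun n => by
    have e : (⟪v, (T n : H →L[ℂ] H) v⟫_ℂ).re = c ^ 2 * ‖(x n : H →L[ℂ] H) v‖ ^ 2 := by
      rw [← inner_star_mul_self, hT]
      simp only []
      rw [← Complex.coe_smul]
      simp [inner_smul_right, Complex.mul_re, pow_two]
    rw [e]
    exact mul_le_mul_of_nonneg_left (pow_le_pow_left₀ hδ.le (hxv n).le 2) (sq_nonneg c)
  set Sg : ℕ → ℕ → M.toStarSubalgebra := fun N k => ∑ i ∈ Finset.range (k + 1), T (N + i) with hS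
  have hS0 : ∀ N k, 0 ≤ Sg N k := fun N k => Finset.sum_nonneg fun i _ => hT0 _
  set g : ℕ → ℕ → M.toStarSubalgebra := fun N k => cfc (fun t : ℝ => 1 - (1 + t)⁻¹) (Sg N k)
    with hg
  have hgm : ∀ N, Monotone (g N) := fun N => monotone_nat_of_le_succ fun k =>
    squash_mono (hS0 N k) (by
      simp only [hS]
      rw [Finset.sum_range_succ _ (k + 1)]
      exact le_add_of_nonneg_right (hT0 _))
  have hgs : ∀ N k, g (N + 1) k ≤ g N (k + 1) := fun N k => squash_mono (hS0 _ k) (by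
    simp only [hS]
    rw [Finset.sum_range_succ' _ (k + 1)]
    refine le_add_of_le_of_nonneg (le_of_eq ?_) (hT0 _)
    exact Finset.sum_congr rfl fun i _ => by congr 1; omega)
  choose G hG1 hGlim using fun N => exists_strong_lim_monotone (g N) 1
    (fun k => (squash_le (hS0 N k)).2.2) (hgm N)
  have hG0 : ∀ N, 0 ≤ G N := fun N => lim_nonneg (fun k => (squash_le (hS0 N k)).1) (hGlim N)
  have hGanti : ∀ N, G (N + 1) ≤ G N := fun N => by
    refine sub_nonneg.1 (lim_nonneg (l := atTop) (X := fun k => g N (k + 1) - g (N + 1) k)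
      (fun k => sub_nonneg.2 (hgs N k)) fun w => ?_)
    simpa using ((hGlim N w).comp (tendsto_add_atTop_nat 1)).sub (hGlim (N + 1) w)
  have hGφ : ∀ N, (φ (G N)).re ≤ 2 * c ^ 2 * (1 / 2 : ℝ) ^ N := fun N => by
    refine le_of_tendsto ((Complex.continuous_re.tendsto _).comp
      (hn.tendsto (fun k => (squash_le (hS0 N k)).2.2) (hGlim N))) (Eventually.of_forall fun k => ?_)
    have h1 := (Complex.le_def.1 (OrderHomClass.mono φ (squash_le (hS0 N k)).2.1)).1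
    refine h1.trans ?_
    simp only [hS, map_sum, Complex.re_sum]
    refine (Finset.sum_le_sum fun i _ => hTφ (N + i)).trans ?_
    rw [← Finset.mul_sum]
    simp only [pow_add, ← Finset.mul_sum]
    have h2 := sum_geometric_two_le (k + 1)
    have h3 : 0 ≤ c ^ 2 * (1 / 2 : ℝ) ^ N := by positivity
    nlinarith
  have hGv : ∀ N, c ^ 2 * δ ^ 2 / 2 ≤ (⟪v, (G N : H →L[ℂ] H) v⟫_ℂ).re := fun N => by
    refine ge_of_tendsto ((Complex.continuous_re.tendsto _).comp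
      ((tendsto_const_nhds (x := v)).inner (hGlim N v) (𝕜 := ℂ)))
      (Eventually.of_forall fun k => ?_)
    refine le_trans ?_ (re_inner_mono (hgm N (Nat.zero_le k)) v)
    refine le_trans ?_ (re_inner_mono (x := (1 / 2 : ℝ) • T N) ?_ v)
    · have e : (⟪v, (((1 / 2 : ℝ) • T N : M.toStarSubalgebra) : H →L[ℂ] H) v⟫_ℂ).re
          = (1 / 2) * (⟪v, (T N : H →L[ℂ] H) v⟫_ℂ).re := by
        rw [← Complex.coe_smul]
        simp [inner_smul_right, Complex.mul_re]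
      rw [e]
      linarith [hTv N]
    · simp only [hg, hS, zero_add, Finset.sum_range_one, add_zero]
      exact half_le_squash (hT0 N) (hT1 N)
  obtain ⟨Y, hY1, hYlim⟩ := exists_strong_lim_monotone (fun N => -G N) 1
    (fun N => (norm_neg _).trans_le (hG1 N))
    (monotone_nat_of_le_succ fun N => neg_le_neg (hGanti N))
  have hlimG : ∀ w, Tendsto (fun N => (G N : H →L[ℂ] H) w) atTop
      (𝓝 (((-Y : M.toStarSubalgebra) : H →L[ℂ] H) w)) := fun w => by simpa using (hYlim w).neg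
  have hZ0 : 0 ≤ -Y := lim_nonneg hG0 hlimG
  have hZφ : φ (-Y) = 0 := by
    obtain ⟨hr, hi⟩ := Complex.nonneg_iff.1 (φ.map_nonneg hZ0)
    refine Complex.ext (le_antisymm ?_ hr) hi.symm
    refine le_of_tendsto_of_tendsto' ((Complex.continuous_re.tendsto _).comp
      (hn.tendsto hG1 hlimG)) ?_ hGφ
    simpa using (tendsto_pow_atTop_nhds_zero_of_lt_one (by norm_num : (0 : ℝ) ≤ 1 / 2)
      (by norm_num)).const_mul (2 * c ^ 2)
  have hZ : -Y = 0 := by
    obtain ⟨s, hs⟩ := CStarAlgebra.nonneg_iff_eq_star_mul_self.1 hZ0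
    rw [hs] at hZφ ⊢
    rw [hf s hZφ, mul_zero]
  have h1 : c ^ 2 * δ ^ 2 / 2 ≤ (⟪v, ((-Y : M.toStarSubalgebra) : H →L[ℂ] H) v⟫_ℂ).re :=
    ge_of_tendsto ((Complex.continuous_re.tendsto _).comp
      ((tendsto_const_nhds (x := v)).inner (hlimG v) (𝕜 := ℂ))) (Eventually.of_forall hGv)
  rw [hZ] at h1
  simp only [ZeroMemClass.coe_zero, ContinuousLinearMap.zero_apply, inner_zero_right,
    Complex.zero_re] at h1
  have : 0 < c ^ 2 * δ ^ 2 := by positivity
  linarith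

end Vale.Agent.P078.Sing
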