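import Mathlib
import Vale.Agent.P078.Gen.Defs
import Vale.Agent.P078.Semi.Corner
import Vale.Agent.P078.Sing.Spec
import Vale.Agent.P078.Sing.StrongLim
import Vale.Agent.P078.Sing.Singular

/-!
# A MASA with a faithful central normal functional gives an `SMasa`
-/

open scoped InnerProductSpace ComplexOrder Topology
open Filter

namespace Vale.Agent.P078.Sing

universe u

attribute [-instance] Subtype.instLE Subtype.preorder Subtype.partialOrder

variable {H : Type u} [NormedAddCommGroup H] [InnerProductSpace ℂ H] [CompleteSpace H]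
variable {M : VonNeumannAlgebra H} {A : StarSubalgebra ℂ (H →L[ℂ] H)}
variable {φ : M.toStarSubalgebra →ₚ[ℂ] ℂ}

lemma n2_sq_eq (x : M.toStarSubalgebra) : ‖φ.toPreGNS x‖ ^ 2 = (φ (star x * x)).re := by
  have h := φ.preGNS_norm_sq (φ.toPreGNS x)
  rw [PositiveLinearMap.ofPreGNS_toPreGNS] at h
  rw [← h, ← Complex.ofReal_pow, Complex.ofReal_re]

lemma small_at_finset (hn : IsNormalFun φ) (hf : ∀ x, φ (star x * x) = 0 → x = 0) (C : ℝ)
    (F : Finset H) {δ : ℝ} (hδ : 0 < δ) :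
    ∃ η : ℝ, 0 < η ∧ ∀ x : M.toStarSubalgebra, ‖x‖ ≤ C → ‖φ.toPreGNS x‖ ≤ η →
      ∀ v ∈ F, ‖(x : H →L[ℂ] H) v‖ ≤ δ := by
  classical
  choose η hη hs using fun v : H => hn.small_at hf C v hδ
  obtain ⟨η0, hη0, hle⟩ : ∃ η0 : ℝ, 0 < η0 ∧ ∀ v ∈ F, η0 ≤ η v := by
    rcases F.eq_empty_or_nonempty with rfl | hF
    · exact ⟨1, one_pos, by simp⟩
    · exact ⟨F.inf' hF η, (Finset.lt_inf'_iff hF).2 fun v _ => hη v,
        fun v hv => Finset.inf'_le η hv⟩
  refine ⟨Real.sqrt η0, Real.sqrt_pos.2 hη0, fun x hx hxs v hv => hs v x hx ?_⟩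
  rw [← n2_sq_eq]
  exact ((pow_le_pow_left₀ (norm_nonneg _) hxs 2).trans_eq (Real.sq_sqrt hη0.le)).trans (hle v hv)

lemma complete_of_normal (hn : IsNormalFun φ) (hf : ∀ x, φ (star x * x) = 0 → x = 0)
    (x : ℕ → M.toStarSubalgebra) (C : ℝ) (hC : ∀ n, ‖x n‖ ≤ C)
    (hcs : CauchySeq fun n => φ.toPreGNS (x n)) :
    ∃ l : M.toStarSubalgebra, ‖l‖ ≤ C ∧
      Tendsto (fun n => φ.toPreGNS (x n)) atTop (𝓝 (φ.toPreGNS l)) := by
  have hpt : ∀ v, CauchySeq fun n => (x n : H →L[ℂ] H) v := fun v => by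
    refine Metric.cauchySeq_iff.2 fun e he => ?_
    obtain ⟨η, hη, hs⟩ := small_at_finset hn hf (2 * C) {v} (half_pos he)
    obtain ⟨N, hN⟩ := Metric.cauchySeq_iff.1 hcs η hη
    refine ⟨N, fun m hm k hk => ?_⟩
    have h1 := (hN m hm k hk).le
    rw [dist_eq_norm, ← map_sub] at h1
    have h2 := hs (x m - x k) ((norm_sub_le _ _).trans (by linarith [hC m, hC k])) h1 v
      (Finset.mem_singleton_self v)
    rw [dist_eq_norm]
    calc ‖(x m : H →L[ℂ] H) v - (x k : H →L[ℂ] H) v‖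
        = ‖((x m - x k : M.toStarSubalgebra) : H →L[ℂ] H) v‖ := by simp
      _ < e := by linarith
  obtain ⟨l, hl, hlim⟩ := exists_strong_lim x C hC hpt
  refine ⟨l, hl, Metric.tendsto_atTop.2 fun e he => ?_⟩
  obtain ⟨N, hN⟩ := Metric.cauchySeq_iff.1 hcs (e / 2) (half_pos he)
  refine ⟨N, fun m hm => ?_⟩
  rw [dist_eq_norm, ← map_sub]
  set y : M.toStarSubalgebra := x m - l with hy
  have h1 : Tendsto (fun k => φ (star y * (x m - x k))) atTop (𝓝 (φ (star y * y))) := by
    refine hn.tendsto (C := ‖y‖ * (2 * C)) (fun k => ?_) fun v => ?_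
    · refine (norm_mul_le _ _).trans ?_
      rw [norm_star]
      exact mul_le_mul_of_nonneg_left ((norm_sub_le _ _).trans (by linarith [hC m, hC k]))
        (norm_nonneg _)
    · simpa [hy, Function.comp_def, Pi.sub_apply] using (((star (y : H →L[ℂ] H)).continuous.tendsto _).comp
        ((tendsto_const_nhds (x := (x m : H →L[ℂ] H) v)).sub (hlim v)))
  have h2 : ‖φ.toPreGNS y‖ ^ 2 ≤ ‖φ.toPreGNS y‖ * (e / 2) := by
    rw [n2_sq_eq]
    refine le_of_tendsto ((Complex.continuous_re.tendsto _).comp h1)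
      ((eventually_ge_atTop N).mono fun k hk => ?_)
    refine (Complex.re_le_norm _).trans ?_
    have h3 := norm_inner_le_norm (𝕜 := ℂ) (φ.toPreGNS y) (φ.toPreGNS (x m - x k))
    rw [PositiveLinearMap.preGNS_inner_def] at h3
    simp only [PositiveLinearMap.ofPreGNS_toPreGNS] at h3
    refine h3.trans (mul_le_mul_of_nonneg_left ?_ (norm_nonneg _))
    rw [map_sub, ← dist_eq_norm]
    exact (hN m hm k hk).le
  by_contra hc
  push Not at hc
  nlinarith

lemma right_cont_of_normal (hn : IsNormalFun φ) (hf : ∀ x, φ (star x * x) = 0 → x = 0)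
    (z : M.toStarSubalgebra) (C ε : ℝ) (hε : 0 < ε) :
    ∃ δ : ℝ, 0 < δ ∧ ∀ x : M.toStarSubalgebra, ‖x‖ ≤ C →
      ‖φ.toPreGNS x‖ ≤ δ → ‖φ.toPreGNS (x * z)‖ ≤ ε := by
  classical
  set D := (|C| + 1) * (‖z‖ + 1) with hD
  have hD0 : 0 < D := by positivity
  obtain ⟨F, δ, hδ, hF⟩ := hn.small (D ^ 2) (sq_pos_of_pos hε)
  obtain ⟨η, hη, hs⟩ := small_at_finset hn hf C (F.image (z : H →L[ℂ] H)) (div_pos hδ hD0)
  refine ⟨η, hη, fun x hx hxs => ?_⟩
  refine le_of_pow_le_pow_left₀ two_ne_zero hε.le ?_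
  rw [n2_sq_eq]
  have hxz : ‖x * z‖ ≤ D := (norm_mul_le _ _).trans
    (mul_le_mul (hx.trans ((le_abs_self C).trans (by linarith))) (by linarith)
      (norm_nonneg _) (by positivity))
  refine (Complex.re_le_norm _).trans (hF _ ?_ fun v hv => ?_)
  · rw [CStarRing.norm_star_mul_self, ← pow_two]
    exact pow_le_pow_left₀ (norm_nonneg _) hxz 2
  · have h1 := hs x hx hxs _ (Finset.mem_image_of_mem _ hv)
    have h2 : ‖((star (x * z) : M.toStarSubalgebra) : H →L[ℂ] H)‖ ≤ D :=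
      (norm_star (x * z)).trans_le hxz
    show ‖((star (x * z) : M.toStarSubalgebra) : H →L[ℂ] H)
      ((x : H →L[ℂ] H) ((z : H →L[ℂ] H) v))‖ ≤ δ
    refine ((ContinuousLinearMap.le_opNorm _ _).trans
      (mul_le_mul h2 h1 (norm_nonneg _) hD0.le)).trans_eq ?_
    field_simp

/-- The `SMasa` of a faithful central normal state. -/
noncomputable def ofState (hA : IsMASA M A) (φ : M.toStarSubalgebra →ₚ[ℂ] ℂ) (h1 : φ 1 = 1)
    (hn : IsNormalFun φ) (hf : ∀ x, φ (star x * x) = 0 → x = 0)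
    (hc : ∀ a x : M.toStarSubalgebra, (a : H →L[ℂ] H) ∈ A → φ (a * x) = φ (x * a)) :
    SMasa M.toStarSubalgebra where
  φ := φ
  φ_one := h1
  φ_faithful := hf
  complete := complete_of_normal hn hf
  right_cont := right_cont_of_normal hn hf
  A := A.comap M.toStarSubalgebra.subtype
  A_comm a ha b hb := Subtype.ext (hA.2.1 _ ha _ hb)
  A_max y hy := hA.2.2 _ y.2 fun a ha =>
    congrArg Subtype.val (hy ⟨a, hA.1 a ha⟩ ha)
  φ_central a ha x := hc a x ha

/-- Singular MASAs stay singular inside the algebra. -/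
lemma singular_ofState (hA : IsMASA M A) (hS : IsSingular M A) (φ : M.toStarSubalgebra →ₚ[ℂ] ℂ) (h1 : φ 1 = 1)
    (hn : IsNormalFun φ) (hf : ∀ x, φ (star x * x) = 0 → x = 0)
    (hc : ∀ a x : M.toStarSubalgebra, (a : H →L[ℂ] H) ∈ A → φ (a * x) = φ (x * a)) :
    (ofState hA φ h1 hn hf hc).Singular := fun u hu hnorm => by
  obtain ⟨hu1, hu2⟩ := Unitary.mem_iff.1 hu
  exact hS (u : H →L[ℂ] H) u.2 (congrArg Subtype.val hu1) (congrArg Subtype.val hu2)
    fun a ha => hnorm ⟨a, hA.1 a ha⟩ ha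

/-- A singular MASA with a faithful central normal functional gives an `SMasa` in which small
2-norm implies smallness at any finite set of vectors. -/
theorem exists_smasa [Nontrivial H] (hA : IsMASA M A) (hS : IsSingular M A)
    (hc : HasFaithfulCentralNormal M A) :
    ∃ T : SMasa M.toStarSubalgebra, T.Singular ∧
      (∀ a : M.toStarSubalgebra, a ∈ T.A ↔ (a : H →L[ℂ] H) ∈ A) ∧
      (∀ (C : ℝ) (F : Finset H) (δ : ℝ), 0 < δ → ∃ η : ℝ, 0 < η ∧ ∀ x : M.toStarSubalgebra,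
        ‖x‖ ≤ C → T.n2 x ≤ η → ∀ v ∈ F, ‖(x : H →L[ℂ] H) v‖ ≤ δ) := by
  obtain ⟨ψ, ⟨hpos, hn, hcen⟩, hf⟩ := hc
  let φ0 : M.toStarSubalgebra →ₚ[ℂ] ℂ := PositiveLinearMap.mk₀ ψ fun z hz => by
    obtain ⟨s, rfl⟩ := CStarAlgebra.nonneg_iff_eq_star_mul_self.1 hz
    exact hpos s
  obtain ⟨hr0, hi⟩ := Complex.nonneg_iff.1 (φ0.map_nonneg zero_le_one)
  set t : ℝ := (φ0 1).re
  have ht : ψ 1 = (t : ℂ) := Complex.ext (Complex.ofReal_re t).symm (hi.symm.trans (Complex.ofReal_im t).symm)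
  have hne : (1 : M.toStarSubalgebra) ≠ 0 := fun h => one_ne_zero (α := H →L[ℂ] H)
    (congrArg Subtype.val h)
  have ht0 : 0 < t := hr0.lt_of_ne fun h => hne (hf 1 (by
    rw [star_one, one_mul, ht, ← h, Complex.ofReal_zero]))
  have hinv : (0 : ℂ) ≤ ((t⁻¹ : ℝ) : ℂ) := Complex.zero_le_real.2 (inv_nonneg.2 ht0.le)
  let φ : M.toStarSubalgebra →ₚ[ℂ] ℂ := PositiveLinearMap.mk₀ (((t⁻¹ : ℝ) : ℂ) • ψ)
    fun z hz => by
      obtain ⟨s, rfl⟩ := CStarAlgebra.nonneg_iff_eq_star_mul_self.1 hz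
      exact mul_nonneg hinv (hpos s)
  have hφ : ∀ x, φ x = ((t⁻¹ : ℝ) : ℂ) * ψ x := fun x => rfl
  have h1 : φ 1 = 1 := by
    rw [hφ, ht, ← Complex.ofReal_mul, inv_mul_cancel₀ ht0.ne', Complex.ofReal_one]
  have hnφ : IsNormalFun φ := fun ε hε => by
    obtain ⟨F, δ, hδ, h⟩ := hn (ε * t) (mul_pos hε ht0)
    refine ⟨F, δ, hδ, fun x hx hs => ?_⟩
    rw [hφ, norm_mul, Complex.norm_real, Real.norm_of_nonneg (inv_nonneg.2 ht0.le),
      inv_mul_le_iff₀ ht0, mul_comm t]
    exact h x hx hs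
  have hfφ : ∀ x, φ (star x * x) = 0 → x = 0 := fun x hx => hf x (by
    rw [hφ] at hx
    exact (mul_eq_zero.1 hx).resolve_left (Complex.ofReal_ne_zero.2 (inv_ne_zero ht0.ne')))
  have hcφ : ∀ a x : M.toStarSubalgebra, (a : H →L[ℂ] H) ∈ A → φ (a * x) = φ (x * a) :=
    fun a x ha => by rw [hφ, hφ, hcen a x ha]
  exact ⟨ofState hA φ h1 hnφ hfφ hcφ, singular_ofState hA hS φ h1 hnφ hfφ hcφ,
    fun a => Iff.rfl, fun C F δ hδ => small_at_finset hnφ hfφ C F hδ⟩

/-- Corners of singular MASAs at their projections are singular. -/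
theorem isSingular_corner (hA : IsMASA M A) (hS : IsSingular M A) (U : Submodule ℂ H)
    [CompleteSpace U] (hU : U.starProjection ∈ A) :
    IsSingular (Corner.cornerAlg U M) (Corner.cornerMASA U A hU) := by
  have hUM := hA.1 _ hU
  have hP := (isStarProjection_starProjection (U := U))
  intro u huM hu1 hu2 hnorm
  set f := U.starProjection
  set w : H →L[ℂ] H := Corner.up U u
  have hwf : w * f = w := Corner.up_mul_proj U u
  have hfw : f * w = w := Corner.proj_mul_up U u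
  have hswf : star w * f = star w := by rw [← Corner.up_star]; exact Corner.up_mul_proj U _
  have hfsw : f * star w = star w := by rw [← Corner.up_star]; exact Corner.proj_mul_up U _
  have hws : w * star w = f := by
    rw [← Corner.up_star, ← Corner.up_mul, hu2, Corner.up_one]
  have hsw : star w * w = f := by
    rw [← Corner.up_star, ← Corner.up_mul, hu1, Corner.up_one]
  set g : H →L[ℂ] H := 1 - f with hg
  have hgs : star g = g := hP.one_sub.isSelfAdjoint.star_eq
  have hgg : g * g = g := hP.one_sub.isIdempotentElem.eq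
  have hfg : f + g = 1 := by rw [hg]; abel
  have hwg : w * g = 0 := by rw [hg, mul_sub, mul_one, hwf, sub_self]
  have hgw : g * w = 0 := by rw [hg, sub_mul, one_mul, hfw, sub_self]
  have hswg : star w * g = 0 := by rw [hg, mul_sub, mul_one, hswf, sub_self]
  have hgsw : g * star w = 0 := by rw [hg, sub_mul, one_mul, hfsw, sub_self]
  have hgA : g ∈ A := sub_mem (one_mem A) hU
  have hga : ∀ a ∈ A, f * a * g = 0 ∧ g * a * f = 0 := fun a ha => by
    constructor
    · rw [mul_assoc, hA.2.1 a ha g hgA, ← mul_assoc, hP.mul_one_sub_self, zero_mul]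
    · rw [mul_assoc, hA.2.1 a ha f hU, ← mul_assoc, hP.one_sub_mul_self, zero_mul]
  set v : H →L[ℂ] H := w + g with hv
  have hvs : star v = star w + g := by rw [hv, star_add, hgs]
  have hvu : star v * v = 1 ∧ v * star v = 1 :=
    ⟨by rw [hvs, hv]; simp only [add_mul, mul_add, hsw, hswg, hgw, hgg, add_zero, zero_add, hfg],
      by rw [hvs, hv]; simp only [add_mul, mul_add, hws, hwg, hgsw, hgg, add_zero, zero_add, hfg]⟩
  have hvM : v ∈ M := add_mem ((Corner.mem_cornerAlg U hUM).1 huM) (hA.1 _ hgA)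
  have key : ∀ (S T : U →L[ℂ] U), ∀ a ∈ A,
      (Corner.up U S + g) * a * (Corner.up U T + g)
        = Corner.up U (S * Corner.down U a * T) + g * a * g := fun S T a ha => by
    have e1 : Corner.up U S * a * g = 0 := by
      rw [← Corner.up_mul_proj U S, mul_assoc, mul_assoc, ← mul_assoc f a g, (hga a ha).1,
        mul_zero]
    have e2 : g * a * Corner.up U T = 0 := by
      rw [← Corner.proj_mul_up U T, ← mul_assoc, (hga a ha).2, zero_mul]
    have e3 : Corner.up U S * a * Corner.up U T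
        = Corner.up U (S * Corner.down U a * T) := by
      rw [Corner.up_mul, Corner.up_mul, Corner.up_down]
      conv_lhs => rw [← Corner.up_mul_proj U S, ← Corner.proj_mul_up U T]
      simp only [mul_assoc]
    simp only [add_mul, mul_add, e1, e2, e3, add_zero, zero_add]
  have hvA : v ∈ A := hS v hvM hvu.1 hvu.2 fun a ha => by
    have hd : Corner.down U a ∈ Corner.cornerMASA U A hU := by
      rw [Corner.mem_cornerMASA, Corner.up_down]
      exact mul_mem (mul_mem hU ha) hU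
    rw [hvs, hv, show star w = Corner.up U (star u) from (Corner.up_star U u).symm, key _ _ a ha,
      key _ _ a ha]
    exact ⟨add_mem (hnorm _ hd).1 (mul_mem (mul_mem hgA ha) hgA),
      add_mem (hnorm _ hd).2 (mul_mem (mul_mem hgA ha) hgA)⟩
  rw [Corner.mem_cornerMASA]
  have : v * f = w := by rw [hv, add_mul, hwf, hg, hP.one_sub_mul_self, add_zero]
  show w ∈ A
  rw [← this]
  exact mul_mem hvA hU

end Vale.Agent.P078.Sing
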