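import Mathlib
import Vale.Agent.P078.Sing.Singular

/-!
# Interface between the walk in a state space and the von Neumann algebra statement
-/

open scoped ComplexOrder

namespace Vale.Agent.P078.Sing

universe u

/-- Paving over a singular MASA in the language of states: with at most `r + 1` cells, `r ≥ 60/e²`,
the pinching of a contraction orthogonal to the MASA has norm at most `4 e` on a large corner. -/
def WalkPaving : Prop :=
  ∀ (M : Type u) [CStarAlgebra M] [PartialOrder M] [StarOrderedRing M] (T : SMasa M),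
    T.Singular → ∀ x : M, IsSelfAdjoint x → ‖x‖ ≤ 1 → T.E x = 0 →
      ∀ e : ℝ, 0 < e → e ≤ 1 → ∀ r : ℕ, 60 / e ^ 2 ≤ (r : ℝ) → ∀ δ : ℝ, 0 < δ →
        ∃ (P : T.Part) (q : M), P.n ≤ r + 1 ∧ IsStarProjection q ∧ T.tr (1 - q) ≤ δ ∧
          ‖q * SMasa.pinch P x * q‖ ≤ 4 * e

end Vale.Agent.P078.Sing
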