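import Mathlib
import Vale.Agent.P078.Gen.Split
import Vale.Agent.P078.Sing.Bridge
import Vale.Agent.P078.Sing.WalkSpec

/-!
# So-paving over singular MASAs in arbitrary von Neumann algebras, from the walk
-/

open scoped InnerProductSpace ComplexOrder

namespace Vale.Agent.P078.Sing

universe u

attribute [-instance] Subtype.instLE Subtype.preorder Subtype.partialOrder

variable {H : Type u} [NormedAddCommGroup H] [InnerProductSpace ℂ H] [CompleteSpace H]
variable {M : VonNeumannAlgebra H} {A : StarSubalgebra ℂ (H →L[ℂ] H)}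

/-- A singular MASA with a faithful central normal functional is `(ε, r + 1)` so-pavable as soon as
`3840 / ε ^ 2 ≤ r`. -/
theorem paving_faithful (hW : WalkPaving.{u}) (hA : IsMASA M A) (hS : IsSingular M A)
    (hc : HasFaithfulCentralNormal M A) {ε : ℝ} (hε : 0 < ε) (hε1 : ε ≤ 1) {r : ℕ}
    (hr : 3840 / ε ^ 2 ≤ (r : ℝ)) {x : H →L[ℂ] H} (hxM : x ∈ M) (hxs : IsSelfAdjoint x) :
    SOPavable M A x ε (r + 1) := by
  intro F δ hδ
  rcases subsingleton_or_nontrivial H with hH | hH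
  · have h0 : ∀ a b : H →L[ℂ] H, a = b := fun a b =>
      ContinuousLinearMap.ext fun v => Subsingleton.elim _ _
    have hS' : Subsingleton (H →L[ℂ] H) := ⟨h0⟩
    refine ⟨fun _ => 0, 0, 0, ⟨fun _ => zero_mem A, fun _ => IsStarProjection.zero _,
      fun _ _ _ => mul_zero _, h0 _ _⟩, zero_mem A, IsSelfAdjoint.zero _, by simp, zero_mem M,
      IsStarProjection.zero _, fun ξ _ => ?_, ?_⟩
    · rw [Subsingleton.elim ξ 0, map_zero, norm_zero]
      exact hδ
    · rw [mul_zero, norm_zero]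
      positivity
  obtain ⟨T, hTS, hTA, hsmall⟩ := exists_smasa hA hS hc
  obtain ⟨η, hη, hs⟩ := hsmall 1 F (δ / 2) (half_pos hδ)
  set X : M.toStarSubalgebra := ⟨x, hxM⟩
  have hXs : IsSelfAdjoint X := Subtype.ext hxs
  set c : ℝ := (2 * ‖x‖)⁻¹
  set x' : M.toStarSubalgebra := (c : ℂ) • (X - T.E X) with hx'
  have hEs : IsSelfAdjoint (T.E X) := T.E_isSelfAdjoint hXs
  have hx's : IsSelfAdjoint x' := by
    rw [hx', IsSelfAdjoint, star_smul, (hXs.sub hEs).star_eq]
    simp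
  have hx'n : ‖x'‖ ≤ 1 := by
    rw [hx', norm_smul, Complex.norm_real, Real.norm_of_nonneg (by positivity)]
    rcases (norm_nonneg x).eq_or_lt with h | h
    · simp [c, ← h]
    · rw [inv_mul_le_iff₀ (by positivity), mul_one]
      have := T.norm_E_le X
      have h2 : ‖X‖ = ‖x‖ := rfl
      linarith [norm_sub_le X (T.E X)]
  have hx'E : T.E x' = 0 := by
    rw [hx', T.E_smul, T.E_sub, T.E_of_mem (T.E_mem X), sub_self, smul_zero]
  obtain ⟨P, q, hPn, hq, hqt, hqn⟩ := hW _ T hTS x' hx's hx'n hx'E (ε / 8) (by linarith)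
    (by linarith) r (le_trans (le_of_eq (by field_simp; norm_num)) hr) (η ^ 2) (by positivity)
  let p : Fin (r + 1) → H →L[ℂ] H := fun i =>
    if h : (i : ℕ) < P.n then (P.e ⟨i, h⟩ : H →L[ℂ] H) else 0
  have hp0 : ∀ i : Fin P.n, p (Fin.castLE hPn i) = (P.e i : H →L[ℂ] H) := fun i => by
    simp [p]
  have hsum : ∀ f : (H →L[ℂ] H) → (H →L[ℂ] H), f 0 = 0 →
      ∑ i, f (p i) = ∑ i, f (P.e i : H →L[ℂ] H) := fun f hf => by
    rw [← Finset.sum_subset (Finset.subset_univ (Finset.univ.map (Fin.castLEEmb hPn)))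
      (fun i _ hi => by
        have : ¬ (i : ℕ) < P.n := fun h => hi (Finset.mem_map.2 ⟨⟨i, h⟩, Finset.mem_univ _,
          Fin.ext rfl⟩)
        simp [p, this, hf]), Finset.sum_map]
    exact Finset.sum_congr rfl fun i _ => by rw [← hp0 i]; rfl
  refine ⟨p, (T.E X : H →L[ℂ] H), (q : H →L[ℂ] H), ⟨fun i => ?_, fun i => ?_, fun i j hij => ?_, ?_⟩,
    (hTA _).1 (T.E_mem X), congrArg Subtype.val hEs.star_eq, T.norm_E_le X, q.2,
    ⟨congrArg Subtype.val hq.isIdempotentElem.eq, congrArg Subtype.val hq.isSelfAdjoint.star_eq⟩,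
    fun ξ hξ => ?_, ?_⟩
  · simp only [p]
    split_ifs with h
    exacts [(hTA _).1 (P.mem _), zero_mem A]
  · simp only [p]
    split_ifs with h
    exacts [⟨congrArg Subtype.val (P.proj ⟨i, h⟩).isIdempotentElem.eq,
      congrArg Subtype.val (P.proj ⟨i, h⟩).isSelfAdjoint.star_eq⟩, IsStarProjection.zero _]
  · simp only [p]
    split_ifs with h h'
    · exact congrArg Subtype.val (P.orth ⟨i, h⟩ ⟨j, h'⟩ fun e => hij (Fin.ext (by simpa using e)))
    all_goals simp
  · rw [hsum (fun y => y) rfl]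
    simpa using congrArg Subtype.val P.sum_one
  · have hn : T.n2 (1 - q) ≤ η := by
      refine le_of_pow_le_pow_left₀ two_ne_zero hη.le ?_
      rw [T.n2_sq_proj hq.one_sub]
      exact hqt
    exact (hs (1 - q) hq.one_sub.norm_le hn ξ hξ).trans_lt (half_lt_self hδ)
  · have e1 : ∑ i, p i * x * p i = ((SMasa.pinch P X : M.toStarSubalgebra) : H →L[ℂ] H) := by
      rw [hsum (fun y => y * x * y) (by simp)]
      simp [SMasa.pinch, X]
    have e2 : SMasa.pinch P X - T.E X = ((2 * ‖x‖ : ℝ) : ℂ) • SMasa.pinch P x' := by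
      rw [hx', SMasa.pinch_smul, smul_smul, ← Complex.ofReal_mul]
      rcases (norm_nonneg x).eq_or_lt with h | h
      · have hX0 : X = 0 := norm_eq_zero.1 (show ‖X‖ = 0 from h.symm)
        simp [hX0, T.E_zero, SMasa.pinch, ← h]
      · rw [mul_inv_cancel₀ (by positivity : (2 * ‖x‖) ≠ 0), Complex.ofReal_one, one_smul,
          sub_eq_add_neg X, SMasa.pinch_add, ← neg_one_smul ℂ (T.E X), SMasa.pinch_smul,
          SMasa.pinch_eq_self P (T.E_mem X), neg_one_smul, ← sub_eq_add_neg]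
    rw [e1]
    show ‖q * (SMasa.pinch P X - T.E X) * q‖ ≤ ε * ‖x‖
    rw [e2, mul_smul_comm, smul_mul_assoc, norm_smul, Complex.norm_real,
      Real.norm_of_nonneg (by positivity)]
    calc 2 * ‖x‖ * ‖q * SMasa.pinch P x' * q‖ ≤ 2 * ‖x‖ * (4 * (ε / 8)) :=
          mul_le_mul_of_nonneg_left hqn (by positivity)
      _ = ε * ‖x‖ := by ring

/-- Every singular MASA of every von Neumann algebra has so-paving with `O(ε⁻²)` pieces. -/
theorem singular_paving (hW : WalkPaving.{u}) :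
    ∃ C : ℝ, ∀ ε : ℝ, 0 < ε → ε ≤ 1 → ∃ r : ℕ, (r : ℝ) ≤ C / ε ^ 2 ∧
      ∀ (H : Type u) [NormedAddCommGroup H] [InnerProductSpace ℂ H] [CompleteSpace H]
        (M : VonNeumannAlgebra H) (A : StarSubalgebra ℂ (H →L[ℂ] H)),
        IsMASA M A → IsSingular M A → SOPavableAll M A ε r := by
  refine ⟨3845, fun ε hε hε1 => ⟨(⌈3840 / ε ^ 2⌉₊ + 1) + ⌈2 / ε⌉₊, ?_, ?_⟩⟩
  · have h2 : 0 < ε ^ 2 := by positivity
    have a1 := (Nat.ceil_lt_add_one (show 0 ≤ 3840 / ε ^ 2 by positivity)).le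
    have a2 := (Nat.ceil_lt_add_one (show 0 ≤ 2 / ε by positivity)).le
    have a3 : 2 / ε ≤ 2 / ε ^ 2 :=
      div_le_div_of_nonneg_left (by norm_num) h2 (by nlinarith)
    have a4 : 1 ≤ 1 / ε ^ 2 := by
      rw [le_div_iff₀ h2, one_mul]
      exact pow_le_one₀ hε.le hε1
    have a5 : (3845 : ℝ) / ε ^ 2 = 3840 / ε ^ 2 + 2 / ε ^ 2 + 3 * (1 / ε ^ 2) := by ring
    push_cast
    linarith
  · intro H _ _ _ M A hA hS x hx hxs
    refine Gen.paving_of_corner_case hε (Nat.succ_pos _) ?_ (fun U _ hU hf y hy hys => ?_) hA hx hxs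
    · have h := Nat.le_ceil (2 / ε)
      rw [div_le_iff₀ hε] at h
      linarith
    · exact paving_faithful hW (Corner.isMASA_corner U hA hU) (isSingular_corner hA hS U hU) hf hε
        hε1 (Nat.le_ceil _) hy hys

end Vale.Agent.P078.Sing
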