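import Mathlib

/-!
# Scalar expansions for the walk over a singular MASA

The second order expansion of the cavity value is uniform in the curvature `κ ∈ [0, B]`.
-/

namespace Vale.Agent.P078.Sing

/-- cavity value -/
noncomputable def scav (t F : ℝ) : ℝ := t / (1 + F * t)

/-- The exact remainder of the second-order expansion of the cavity value. -/
def rem (B κ s t F y t1 t2 v : ℝ) : ℝ :=
  let R1 := F * B + y * t2 - κ * y ^ 2 * t1 - B * t + s * (y * B - κ * y ^ 2 * t2 - B * t1)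
    + s ^ 2 * (-(κ * y ^ 2 * B) - B * t2) + s ^ 3 * (-(B * B))
  let D1 := F * t1 + y * t
  let D2 := F * t2 + y * t1 - κ * y ^ 2 * t
  let a1 := (t1 - t ^ 2 * y) * v ^ 2
  let b2 := (t2 + κ * t ^ 2 * y ^ 2 - t ^ 3 * y ^ 2 - 2 * t * y * (t1 - t ^ 2 * y)) * v ^ 2
    - F * (t1 - t ^ 2 * y) ^ 2 * v ^ 3
  B - t * v * R1 - a1 * D2 - b2 * D1 - s * (a1 * R1 + b2 * D2) - s ^ 2 * b2 * R1

lemma rem_eq (B κ s t F y t1 t2 v : ℝ) (hv : (1 + F * t) * v = 1) :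
    (t + s * t1 + s ^ 2 * t2 + B * s ^ 3) - (t * v + s * ((t1 - t ^ 2 * y) * v ^ 2)
      + s ^ 2 * ((t2 + κ * t ^ 2 * y ^ 2 - t ^ 3 * y ^ 2 - 2 * t * y * (t1 - t ^ 2 * y)) * v ^ 2
        - F * (t1 - t ^ 2 * y) ^ 2 * v ^ 3)) *
      (1 + (F + s * y - κ * s ^ 2 * y ^ 2 - B * s ^ 3) *
        (t + s * t1 + s ^ 2 * t2 + B * s ^ 3)) = s ^ 3 * rem B κ s t F y t1 t2 v := by
  simp only [rem]
  linear_combination (-t - s * (t1 + (t1 - t ^ 2 * y) * v) - s ^ 2 * (t2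
    + (t2 + κ * t ^ 2 * y ^ 2 - t ^ 3 * y ^ 2 - 2 * t * y * (t1 - t ^ 2 * y)) * v
    - F * (t1 - t ^ 2 * y) ^ 2 * v ^ 2 + (t1 - t ^ 2 * y) * t * y * v)) * hv

/-- The second-order coefficient of the cavity value. -/
noncomputable def scavD2 (κ t F y t1 t2 : ℝ) : ℝ :=
  (t2 + κ * t ^ 2 * y ^ 2 - t ^ 3 * y ^ 2 - 2 * t * y * (t1 - t ^ 2 * y)) / (1 + F * t) ^ 2

/-- The increment of the denominator, divided by the step. -/
def denInc (B κ s t F y t1 t2 : ℝ) : ℝ :=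
  (y - κ * s * y ^ 2 - B * s ^ 2) * (t + s * t1 + s ^ 2 * t2 + B * s ^ 3)
    + F * (t1 + s * t2 + B * s ^ 2)

/-- The parameter box. -/
def box (B : ℝ) : Set (ℝ × ℝ × ℝ × ℝ × ℝ × ℝ × ℝ) :=
  Set.Icc 0 B ×ˢ Set.Icc 0 1 ×ˢ Set.Icc 0 B ×ˢ Set.Icc 0 B ×ˢ Set.Icc (-B) B ×ˢ Set.Icc (-B) B ×ˢ Set.Icc (-B) B

lemma isCompact_box (B : ℝ) : IsCompact (box B) :=
  isCompact_Icc.prod (isCompact_Icc.prod (isCompact_Icc.prod (isCompact_Icc.prod
    (isCompact_Icc.prod (isCompact_Icc.prod isCompact_Icc)))))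

lemma exists_bound_box (B : ℝ) (f : ℝ → ℝ → ℝ → ℝ → ℝ → ℝ → ℝ → ℝ → ℝ)
    (hf : Continuous fun p : (ℝ × ℝ × ℝ × ℝ × ℝ × ℝ × ℝ) × ℝ =>
      f p.1.1 p.1.2.1 p.1.2.2.1 p.1.2.2.2.1 p.1.2.2.2.2.1 p.1.2.2.2.2.2.1 p.1.2.2.2.2.2.2 p.2) :
    ∃ C, ∀ κ s t F y t1 t2 : ℝ, 0 ≤ κ → κ ≤ B → 0 ≤ s → s ≤ 1 → 0 ≤ t → t ≤ B → 0 ≤ F → F ≤ B →
      |y| ≤ B → |t1| ≤ B → |t2| ≤ B → |f κ s t F y t1 t2 (1 + F * t)⁻¹| ≤ C := by
  have hq : ∀ p ∈ box B, 1 + p.2.2.2.1 * p.2.2.1 ≠ 0 := by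
    rintro ⟨κ, s, t, F, y, t1, t2⟩ ⟨_, _, ht, hF, _⟩
    have := mul_nonneg hF.1 ht.1
    exact (show 0 < 1 + F * t by linarith).ne'
  have hi : ContinuousOn
      (fun p : ℝ × ℝ × ℝ × ℝ × ℝ × ℝ × ℝ => (1 + p.2.2.2.1 * p.2.2.1)⁻¹) (box B) :=
    (show Continuous fun p : ℝ × ℝ × ℝ × ℝ × ℝ × ℝ × ℝ => 1 + p.2.2.2.1 * p.2.2.1 by
      fun_prop).continuousOn.inv₀ hq
  obtain ⟨C, hC⟩ := (isCompact_box B).exists_bound_of_continuousOn
    (hf.comp_continuousOn (continuousOn_id.prodMk hi))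
  exact ⟨C, fun κ s t F y t1 t2 hκ hκB hs hs1 ht htB hF hFB hy ht1 ht2 =>
    hC (κ, s, t, F, y, t1, t2) ⟨⟨hκ, hκB⟩, ⟨hs, hs1⟩, ⟨ht, htB⟩, ⟨hF, hFB⟩, abs_le.1 hy,
      abs_le.1 ht1, abs_le.1 ht2⟩⟩

/-- Second-order upper expansion of the cavity value. -/
lemma scav_step {B : ℝ} :
    ∃ C s0 : ℝ, 0 ≤ C ∧ 0 < s0 ∧ ∀ κ s t F y t1 t2 tn Fn : ℝ,
      0 ≤ κ → κ ≤ B → 0 ≤ s → s ≤ s0 →
      0 ≤ t → t ≤ B → 0 ≤ F → F ≤ B → |y| ≤ B → |t1| ≤ B → |t2| ≤ B →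
      0 ≤ tn → tn ≤ t + s * t1 + s ^ 2 * t2 + B * s ^ 3 →
      0 ≤ Fn → F + s * y - κ * s ^ 2 * y ^ 2 - B * s ^ 3 ≤ Fn →
      |scavD2 κ t F y t1 t2| ≤ C ∧
      scav tn Fn ≤ scav t F + s * ((t1 - t ^ 2 * y) / (1 + F * t) ^ 2) +
        s ^ 2 * scavD2 κ t F y t1 t2 + C * s ^ 3 := by
  obtain ⟨C1, hC1⟩ := exists_bound_box B
    (fun κ s t F y t1 t2 _ => denInc B κ s t F y t1 t2) (by simp only [denInc]; fun_prop)
  obtain ⟨C2, hC2'⟩ := exists_bound_box B (fun κ _ t _ y t1 t2 v =>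
    (t2 + κ * t ^ 2 * y ^ 2 - t ^ 3 * y ^ 2 - 2 * t * y * (t1 - t ^ 2 * y)) * v ^ 2) (by fun_prop)
  have hC2 : ∀ κ s t F y t1 t2 : ℝ, 0 ≤ κ → κ ≤ B → 0 ≤ s → s ≤ 1 → 0 ≤ t → t ≤ B → 0 ≤ F →
      F ≤ B → |y| ≤ B → |t1| ≤ B → |t2| ≤ B → |scavD2 κ t F y t1 t2| ≤ C2 := by
    intro κ s t F y t1 t2 a1 a2 a3 a4 a5 a6 a7 a8 a9 a10 a11
    rw [scavD2, div_eq_mul_inv, ← inv_pow]
    exact hC2' κ s t F y t1 t2 a1 a2 a3 a4 a5 a6 a7 a8 a9 a10 a11
  obtain ⟨C3, hC3⟩ := exists_bound_box B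
    (fun κ s t F y t1 t2 v => rem B κ s t F y t1 t2 v) (by simp only [rem]; fun_prop)
  refine ⟨max C2 (2 * max C3 0), min 1 (1 / (2 * (|C1| + 1))),
    le_trans (by positivity) (le_max_right _ _), by positivity, ?_⟩
  intro κ s t F y t1 t2 tn Fn hκ hκB hs hs0 ht htB hF hFB hy ht1 ht2 htn htn' hFn hFn'
  have hs1 : s ≤ 1 := hs0.trans (min_le_left _ _)
  have hs2 : s * (|C1| + 1) ≤ 1 / 2 := by
    have h := hs0.trans (min_le_right _ _)
    rw [le_div_iff₀ (by positivity)] at h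
    linarith
  refine ⟨(hC2 κ s t F y t1 t2 hκ hκB hs hs1 ht htB hF hFB hy ht1 ht2).trans (le_max_left _ _), ?_⟩
  have hFt : 0 ≤ F * t := mul_nonneg hF ht
  set T' := t + s * t1 + s ^ 2 * t2 + B * s ^ 3 with hT'
  set G := F + s * y - κ * s ^ 2 * y ^ 2 - B * s ^ 3 with hG
  have hD : 1 / 2 ≤ 1 + G * T' := by
    have he : G * T' - F * t = s * denInc B κ s t F y t1 t2 := by
      simp only [denInc, hG, hT']; ring
    have h := hC1 κ s t F y t1 t2 hκ hκB hs hs1 ht htB hF hFB hy ht1 ht2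
    have h' : |s * denInc B κ s t F y t1 t2| ≤ 1 / 2 := by
      rw [abs_mul, abs_of_nonneg hs]
      exact (mul_le_mul_of_nonneg_left (h.trans ((le_abs_self C1).trans (by linarith))) hs).trans
        hs2
    linarith [(abs_le.1 h').1]
  have hT0 : 0 ≤ T' := htn.trans htn'
  have hmono : scav tn Fn ≤ T' / (1 + G * T') := by
    calc scav tn Fn ≤ T' / (1 + Fn * T') := by
          unfold scav
          rw [div_le_div_iff₀ (by positivity) (by positivity)]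
          nlinarith [mul_nonneg hFn htn, mul_nonneg hFn hT0]
      _ ≤ T' / (1 + G * T') := by
          gcongr
  refine hmono.trans ?_
  set xi := t1 - t ^ 2 * y with hxi
  set a1 := xi / (1 + F * t) ^ 2 with ha1
  set e2 := F * xi ^ 2 / (1 + F * t) ^ 3 with he2
  have he20 : 0 ≤ e2 := by positivity
  have hR := hC3 κ s t F y t1 t2 hκ hκB hs hs1 ht htB hF hFB hy ht1 ht2
  have key : T' - (scav t F + s * a1 + s ^ 2 * (scavD2 κ t F y t1 t2 - e2)) * (1 + G * T')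
      = s ^ 3 * rem B κ s t F y t1 t2 (1 + F * t)⁻¹ := by
    have hne : (1 + F * t) ≠ 0 := by positivity
    simp only [scavD2, hT', hG, ha1, he2, hxi, scav, div_eq_mul_inv, ← inv_pow]
    exact rem_eq B κ s t F y t1 t2 _ (mul_inv_cancel₀ hne)
  have h1 : s ^ 3 * rem B κ s t F y t1 t2 (1 + F * t)⁻¹ ≤ max C2 (2 * max C3 0) * s ^ 3 * (1 + G * T') := by
    have hs3 : 0 ≤ s ^ 3 := pow_nonneg hs 3
    calc s ^ 3 * rem B κ s t F y t1 t2 (1 + F * t)⁻¹ ≤ s ^ 3 * max C3 0 :=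
          mul_le_mul_of_nonneg_left ((le_abs_self _).trans (hR.trans (le_max_left _ _))) hs3
      _ = 2 * max C3 0 * s ^ 3 * (1 / 2) := by ring
      _ ≤ max C2 (2 * max C3 0) * s ^ 3 * (1 + G * T') := by
          gcongr
          exact le_max_right _ _
  rw [div_le_iff₀ (by linarith)]
  have h2 : 0 ≤ s ^ 2 * e2 * (1 + G * T') := by positivity
  show T' ≤ (scav t F + s * a1 + s ^ 2 * scavD2 κ t F y t1 t2 + _ * s ^ 3) * (1 + G * T')
  linear_combination key + h1 + h2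

lemma pen_step {B C s u u' l1 l2 : ℝ} (hB : 0 ≤ B) (hC : 0 ≤ C) (hs : 0 ≤ s) (hs1 : s ≤ 1)
    (h1 : |l1| ≤ B) (h2 : |l2| ≤ B) (hu : max u 0 ≤ B)
    (h : u' ≤ u + (s * l1 + s ^ 2 * l2 + C * s ^ 3)) :
    max u' 0 * max u' 0 ≤ max u 0 * max u 0 + s * (2 * max u 0 * l1) +
      s ^ 2 * (2 * max u 0 * l2 + l1 * l1) + (2 * B * C + 3 * (B + C) ^ 2) * s ^ 3 := by
  set D := s * l1 + s ^ 2 * l2 + C * s ^ 3 with hD
  have hstep : max u' 0 * max u' 0 ≤ max u 0 * max u 0 + 2 * max u 0 * D + D * D := by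
    have ha : max u' 0 ≤ max (u + D) 0 := max_le_max h le_rfl
    refine (mul_le_mul ha ha (le_max_right _ _) (le_max_right _ _)).trans ?_
    rcases le_total (u + D) 0 with h0 | h0
    · rw [max_eq_right h0]
      nlinarith [sq_nonneg (max u 0 + D)]
    · rw [max_eq_left h0]
      rcases le_total u 0 with hu0 | hu0
      · rw [max_eq_right hu0]; nlinarith
      · rw [max_eq_left hu0]; linarith
  obtain ⟨a1, a2⟩ := abs_le.1 h1
  obtain ⟨b1, b2⟩ := abs_le.1 h2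
  set R := l2 + C * s with hR
  have hRb : |R| ≤ B + C := by
    rw [abs_le]
    constructor <;> nlinarith [mul_le_mul_of_nonneg_left hs1 hC, mul_nonneg hC hs]
  have hDD : D * D = s ^ 2 * (l1 * l1) + 2 * s ^ 3 * (l1 * R) + s ^ 4 * (R * R) := by
    rw [hD, hR]; ring
  have e1 : l1 * R ≤ (B + C) ^ 2 := by
    refine (le_abs_self _).trans ?_
    rw [abs_mul, sq]
    exact mul_le_mul (by linarith) hRb (abs_nonneg _) (by linarith)
  have e2 : R * R ≤ (B + C) ^ 2 := by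
    refine (le_abs_self _).trans ?_
    rw [abs_mul, sq]
    exact mul_le_mul hRb hRb (abs_nonneg _) (by linarith)
  have e3 : 2 * max u 0 * (C * s ^ 3) ≤ 2 * B * C * s ^ 3 := by
    have := mul_le_mul_of_nonneg_right hu (mul_nonneg hC (pow_nonneg hs 3))
    linarith
  have e4 : s ^ 4 * (R * R) ≤ s ^ 3 * (B + C) ^ 2 :=
    mul_le_mul (pow_le_pow_of_le_one hs hs1 (by norm_num)) e2 (mul_self_nonneg R) (pow_nonneg hs 3)
  have e5 := mul_le_mul_of_nonneg_left e1 (pow_nonneg hs 3)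
  rw [hDD] at hstep
  have : 2 * max u 0 * D = s * (2 * max u 0 * l1) + s ^ 2 * (2 * max u 0 * l2) +
      2 * max u 0 * (C * s ^ 3) := by rw [hD]; ring
  linarith


/-- Exact expansion of the profile `β C w / (1 + C w)`. -/
lemma profile_step {β C B : ℝ} (hβ : 0 < β) (hC : 0 < C) (hB : 0 ≤ B) :
    ∃ K s0 : ℝ, 0 ≤ K ∧ 0 < s0 ∧ ∀ s w h : ℝ, 0 ≤ s → s ≤ s0 → 0 ≤ w → |h| ≤ B →
      |β * C * (w + s * h) / (1 + C * (w + s * h)) - β * C * w / (1 + C * w)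
        - (s * (β * C / (1 + C * w) ^ 2 * h) -
          (1 + C * w) / β * s ^ 2 * (β * C / (1 + C * w) ^ 2 * h) ^ 2)| ≤ K * s ^ 3 := by
  refine ⟨2 * β * (C * B) ^ 3, 1 / (2 * (C * B + 1)), by positivity, by positivity, ?_⟩
  intro s w h hs hs0 hw hh
  have hd : (1 : ℝ) ≤ 1 + C * w := by nlinarith
  set d := 1 + C * w with hddef
  set u := C * s * h / d with hu
  have hub : |u| ≤ C * s * B := by
    rw [hu, abs_div, abs_of_pos (by linarith : 0 < d), abs_mul, abs_of_nonneg (by positivity : 0 ≤ C * s)]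
    refine (div_le_self (by positivity) hd).trans ?_
    exact mul_le_mul_of_nonneg_left hh (by positivity)
  have hu2 : |u| ≤ 1 / 2 := by
    refine hub.trans ?_
    have := (le_div_iff₀ (by positivity)).1 hs0
    nlinarith
  obtain ⟨u1, u2⟩ := abs_le.1 hu2
  have hne : 1 + C * (w + s * h) = d * (1 + u) := by rw [hu, hddef]; field_simp; ring
  have hpos : 0 < d * (1 + u) := by nlinarith
  have e : β * C * (w + s * h) / (1 + C * (w + s * h)) - β * C * w / d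
      - (s * (β * C / d ^ 2 * h) - d / β * s ^ 2 * (β * C / d ^ 2 * h) ^ 2)
      = β / d * (u ^ 3 / (1 + u)) := by
    rw [hne]
    have h1 : C * s * h = u * d := by rw [hu]; field_simp
    have hd0 : d ≠ 0 := by positivity
    have hu0 : (1 : ℝ) + u ≠ 0 := by linarith
    field_simp
    linear_combination (norm := (simp only [hddef, hu]; field_simp; ring)) (0 : ℝ) * h1
  rw [e, abs_mul, abs_div, abs_div, abs_of_pos hβ, abs_of_pos (by linarith : 0 < d),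
    abs_of_pos (by linarith : (0 : ℝ) < 1 + u), abs_pow]
  calc β / d * (|u| ^ 3 / (1 + u)) ≤ β * (|u| ^ 3 / (1 / 2)) := by
        refine mul_le_mul (div_le_self hβ.le hd) ?_ (by have : (0:ℝ) < 1 + u := by linarith
                                                        positivity) hβ.le
        exact div_le_div_of_nonneg_left (by positivity) (by norm_num) (by linarith)
    _ ≤ β * ((C * s * B) ^ 3 / (1 / 2)) := by gcongr
    _ = 2 * β * (C * B) ^ 3 * s ^ 3 := by ring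

end Vale.Agent.P078.Sing
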