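import Mathlib
import Vale.Agent.P078.Sing.Singular
import Vale.Agent.P078.Sing.WalkScalar
import Vale.Agent.P078.Resolvent

/-!
# States of the walk over a singular MASA

A colour `c` carries a weight `w c` in the MASA and, for each of the two sides `b`, an added
barrier `R c b`. The profile is `F w = β C w / (1 + C w)`.
-/

open scoped ComplexOrder InnerProductSpace Topology
open Filter

set_option linter.unusedSectionVars false

namespace Vale.Agent.P078.Sing

open Vale.Agent.P078 (capInv capAdd capInv_nonneg norm_capInv_le capInv_mul_self capAdd_nonneg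
  capAdd_spec capInv_compare capInv_expand)

universe u

/-- Parameters: number of colours, accuracy, cap and mass threshold. -/
structure WPrm where
  r : ℕ
  e : ℝ
  a : ℝ
  δ : ℝ

namespace WPrm

variable (p : WPrm)

/-- Steepness of the profile. -/
noncomputable def C : ℝ := 6 / p.e

/-- Threshold of the penalty. -/
noncomputable def T1 : ℝ := 1 + p.e

/-- Slack of the penalty. -/
noncomputable def sl : ℝ := p.e / 4

/-- Height of the profile. -/
noncomputable def β : ℝ := (p.T1 + p.sl)⁻¹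

/-- The profile. -/
noncomputable def Ff (x : ℝ) : ℝ := p.β * p.C * max x 0 / (1 + p.C * max x 0)

/-- Its derivative. -/
noncomputable def dF (x : ℝ) : ℝ := p.β * p.C / (1 + p.C * max x 0) ^ 2

/-- The square root of the derivative. -/
noncomputable def sdF (x : ℝ) : ℝ := Real.sqrt (p.β * p.C) / (1 + p.C * max x 0)

/-- Curvature. -/
noncomputable def kap (x : ℝ) : ℝ := (1 + p.C * max x 0) / p.β

/-- Conditions on the parameters. -/
structure Good : Prop where
  e_pos : 0 < p.e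
  e_le : p.e ≤ 1
  a_pos : 0 < p.a
  a_le : p.a ≤ 1 / 2
  δ_pos : 0 < p.δ
  r_ge : 60 / p.e ^ 2 ≤ (p.r : ℝ)

variable {p}

lemma Good.C_pos (h : p.Good) : 0 < p.C := by
  have := h.e_pos; unfold C; positivity

lemma Good.sl_pos (h : p.Good) : 0 < p.sl := by
  have := h.e_pos; unfold sl; positivity

lemma Good.T1_ge (h : p.Good) : 1 ≤ p.T1 := by
  unfold T1; linarith [h.e_pos]

lemma Good.β_pos (h : p.Good) : 0 < p.β := inv_pos.2 (by linarith [h.T1_ge, h.sl_pos])

lemma Good.β_le (h : p.Good) : p.β ≤ 1 := inv_le_one_of_one_le₀ (by linarith [h.T1_ge, h.sl_pos])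

lemma Good.r_ge_sixty (h : p.Good) : 60 ≤ (p.r : ℝ) := by
  have h1 : p.e ^ 2 ≤ 1 := pow_le_one₀ h.e_pos.le h.e_le
  refine le_trans ?_ h.r_ge
  rw [le_div_iff₀ (pow_pos h.e_pos 2)]
  linarith

lemma Good.den_pos (h : p.Good) (x : ℝ) : 1 ≤ 1 + p.C * max x 0 :=
  le_add_of_nonneg_right (mul_nonneg h.C_pos.le (le_max_right _ _))

lemma continuous_Ff (h : p.Good) : Continuous p.Ff :=
  Continuous.div (by fun_prop) (by fun_prop) fun x => (zero_lt_one.trans_le (h.den_pos x)).ne'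

lemma continuous_dF (h : p.Good) : Continuous p.dF :=
  Continuous.div (by fun_prop) (by fun_prop) fun x =>
    pow_ne_zero 2 (zero_lt_one.trans_le (h.den_pos x)).ne'

lemma continuous_sdF (h : p.Good) : Continuous p.sdF :=
  Continuous.div (by fun_prop) (by fun_prop) fun x => (zero_lt_one.trans_le (h.den_pos x)).ne'

lemma continuous_kap : Continuous p.kap := by unfold kap; fun_prop

lemma Ff_mem (h : p.Good) (x : ℝ) : 0 ≤ p.Ff x ∧ p.Ff x ≤ 1 := by
  have hd := h.den_pos x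
  have := h.C_pos
  have hb := h.β_pos
  refine ⟨by unfold Ff; positivity, ?_⟩
  rw [Ff, div_le_one (by linarith)]
  have : p.β * p.C * max x 0 ≤ 1 * p.C * max x 0 := by gcongr; exact h.β_le
  linarith

lemma Ff_mono (h : p.Good) {x y : ℝ} (hx : 0 ≤ x) (hxy : x ≤ y) : p.Ff x ≤ p.Ff y := by
  have hb := h.β_pos
  have hC := h.C_pos
  rw [Ff, Ff, max_eq_left hx, max_eq_left (hx.trans hxy),
    div_le_div_iff₀ (by positivity) (by nlinarith)]
  nlinarith [mul_le_mul_of_nonneg_left hxy (mul_pos hb hC).le]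

lemma dF_mem (h : p.Good) (x : ℝ) : 0 ≤ p.dF x ∧ p.dF x ≤ p.C := by
  have hd := h.den_pos x
  have := h.C_pos
  have hb := h.β_pos
  refine ⟨by unfold dF; positivity, ?_⟩
  refine (div_le_self (by positivity) (one_le_pow₀ hd)).trans ?_
  exact mul_le_of_le_one_left h.C_pos.le h.β_le

lemma sdF_sq (h : p.Good) (x : ℝ) : p.sdF x * p.sdF x = p.dF x := by
  rw [sdF, dF, div_mul_div_comm, Real.mul_self_sqrt (mul_nonneg h.β_pos.le h.C_pos.le), ← sq]

lemma kap_mem (h : p.Good) {x : ℝ} (hx : x ≤ 1) : 0 ≤ p.kap x ∧ p.kap x ≤ (1 + p.C) / p.β := by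
  have hd := h.den_pos x
  refine ⟨div_nonneg (by linarith) h.β_pos.le, ?_⟩
  refine div_le_div_of_nonneg_right ?_ h.β_pos.le
  have := mul_le_of_le_one_right h.C_pos.le (max_le hx zero_le_one)
  linarith

/-- Below the threshold of the penalty the diagonal is at most the curvature. -/
lemma t_le_kap (h : p.Good) {t x : ℝ} (ht : 0 ≤ t) (hs : scav t (p.Ff x) ≤ p.T1 + p.sl) :
    t ≤ p.kap x := by
  have hd := h.den_pos x
  have hF := (Ff_mem h x).1
  have hb := h.β_pos
  rw [show p.T1 + p.sl = p.β⁻¹ by rw [β, inv_inv], scav, div_le_iff₀ (by positivity),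
    ← div_eq_inv_mul, le_div_iff₀ hb] at hs
  have he : p.β - p.Ff x = p.β / (1 + p.C * max x 0) := by
    rw [Ff]; field_simp; ring
  have h2 : t * (p.β / (1 + p.C * max x 0)) ≤ 1 := by rw [← he]; nlinarith
  rw [mul_div_assoc', div_le_one (by linarith)] at h2
  rw [kap, le_div_iff₀ hb]
  exact h2

end WPrm

variable {M : Type u} [CStarAlgebra M] [PartialOrder M] [StarOrderedRing M]

namespace SMasa

lemma norm_mul_le_of {a b : M} {x y : ℝ} (ha : ‖a‖ ≤ x) (hb : ‖b‖ ≤ y) : ‖a * b‖ ≤ x * y :=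
  (norm_mul_le a b).trans (mul_le_mul ha hb (norm_nonneg b) ((norm_nonneg a).trans ha))

/-- A state of the walk. -/
structure WState (T : SMasa M) (p : WPrm) where
  w : Fin p.r → M
  R : Fin p.r → Bool → M

variable {T : SMasa M} {p : WPrm}

/-- The two square roots of `1 ± x`. -/
structure GoodU (T : SMasa M) (U : Bool → M) : Prop where
  nonneg : ∀ b, 0 ≤ U b
  norm_le : ∀ b, ‖U b‖ ≤ 2
  diag : ∀ b, T.E (U b * U b) = 1

namespace WState

variable (S : T.WState p) (U : Bool → M) (c : Fin p.r) (b : Bool)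

/-- The profile value. -/
noncomputable def F : M := cfc p.Ff (S.w c)

/-- The derivative of the profile. -/
noncomputable def dF : M := cfc p.dF (S.w c)

/-- The curvature. -/
noncomputable def kap : M := cfc p.kap (S.w c)

/-- The barrier. -/
noncomputable def H : M := 1 - U b * S.F c * U b + S.R c b

/-- The capped resolvent. -/
noncomputable def G : M := capInv p.a (S.H U c b)

/-- `U G U`. -/
noncomputable def Y : M := U b * S.G U c b * U b

/-- The diagonal. -/
noncomputable def t : M := T.E (S.Y U c b)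

/-- `1 / (1 + F t)`. -/
noncomputable def qi : M := cfc (fun x : ℝ => (max 1 x)⁻¹) (1 + S.F c * S.t U c b)

/-- The cavity value. -/
noncomputable def sc : M := S.t U c b * S.qi U c b

/-- The penalty. -/
noncomputable def pen : M := cfc (fun x : ℝ => max (x - p.T1) 0) (S.sc U c b)

/-- Sites where no weight exceeds one half. -/
noncomputable def alive : M := 1 - T.cut (∑ c, T.cut (S.w c) (1 / 2)) (1 / 2)

/-- Sites where some penalty is large. -/
noncomputable def stuck : M := T.cut (∑ c, ∑ b, T.cut (S.pen U c b) p.sl) (1 / 2)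

/-- Sites which can move. -/
noncomputable def movable : M := S.alive * (1 - S.stuck U)

/-- The invariants. -/
structure Inv : Prop where
  w_mem : ∀ c, S.w c ∈ T.A
  w_nonneg : ∀ c, 0 ≤ S.w c
  w_sum : ∑ c, S.w c = 1
  R_nonneg : ∀ c b, 0 ≤ S.R c b
  barrier : ∀ c b, p.a • (1 : M) ≤ S.H U c b

/-- The potential. -/
noncomputable def pot : ℝ :=
  ∑ c, ∑ b, (p.a ^ 2 * T.tr (S.G U c b) + T.tr (S.R c b) + T.tr (S.pen U c b * S.pen U c b)) -
    p.a * ∑ c, T.tr (S.w c * S.w c)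

variable {S U c b} (hp : p.Good) (hS : S.Inv U) (hU : GoodU T U)

section

include hS

lemma isRA_w (c : Fin p.r) : T.IsRA (S.w c) :=
  ⟨hS.w_mem c, IsSelfAdjoint.of_nonneg (hS.w_nonneg c)⟩

lemma sum_val_w (χ : T.Chi) : ∑ c, T.val χ (S.w c) = 1 := by
  rw [← val_sum χ _ _ fun c _ => hS.w_mem c, hS.w_sum, val_one]

lemma val_w (c : Fin p.r) (χ : T.Chi) : 0 ≤ T.val χ (S.w c) ∧ T.val χ (S.w c) ≤ 1 := by
  refine ⟨val_nonneg χ (hS.w_mem c) (hS.w_nonneg c), ?_⟩
  rw [← sum_val_w hS χ]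
  exact Finset.single_le_sum (fun d _ => val_nonneg χ (hS.w_mem d) (hS.w_nonneg d))
    (Finset.mem_univ c)

lemma isRA_F (c : Fin p.r) : T.IsRA (S.F c) := (isRA_w hS c).cfc _

lemma isRA_dF (c : Fin p.r) : T.IsRA (S.dF c) := (isRA_w hS c).cfc _

lemma isRA_kap (c : Fin p.r) : T.IsRA (S.kap c) := (isRA_w hS c).cfc _

include hp

lemma val_F (c : Fin p.r) (χ : T.Chi) : T.val χ (S.F c) = p.Ff (T.val χ (S.w c)) :=
  (isRA_w hS c).val_cfc χ (WPrm.continuous_Ff hp)

lemma val_dF (c : Fin p.r) (χ : T.Chi) : T.val χ (S.dF c) = p.dF (T.val χ (S.w c)) :=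
  (isRA_w hS c).val_cfc χ (WPrm.continuous_dF hp)

lemma val_kap (c : Fin p.r) (χ : T.Chi) : T.val χ (S.kap c) = p.kap (T.val χ (S.w c)) :=
  (isRA_w hS c).val_cfc χ WPrm.continuous_kap

lemma norm_F_le (c : Fin p.r) : ‖S.F c‖ ≤ 1 :=
  norm_cfc_le zero_le_one fun x _ => by
    rw [Real.norm_of_nonneg (WPrm.Ff_mem hp x).1]; exact (WPrm.Ff_mem hp x).2

lemma norm_dF_le (c : Fin p.r) : ‖S.dF c‖ ≤ p.C :=
  norm_cfc_le hp.C_pos.le fun x _ => by
    rw [Real.norm_of_nonneg (WPrm.dF_mem hp x).1]; exact (WPrm.dF_mem hp x).2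

lemma norm_kap_le (c : Fin p.r) : ‖S.kap c‖ ≤ (1 + p.C) / p.β :=
  (isRA_kap hS c).norm_le (by have := hp.C_pos; have := hp.β_pos; positivity) fun χ => by
    obtain ⟨h0, h1⟩ := WPrm.kap_mem hp (val_w hS c χ).2
    rw [val_kap hp hS, abs_of_nonneg h0]; exact h1

end

include hp hS hU

lemma isSelfAdjoint_H (c : Fin p.r) (b : Bool) : IsSelfAdjoint (S.H U c b) := by
  refine ((IsSelfAdjoint.one M).sub ?_).add (IsSelfAdjoint.of_nonneg (hS.R_nonneg c b))
  exact IsSelfAdjoint.conjugate_self (isRA_F hS c).sa (IsSelfAdjoint.of_nonneg (hU.nonneg b))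

lemma G_nonneg (c : Fin p.r) (b : Bool) : 0 ≤ S.G U c b := capInv_nonneg hp.a_pos _

lemma norm_G_le (c : Fin p.r) (b : Bool) : ‖S.G U c b‖ ≤ 1 / p.a := by
  rw [one_div]; exact norm_capInv_le hp.a_pos _

lemma Y_nonneg (c : Fin p.r) (b : Bool) : 0 ≤ S.Y U c b :=
  (IsSelfAdjoint.of_nonneg (hU.nonneg b)).conjugate_nonneg (G_nonneg hp hS hU c b)

lemma norm_Y_le (c : Fin p.r) (b : Bool) : ‖S.Y U c b‖ ≤ 4 / p.a :=
  (norm_mul_le_of (norm_mul_le_of (hU.norm_le b) (norm_G_le hp hS hU c b)) (hU.norm_le b)).trans_eq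
    (by ring)

lemma isRA_t (c : Fin p.r) (b : Bool) : T.IsRA (S.t U c b) :=
  isRA_E (IsSelfAdjoint.of_nonneg (Y_nonneg hp hS hU c b))

lemma norm_t_le (c : Fin p.r) (b : Bool) : ‖S.t U c b‖ ≤ 4 / p.a :=
  (T.norm_E_le _).trans (norm_Y_le hp hS hU c b)

lemma val_t_nonneg (c : Fin p.r) (b : Bool) (χ : T.Chi) : 0 ≤ T.val χ (S.t U c b) :=
  val_nonneg χ (T.E_mem _) (T.E_nonneg (Y_nonneg hp hS hU c b))

lemma val_t_le (c : Fin p.r) (b : Bool) (χ : T.Chi) : T.val χ (S.t U c b) ≤ 4 / p.a :=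
  (le_abs_self _).trans (((isRA_t hp hS hU c b).abs_val_le χ).trans (norm_t_le hp hS hU c b))

lemma isRA_qi (c : Fin p.r) (b : Bool) : T.IsRA (S.qi U c b) :=
  (isRA_one.add ((isRA_F hS c).mul (isRA_t hp hS hU c b))).cfc _

lemma val_qi (c : Fin p.r) (b : Bool) (χ : T.Chi) :
    T.val χ (S.qi U c b) = (1 + p.Ff (T.val χ (S.w c)) * T.val χ (S.t U c b))⁻¹ := by
  have hFt := (isRA_F hS c).mul (isRA_t hp hS hU c b)
  have h0 := mul_nonneg (WPrm.Ff_mem hp (T.val χ (S.w c))).1 (val_t_nonneg hp hS hU c b χ)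
  rw [qi, (isRA_one.add hFt).val_cfc χ (Vale.Agent.P078.continuous_capInv one_pos),
    isRA_one.val_add χ hFt, val_one, (isRA_F hS c).val_mul χ (isRA_t hp hS hU c b), val_F hp hS,
    max_eq_right]
  linarith

lemma val_qi_mem (c : Fin p.r) (b : Bool) (χ : T.Chi) :
    0 ≤ T.val χ (S.qi U c b) ∧ T.val χ (S.qi U c b) ≤ 1 := by
  have h0 := mul_nonneg (WPrm.Ff_mem hp (T.val χ (S.w c))).1 (val_t_nonneg hp hS hU c b χ)
  rw [val_qi hp hS hU]
  exact ⟨inv_nonneg.2 (by linarith), inv_le_one_of_one_le₀ (by linarith)⟩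

lemma isRA_sc (c : Fin p.r) (b : Bool) : T.IsRA (S.sc U c b) :=
  (isRA_t hp hS hU c b).mul (isRA_qi hp hS hU c b)

lemma val_sc (c : Fin p.r) (b : Bool) (χ : T.Chi) :
    T.val χ (S.sc U c b) = scav (T.val χ (S.t U c b)) (p.Ff (T.val χ (S.w c))) := by
  rw [sc, (isRA_t hp hS hU c b).val_mul χ (isRA_qi hp hS hU c b), val_qi hp hS hU, scav,
    div_eq_mul_inv]

lemma isRA_pen (c : Fin p.r) (b : Bool) : T.IsRA (S.pen U c b) := (isRA_sc hp hS hU c b).cfc _

lemma val_pen (c : Fin p.r) (b : Bool) (χ : T.Chi) : T.val χ (S.pen U c b) =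
    max (scav (T.val χ (S.t U c b)) (p.Ff (T.val χ (S.w c))) - p.T1) 0 := by
  rw [pen, (isRA_sc hp hS hU c b).val_cfc χ (by fun_prop), val_sc hp hS hU]

lemma val_pen_le (c : Fin p.r) (b : Bool) (χ : T.Chi) : T.val χ (S.pen U c b) ≤ 4 / p.a := by
  rw [val_pen hp hS hU]
  refine max_le ?_ (by have := hp.a_pos; positivity)
  have h1 : scav (T.val χ (S.t U c b)) (p.Ff (T.val χ (S.w c))) ≤ T.val χ (S.t U c b) :=
    div_le_self (val_t_nonneg hp hS hU c b χ)
      (by nlinarith [(WPrm.Ff_mem hp (T.val χ (S.w c))).1, val_t_nonneg hp hS hU c b χ])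
  linarith [val_t_le hp hS hU c b χ, hp.T1_ge]

lemma aproj_alive : T.AProj S.alive :=
  (aproj_cut (sum_mem fun c _ => T.cut_mem_A _ (hS.w_mem c)) _).one_sub

lemma aproj_stuck : T.AProj (S.stuck U) :=
  aproj_cut (sum_mem fun c _ => sum_mem fun b _ => T.cut_mem_A _ (isRA_pen hp hS hU c b).mem) _

lemma aproj_movable : T.AProj (S.movable U) :=
  (aproj_alive hp hS hU).mul (aproj_stuck hp hS hU).one_sub

lemma alive_spec (c : Fin p.r) (χ : T.Chi) (h : T.val χ S.alive = 1) :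
    T.val χ (S.w c) ≤ 1 / 2 := by
  have hc := fun d => aproj_cut (T := T) (hS.w_mem d) (1 / 2)
  have hsum : T.IsRA (∑ d, T.cut (S.w d) (1 / 2)) := isRA_sum fun d _ => (hc d).ra
  rw [alive, isRA_one.val_sub χ (aproj_cut hsum.mem _).ra, val_one, sub_eq_self] at h
  have h1 := val_le_of_cut χ hsum.mem hsum.sa h
  rw [val_sum χ _ _ fun d _ => (hc d).1] at h1
  have h2 : T.val χ (T.cut (S.w c) (1 / 2)) ≤ 1 / 2 :=
    (Finset.single_le_sum (fun d _ => val_nonneg χ (hc d).1 (hc d).2.nonneg)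
      (Finset.mem_univ c)).trans h1
  rcases (hc c).ra.val_proj χ (hc c).2 with hv | hv
  · exact val_le_of_cut χ (hS.w_mem c) (isRA_w hS c).sa hv
  · rw [hv] at h2; norm_num at h2

lemma movable_spec (c : Fin p.r) (b : Bool) (χ : T.Chi) (h : T.val χ (S.movable U) = 1) :
    T.val χ S.alive = 1 ∧ T.val χ (S.t U c b) ≤ T.val χ (S.kap c) := by
  have hA := aproj_alive hp hS hU
  have hK := aproj_stuck hp hS hU
  rw [movable, hA.ra.val_mul χ hK.one_sub.ra, isRA_one.val_sub χ hK.ra, val_one] at h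
  rcases hA.ra.val_proj χ hA.2 with hv | hv
  · rw [hv, zero_mul] at h; exact absurd h zero_ne_one
  refine ⟨hv, ?_⟩
  rw [hv, one_mul, sub_eq_self] at h
  have hc := fun d d' => aproj_cut (T := T) (isRA_pen hp hS hU d d').mem p.sl
  have hsum : T.IsRA (∑ d, ∑ d', T.cut (S.pen U d d') p.sl) :=
    isRA_sum fun d _ => isRA_sum fun d' _ => (hc d d').ra
  have h1 := val_le_of_cut χ hsum.mem hsum.sa h
  rw [val_sum χ _ _ fun d _ => sum_mem fun d' _ => (hc d d').1] at h1
  have h2 : T.val χ (T.cut (S.pen U c b) p.sl) ≤ 1 / 2 := by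
    refine le_trans ?_ ((Finset.single_le_sum (fun d _ => ?_) (Finset.mem_univ c)).trans h1)
    · rw [val_sum χ _ _ fun d' _ => (hc c d').1]
      exact Finset.single_le_sum (fun d' _ => val_nonneg χ (hc c d').1 (hc c d').2.nonneg)
        (Finset.mem_univ b)
    · exact val_nonneg χ (sum_mem fun d' _ => (hc d d').1)
        (Finset.sum_nonneg fun d' _ => (hc d d').2.nonneg)
  rcases (hc c b).ra.val_proj χ (hc c b).2 with hw | hw
  · have h3 := val_le_of_cut χ (isRA_pen hp hS hU c b).mem (isRA_pen hp hS hU c b).sa hw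
    rw [val_pen hp hS hU] at h3
    rw [val_kap hp hS]
    exact WPrm.t_le_kap hp (val_t_nonneg hp hS hU c b χ)
      (by linarith [(max_le_iff.1 h3).1])
  · rw [hw] at h2; norm_num at h2

end WState

end SMasa

end Vale.Agent.P078.Sing
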