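import Mathlib
import Vale.Agent.P078.Sing.WalkState

/-!
# Second order expansion of the potential along a move of the walk
-/

open scoped ComplexOrder InnerProductSpace Topology
open Filter

set_option linter.unusedSectionVars false

namespace Vale.Agent.P078.Sing

open Vale.Agent.P078 (capInv capAdd capInv_nonneg norm_capInv_le capInv_mul_self capAdd_nonneg
  capAdd_spec capInv_compare capInv_expand)

universe u

variable {M : Type u} [CStarAlgebra M] [PartialOrder M] [StarOrderedRing M]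

namespace SMasa

variable {T : SMasa M} {p : WPrm}

lemma norm_conj_le {U G : M} {g : ℝ} (hU : ‖U‖ ≤ 2) (hG : ‖G‖ ≤ g) : ‖U * G * U‖ ≤ 4 * g :=
  (norm_mul_le_of (norm_mul_le_of hU hG) hU).trans_eq (by ring)

lemma E_smul_real (T : SMasa M) (r : ℝ) (x : M) : T.E (r • x) = r • T.E x := by
  rw [← Complex.coe_smul, T.E_smul, Complex.coe_smul]

namespace WState

variable (S : T.WState p) (U : Bool → M) (h : Fin p.r → M) (c : Fin p.r) (b : Bool)

/-- Direction of the profile. -/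
noncomputable def y : M := S.dF c * h c

/-- `U G U` minus its diagonal. -/
noncomputable def Yo : M := S.Y U c b - S.t U c b

/-- First order change of the penalty before the scalar weight. -/
noncomputable def xi : M := T.E (S.Yo U c b * S.y h c * S.Yo U c b)

/-- Second order change of the penalty before the scalar weight. -/
noncomputable def dd : M :=
  T.E (S.Yo U c b * ((S.t U c b - S.kap c) * (S.y h c * S.y h c)) * S.Yo U c b) +
    T.E (S.Yo U c b * S.y h c * S.Yo U c b * S.y h c * S.Yo U c b)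

/-- First order change of the cavity value. -/
noncomputable def l1 : M := S.qi U c b * S.qi U c b * S.xi U h c b

/-- Second order change of the cavity value. -/
noncomputable def l2 : M := S.qi U c b * S.qi U c b * S.dd U h c b

/-- First order change of the resolvent. -/
noncomputable def g1 : M := S.G U c b * (U b * S.y h c * U b) * S.G U c b

/-- Second order change of the resolvent. -/
noncomputable def g2 : M :=
  S.G U c b * (U b * S.y h c * U b) * S.G U c b * (U b * S.y h c * U b) * S.G U c b -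
    S.G U c b * (U b * (S.kap c * (S.y h c * S.y h c)) * U b) * S.G U c b

/-- First order change of the potential. -/
noncomputable def lin : ℝ :=
  ∑ c, ∑ b, (p.a ^ 2 * T.tr (S.g1 U h c b) + 2 * T.tr (S.pen U c b * S.l1 U h c b)) -
    p.a * (2 * ∑ c, T.tr (S.w c * h c))

/-- Second order change of the potential. -/
noncomputable def qd : ℝ :=
  ∑ c, ∑ b, (p.a ^ 2 * T.tr (S.g2 U h c b) + 2 * T.tr (S.pen U c b * S.l2 U h c b) +
      T.tr (S.l1 U h c b * S.l1 U h c b)) -
    p.a * ∑ c, T.tr (h c * h c)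

/-- The state after a move. -/
noncomputable def moved (s : ℝ) : T.WState p where
  w c := S.w c + s • h c
  R c b := S.R c b + capAdd p.a (S.H U c b - U b * (cfc p.Ff (S.w c + s • h c) - S.F c) * U b)

lemma moved_H (s : ℝ) :
    (S.moved U h s).H U c b =
      (S.H U c b - U b * (cfc p.Ff (S.w c + s • h c) - S.F c) * U b) +
        capAdd p.a (S.H U c b - U b * (cfc p.Ff (S.w c + s • h c) - S.F c) * U b) := by
  simp only [moved, H, F, mul_sub, sub_mul]
  abel

lemma lin_neg : S.lin U (fun c => -h c) = -S.lin U h := by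
  simp only [lin, g1, l1, xi, y, mul_neg, neg_mul, T.E_neg, T.tr_neg, Finset.sum_neg_distrib]
  simp only [← Finset.sum_neg_distrib, Finset.mul_sum, ← mul_neg, neg_sub, sub_neg_eq_add]
  rw [← sub_eq_zero]
  simp only [Finset.sum_add_distrib, mul_neg, Finset.sum_neg_distrib]
  ring

lemma qd_neg : S.qd U (fun c => -h c) = S.qd U h := by
  simp only [qd, g2, l1, l2, xi, dd, y, mul_neg, neg_mul, neg_neg, T.E_neg]

variable {S U h c b} (hp : p.Good) (hS : S.Inv U) (hU : GoodU T U) (hh : ∀ c, T.IsRA (h c))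
include hp hS hU hh

lemma isRA_y (c : Fin p.r) : T.IsRA (S.y h c) := (isRA_dF hS c).mul (hh c)

lemma Yo_sa (c : Fin p.r) (b : Bool) : IsSelfAdjoint (S.Yo U c b) :=
  (IsSelfAdjoint.of_nonneg (Y_nonneg hp hS hU c b)).sub (isRA_t hp hS hU c b).sa

lemma isRA_xi (c : Fin p.r) (b : Bool) : T.IsRA (S.xi U h c b) :=
  isRA_E (IsSelfAdjoint.conjugate_self (isRA_y hp hS hU hh c).sa (Yo_sa hp hS hU hh c b))

lemma isRA_dd (c : Fin p.r) (b : Bool) : T.IsRA (S.dd U h c b) := by
  have hy := isRA_y hp hS hU hh c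
  have hYo := Yo_sa hp hS hU hh c b
  refine IsRA.add (isRA_E (IsSelfAdjoint.conjugate_self
    (((isRA_t hp hS hU c b).sub (isRA_kap hS c)).mul (hy.mul hy)).sa hYo)) (isRA_E ?_)
  rw [show S.Yo U c b * S.y h c * S.Yo U c b * S.y h c * S.Yo U c b =
    S.Yo U c b * (S.y h c * S.Yo U c b * S.y h c) * S.Yo U c b by noncomm_ring]
  exact IsSelfAdjoint.conjugate_self (IsSelfAdjoint.conjugate_self hYo hy.sa) hYo

lemma isRA_l1 (c : Fin p.r) (b : Bool) : T.IsRA (S.l1 U h c b) :=
  ((isRA_qi hp hS hU c b).mul (isRA_qi hp hS hU c b)).mul (isRA_xi hp hS hU hh c b)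

lemma isRA_l2 (c : Fin p.r) (b : Bool) : T.IsRA (S.l2 U h c b) :=
  ((isRA_qi hp hS hU c b).mul (isRA_qi hp hS hU c b)).mul (isRA_dd hp hS hU hh c b)

/-- The first order coefficient in terms of `E (Y y Y)`. -/
lemma xi_eq (c : Fin p.r) (b : Bool) : S.xi U h c b =
    T.E (S.Y U c b * S.y h c * S.Y U c b) - S.t U c b * S.y h c * S.t U c b := by
  have hy := (isRA_y hp hS hU hh c).mem
  have ht := (isRA_t hp hS hU c b).mem
  have e1 : T.E (S.Y U c b * S.y h c * S.t U c b) = S.t U c b * S.y h c * S.t U c b := by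
    rw [mul_assoc, T.E_mul_right _ (mul_mem hy ht), ← t, ← mul_assoc]
  have e2 : T.E (S.t U c b * S.y h c * S.Y U c b) = S.t U c b * S.y h c * S.t U c b := by
    rw [T.E_mul_left (mul_mem ht hy), ← t]
  have e3 : T.E (S.t U c b * S.y h c * S.t U c b) = S.t U c b * S.y h c * S.t U c b :=
    T.E_of_mem (mul_mem (mul_mem ht hy) ht)
  rw [xi, Yo]
  simp only [mul_sub, sub_mul, T.E_sub, e1, e2, e3]
  abel

/-- The second order coefficient in terms of the coefficients of the expansion of `t`. -/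
lemma val_dd (c : Fin p.r) (b : Bool) (χ : T.Chi) : T.val χ (S.dd U h c b) =
    T.val χ (T.E (S.Y U c b * S.y h c * S.Y U c b * S.y h c * S.Y U c b) -
        T.E (S.Y U c b * (S.kap c * (S.y h c * S.y h c)) * S.Y U c b))
      + T.val χ (S.kap c) * T.val χ (S.t U c b) ^ 2 * T.val χ (S.y h c) ^ 2
      - T.val χ (S.t U c b) ^ 3 * T.val χ (S.y h c) ^ 2
      - 2 * T.val χ (S.t U c b) * T.val χ (S.y h c) *
        (T.val χ (T.E (S.Y U c b * S.y h c * S.Y U c b))
          - T.val χ (S.t U c b) ^ 2 * T.val χ (S.y h c)) := by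
  set Y := S.Y U c b with hYdef
  set t := S.t U c b with htdef
  set y := S.y h c with hydef
  set k := S.kap c with hkdef
  have hyR : T.IsRA y := isRA_y hp hS hU hh c
  have htR : T.IsRA t := isRA_t hp hS hU c b
  have hkR : T.IsRA k := isRA_kap hS c
  have hEY : T.E Y = t := rfl
  have hK : T.IsRA ((t - k) * (y * y)) := (htR.sub hkR).mul (hyR.mul hyR)
  have hYs : IsSelfAdjoint Y := IsSelfAdjoint.of_nonneg (Y_nonneg hp hS hU c b)
  set E1 := T.E (Y * y * Y) with hE1
  set E2 := T.E (Y * y * Y * y * Y) with hE2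
  set Ek := T.E (Y * (k * (y * y)) * Y) with hEk
  set Et := T.E (Y * (t * (y * y)) * Y) with hEt
  have a1 : T.E (Y * ((t - k) * (y * y)) * Y) = Et - Ek := by
    rw [hEt, hEk, ← T.E_sub, sub_mul t k, mul_sub, sub_mul]
  have eA : T.E (S.Yo U c b * ((t - k) * (y * y)) * S.Yo U c b) =
      (Et - Ek) - t * ((t - k) * (y * y)) * t := by
    rw [Yo, ← hYdef, ← htdef]
    rw [show (Y - t) * ((t - k) * (y * y)) * (Y - t) = Y * ((t - k) * (y * y)) * Y -
      Y * (((t - k) * (y * y)) * t) - (t * ((t - k) * (y * y))) * Y +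
      t * ((t - k) * (y * y)) * t by noncomm_ring]
    rw [T.E_add, T.E_sub, T.E_sub, a1, T.E_mul_right _ (mul_mem hK.mem htR.mem),
      T.E_mul_left (mul_mem htR.mem hK.mem), T.E_of_mem (mul_mem (mul_mem htR.mem hK.mem) htR.mem),
      hEY]
    noncomm_ring
  have hty := mul_mem htR.mem hyR.mem
  have hyt := mul_mem hyR.mem htR.mem
  have hm : Y * y * (t * y) * Y = Y * (t * (y * y)) * Y := by
    rw [mul_assoc Y y, ← mul_assoc y t y, T.A_comm y hyR.mem t htR.mem, mul_assoc t y y]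
  have eB : T.E (S.Yo U c b * y * S.Yo U c b * y * S.Yo U c b) =
      E2 - E1 * (y * t) - Et - (t * y) * E1 + t * (y * t * y * t) + (t * y) * t * (y * t)
        + (t * y * t * y) * t - t * y * t * y * t := by
    rw [Yo, ← hYdef, ← htdef,
      show (Y - t) * y * (Y - t) * y * (Y - t) = Y * y * Y * y * Y - (Y * y * Y) * (y * t) -
        Y * y * (t * y) * Y - (t * y) * (Y * y * Y) + Y * (y * t * y * t) +
        (t * y) * (Y * (y * t)) + (t * y * t * y) * Y - t * y * t * y * t by noncomm_ring,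
      hm]
    simp only [T.E_add, T.E_sub]
    rw [T.E_mul_right _ hyt, T.E_mul_left hty (Y * y * Y),
      T.E_mul_right Y (mul_mem (mul_mem hyt hyR.mem) htR.mem), T.E_mul_left hty (Y * (y * t)),
      T.E_mul_right Y hyt, T.E_mul_left (mul_mem (mul_mem hty htR.mem) hyR.mem) Y,
      T.E_of_mem (mul_mem (mul_mem (mul_mem hty htR.mem) hyR.mem) htR.mem), hEY, hE1, hE2, hEt]
    simp only [mul_assoc]
  have hR1 : T.IsRA E1 := isRA_E (IsSelfAdjoint.conjugate_self hyR.sa hYs)
  have hRk : T.IsRA Ek := isRA_E (IsSelfAdjoint.conjugate_self (hkR.mul (hyR.mul hyR)).sa hYs)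
  have hRt : T.IsRA Et := isRA_E (IsSelfAdjoint.conjugate_self (htR.mul (hyR.mul hyR)).sa hYs)
  have hR2 : T.IsRA E2 := by
    refine isRA_E ?_
    rw [show Y * y * Y * y * Y = Y * (y * Y * y) * Y by noncomm_ring]
    exact IsSelfAdjoint.conjugate_self (IsSelfAdjoint.conjugate_self hYs hyR.sa) hYs
  have m1 := hR1.mul (hyR.mul htR)
  have m2 := (htR.mul hyR).mul hR1
  have m3 := htR.mul (((hyR.mul htR).mul hyR).mul htR)
  have m4 := ((htR.mul hyR).mul htR).mul (hyR.mul htR)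
  have m5 := (((htR.mul hyR).mul htR).mul hyR).mul htR
  have q1 := hR2.sub m1
  have q2 := q1.sub hRt
  have q3 := q2.sub m2
  have q4 := q3.add m3
  have q5 := q4.add m4
  have q6 := q5.add m5
  have hA1 := hRt.sub hRk
  have hA2 := (htR.mul hK).mul htR
  rw [dd, ← htdef, ← hkdef, ← hydef, eA, eB, (hA1.sub hA2).val_add χ (q6.sub m5),
    hA1.val_sub χ hA2, hRt.val_sub χ hRk, q6.val_sub χ m5, q5.val_add χ m5, q4.val_add χ m4,
    q3.val_add χ m3, q2.val_sub χ m2, q1.val_sub χ hRt, hR2.val_sub χ m1, hR2.val_sub χ hRk,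
    (htR.mul hK).val_mul χ htR, htR.val_mul χ hK, (htR.sub hkR).val_mul χ (hyR.mul hyR),
    htR.val_sub χ hkR, hR1.val_mul χ (hyR.mul htR), (htR.mul hyR).val_mul χ hR1,
    htR.val_mul χ (((hyR.mul htR).mul hyR).mul htR), ((hyR.mul htR).mul hyR).val_mul χ htR,
    ((htR.mul hyR).mul htR).val_mul χ (hyR.mul htR), (((htR.mul hyR).mul htR).mul hyR).val_mul χ htR,
    ((htR.mul hyR).mul htR).val_mul χ hyR, (htR.mul hyR).val_mul χ htR,
    (hyR.mul htR).val_mul χ hyR, hyR.val_mul χ htR, htR.val_mul χ hyR, hyR.val_mul χ hyR]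
  ring

end WState

/-- The scalar step of a squared penalty. -/
lemma exists_pen_scalar (T1 B : ℝ) (hT : 0 ≤ T1) (hB : 1 ≤ B) :
    ∃ K s0 : ℝ, 0 ≤ K ∧ 0 < s0 ∧ ∀ κ s t F y t1 t2 tn Fn : ℝ, 0 ≤ κ → κ ≤ B → 0 ≤ s → s ≤ s0 →
      0 ≤ t → t ≤ B → 0 ≤ F → F ≤ B → |y| ≤ B → |t1| ≤ B → |t2| ≤ B →
      0 ≤ tn → tn ≤ t + s * t1 + s ^ 2 * t2 + B * s ^ 3 →
      0 ≤ Fn → F + s * y - κ * s ^ 2 * y ^ 2 - B * s ^ 3 ≤ Fn →
      max (scav tn Fn - T1) 0 * max (scav tn Fn - T1) 0 ≤
        max (scav t F - T1) 0 * max (scav t F - T1) 0 +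
        s * (2 * (max (scav t F - T1) 0 * ((t1 - t ^ 2 * y) / (1 + F * t) ^ 2))) +
        s ^ 2 * (2 * (max (scav t F - T1) 0 * scavD2 κ t F y t1 t2) +
          (t1 - t ^ 2 * y) / (1 + F * t) ^ 2 * ((t1 - t ^ 2 * y) / (1 + F * t) ^ 2)) + K * s ^ 3 := by
  obtain ⟨Ks, ss, hKs, hss, hscav⟩ := scav_step (B := B)
  refine ⟨2 * (Ks + B + B ^ 3) * Ks + 3 * (Ks + B + B ^ 3 + Ks) ^ 2, min ss 1, by positivity,
    lt_min hss one_pos, ?_⟩
  intro κ s t F y t1 t2 tn Fn hκ hκB hs hs0 ht htB hF hFB hy ht1 ht2 htn htn' hFn hFn'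
  obtain ⟨hD, hsc⟩ := hscav κ s t F y t1 t2 tn Fn hκ hκB hs (hs0.trans (min_le_left _ _)) ht htB
    hF hFB hy ht1 ht2 htn htn' hFn hFn'
  have hden : 1 ≤ (1 + F * t) ^ 2 := one_le_pow₀ (by nlinarith)
  have hl1 : |(t1 - t ^ 2 * y) / (1 + F * t) ^ 2| ≤ Ks + B + B ^ 3 := by
    rw [abs_div, abs_of_pos (by linarith : (0 : ℝ) < (1 + F * t) ^ 2)]
    refine (div_le_self (abs_nonneg _) hden).trans ((abs_sub _ _).trans ?_)
    have h2 : |t ^ 2 * y| ≤ B ^ 2 * B := by
      rw [abs_mul, abs_of_nonneg (sq_nonneg t)]; gcongr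
    calc |t1| + |t ^ 2 * y| ≤ B + B ^ 2 * B := add_le_add ht1 h2
      _ ≤ _ := by linarith only [hKs]
  have hB3 : 0 ≤ B + B ^ 3 := by positivity
  have hu : max (scav t F - T1) 0 ≤ Ks + B + B ^ 3 := by
    refine max_le ?_ (by linarith only [hKs, hB3])
    have : scav t F ≤ t := div_le_self ht (by nlinarith)
    linarith only [this, htB, hT, hKs, pow_nonneg (zero_le_one.trans hB) 3]
  have := pen_step (C := Ks) (u := scav t F - T1) (u' := scav tn Fn - T1)
    (by linarith only [hKs, hB3] : 0 ≤ Ks + B + B ^ 3) hKs hs (hs0.trans (min_le_right _ _)) hl1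
    (hD.trans (by linarith only [hB3])) hu (by linarith only [hsc])
  linarith only [this]

/-- Expansion of the profile along a move, as elements of the MASA. -/
lemma exists_profile_expand (hp : p.Good) :
    ∃ K s0 : ℝ, 0 ≤ K ∧ 0 < s0 ∧ ∀ (U : Bool → M), GoodU T U → ∀ S : T.WState p, S.Inv U →
      ∀ h : Fin p.r → M, (∀ c, T.IsRA (h c)) → (∀ c, ‖h c‖ ≤ 2) → ∀ (c : Fin p.r) (s : ℝ),
        0 ≤ s → s ≤ s0 → 0 ≤ S.w c + s • h c →
        ‖cfc p.Ff (S.w c + s • h c) - S.F c -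
          (s • S.y h c - s ^ 2 • (S.kap c * (S.y h c * S.y h c)))‖ ≤ K * s ^ 3 := by
  obtain ⟨KF, sF, hKF, hsF, hF⟩ :=
    profile_step (β := p.β) (C := p.C) (B := 2) hp.β_pos hp.C_pos (by norm_num)
  refine ⟨KF, sF, hKF, hsF, fun U hU S hS h hh hhn c s hs hss hnn => ?_⟩
  have hw := WState.isRA_w hS c
  have hy := WState.isRA_y hp hS hU hh c
  have hk := WState.isRA_kap hS c
  have hw' := hw.add ((hh c).smul s)
  have hD := (hw'.cfc p.Ff).sub (WState.isRA_F hS c)
  have hdR := (hy.smul s).sub ((hk.mul (hy.mul hy)).smul (s ^ 2))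
  refine (hD.sub hdR).norm_le (by positivity) fun χ => ?_
  obtain ⟨hw0, -⟩ := WState.val_w hS c χ
  have hv : T.val χ (S.w c + s • h c) = T.val χ (S.w c) + s * T.val χ (h c) := by
    rw [hw.val_add χ ((hh c).smul s), (hh c).val_smul]
  have hn : 0 ≤ T.val χ (S.w c) + s * T.val χ (h c) := by
    rw [← hv]; exact val_nonneg χ hw'.mem hnn
  have key := hF s (T.val χ (S.w c)) (T.val χ (h c)) hs hss hw0 (((hh c).abs_val_le χ).trans (hhn c))
  rw [hD.val_sub χ hdR, (hw'.cfc _).val_sub χ (WState.isRA_F hS c),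
    hw'.val_cfc χ (WPrm.continuous_Ff hp), WState.val_F hp hS, hv,
    (hy.smul s).val_sub χ ((hk.mul (hy.mul hy)).smul _), hy.val_smul,
    (hk.mul (hy.mul hy)).val_smul, hk.val_mul χ (hy.mul hy), hy.val_mul χ hy,
    WState.val_kap hp hS, WState.y, (WState.isRA_dF hS c).val_mul χ (hh c),
    WState.val_dF hp hS, WPrm.Ff, WPrm.Ff, WPrm.dF, WPrm.kap, max_eq_left hn, max_eq_left hw0]
  refine le_of_eq_of_le ?_ key
  congr 1; ring

/-- Uniform bounds along a bounded direction. -/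
lemma exists_dir_bounds (hp : p.Good) :
    ∃ B : ℝ, 1 ≤ B ∧ (1 + p.C) / p.β ≤ B ∧ 4 / p.a ≤ B ∧ ∀ (U : Bool → M), GoodU T U → ∀ S : T.WState p, S.Inv U →
      ∀ h : Fin p.r → M, (∀ c, T.IsRA (h c)) → (∀ c, ‖h c‖ ≤ 2) → ∀ c b,
        ‖S.y h c‖ ≤ B ∧ ‖U b * S.y h c * U b‖ ≤ B ∧
        ‖-(U b * (S.kap c * (S.y h c * S.y h c)) * U b)‖ ≤ B ∧
        ‖T.E (S.Y U c b * S.y h c * S.Y U c b)‖ ≤ B ∧
        ‖T.E (S.Y U c b * S.y h c * S.Y U c b * S.y h c * S.Y U c b) -
          T.E (S.Y U c b * (S.kap c * (S.y h c * S.y h c)) * S.Y U c b)‖ ≤ B := by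
  have := hp.C_pos
  have := hp.β_pos
  have := hp.a_pos
  set By := 2 * p.C
  set Bk := (1 + p.C) / p.β
  set BY := 4 / p.a
  have q0 : 0 ≤ By := by positivity
  have q1 : 0 ≤ Bk := by positivity
  have q2 : 0 ≤ BY := by positivity
  have p1 : 0 ≤ 4 * (Bk * (By * By)) := by positivity
  have p2 : 0 ≤ BY * By * BY := by positivity
  have p3 : 0 ≤ BY * By * BY * By * BY + BY * (Bk * (By * By)) * BY := by positivity
  refine ⟨1 + By + Bk + BY + 4 * By + 4 * (Bk * (By * By)) + BY * By * BY +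
    (BY * By * BY * By * BY + BY * (Bk * (By * By)) * BY), by linarith only [q0, q1, q2, p1, p2, p3],
    by linarith only [q0, q1, q2, p1, p2, p3], by linarith only [q0, q1, q2, p1, p2, p3],
    fun U hU S hS h hh hhn c b => ?_⟩
  have hy : ‖S.y h c‖ ≤ By := (norm_mul_le_of (WState.norm_dF_le hp hS c) (hhn c)).trans_eq
    (by simp only [By]; ring)
  have hY : ‖S.Y U c b‖ ≤ BY := WState.norm_Y_le hp hS hU c b
  have hk := norm_mul_le_of (WState.norm_kap_le hp hS c) (norm_mul_le_of hy hy)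
  refine ⟨hy.trans ?_, (norm_conj_le (hU.norm_le b) hy).trans ?_, ?_,
    ((T.norm_E_le _).trans (norm_mul_le_of (norm_mul_le_of hY hy) hY)).trans ?_,
    ((norm_sub_le _ _).trans (add_le_add
      ((T.norm_E_le _).trans (norm_mul_le_of (norm_mul_le_of (norm_mul_le_of
        (norm_mul_le_of hY hy) hY) hy) hY))
      ((T.norm_E_le _).trans (norm_mul_le_of (norm_mul_le_of hY hk) hY)))).trans ?_⟩
  case refine_3 => rw [norm_neg]; refine (norm_conj_le (hU.norm_le b) hk).trans ?_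
                   linarith only [q0, q1, q2, p1, p2, p3]
  all_goals linarith only [q0, q1, q2, p1, p2, p3]

/-- The resolvent part of one term of the potential, and the diagonal, along a move. -/
lemma exists_resolvent_expand (hp : p.Good) :
    ∃ K s0 : ℝ, 0 ≤ K ∧ 0 < s0 ∧ ∀ (U : Bool → M), GoodU T U → ∀ S : T.WState p, S.Inv U →
      ∀ h : Fin p.r → M, (∀ c, T.IsRA (h c)) → (∀ c, ‖h c‖ ≤ 2) → ∀ (c : Fin p.r) (b : Bool) (s : ℝ),
        0 ≤ s → s ≤ s0 → 0 ≤ S.w c + s • h c →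
        p.a ^ 2 * T.tr ((S.moved U h s).G U c b) + T.tr ((S.moved U h s).R c b) ≤
          (p.a ^ 2 * T.tr (S.G U c b) + T.tr (S.R c b)) + s * (p.a ^ 2 * T.tr (S.g1 U h c b)) +
            s ^ 2 * (p.a ^ 2 * T.tr (S.g2 U h c b)) + K * s ^ 3 ∧
        (S.moved U h s).t U c b ≤ S.t U c b + s • T.E (S.Y U c b * S.y h c * S.Y U c b) +
          s ^ 2 • (T.E (S.Y U c b * S.y h c * S.Y U c b * S.y h c * S.Y U c b) -
            T.E (S.Y U c b * (S.kap c * (S.y h c * S.y h c)) * S.Y U c b)) +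
          (K * s ^ 3) • (1 : M) := by
  have ha := hp.a_pos
  obtain ⟨KF, sF, hKF, hsF, hF⟩ := exists_profile_expand (T := T) hp
  obtain ⟨B, hB1, -, -, hB⟩ := exists_dir_bounds (T := T) hp
  obtain ⟨KG, sG, hKG, hsG, hG⟩ := capInv_expand (M := M) ha (B := B + 4 * KF) (by linarith)
  refine ⟨(p.a ^ 2 + 4) * KG, min sF sG, by positivity, lt_min hsF hsG,
    fun U hU S hS h hh hhn c b s hs hs0 hnn => ?_⟩
  obtain ⟨-, hV1n, hV2n, -, -⟩ := hB U hU S hS h hh hhn c b
  have hUs := IsSelfAdjoint.of_nonneg (hU.nonneg b)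
  have hUn := hU.norm_le b
  have hy := WState.isRA_y hp hS hU hh c
  have hk := WState.isRA_kap hS c
  have hw' := (WState.isRA_w hS c).add ((hh c).smul s)
  set D := cfc p.Ff (S.w c + s • h c) - S.F c with hD
  have hDR : T.IsRA D := (hw'.cfc _).sub (WState.isRA_F hS c)
  have hDn := hF U hU S hS h hh hhn c s hs (hs0.trans (min_le_left _ _)) hnn
  rw [← hD] at hDn
  set V := U b * D * U b with hV
  have hVs : IsSelfAdjoint V := IsSelfAdjoint.conjugate_self hDR.sa hUs
  set V1 := U b * S.y h c * U b with hV1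
  set V2 := -(U b * (S.kap c * (S.y h c * S.y h c)) * U b) with hV2
  have hVe : ‖V - (s • V1 + s ^ 2 • V2)‖ ≤ (B + 4 * KF) * s ^ 3 := by
    have e : V - (s • V1 + s ^ 2 • V2) =
        U b * (D - (s • S.y h c - s ^ 2 • (S.kap c * (S.y h c * S.y h c)))) * U b := by
      simp only [hV, hV1, hV2, mul_sub, sub_mul, mul_smul_comm, smul_mul_assoc, smul_neg]
      abel
    rw [e]
    refine (norm_conj_le hUn hDn).trans ?_
    nlinarith [pow_nonneg hs 3]
  obtain ⟨hge, hexp⟩ := hG s (S.H U c b) V V1 V2 hs (hs0.trans (min_le_right _ _))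
    (WState.isSelfAdjoint_H hp hS hU c b) hVs (hS.barrier c b) (hV1n.trans (by linarith))
    (hV2n.trans (by linarith)) hVe
  set Gn := capInv (p.a / 2) (S.H U c b - V)
  have hHV := (WState.isSelfAdjoint_H hp hS hU c b).sub hVs
  obtain ⟨hle1, hle2⟩ := capInv_compare ha hHV hge
  have hG' : (S.moved U h s).G U c b = capInv p.a (S.H U c b - V) := by
    rw [WState.G, WState.moved_H]
    exact (capAdd_spec ha hHV).2
  have hGs : IsSelfAdjoint (S.G U c b) := IsSelfAdjoint.of_nonneg (WState.G_nonneg hp hS hU c b)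
  have hW := IsSelfAdjoint.conjugate_self hy.sa hUs
  have hsa1 : IsSelfAdjoint (S.g1 U h c b) := IsSelfAdjoint.conjugate_self hW hGs
  have hsa2 : IsSelfAdjoint (S.g2 U h c b) := by
    rw [WState.g2, show S.G U c b * (U b * S.y h c * U b) * S.G U c b * (U b * S.y h c * U b) *
      S.G U c b = S.G U c b * ((U b * S.y h c * U b) * S.G U c b * (U b * S.y h c * U b)) *
        S.G U c b by noncomm_ring]
    exact (IsSelfAdjoint.conjugate_self (IsSelfAdjoint.conjugate_self hGs hW) hGs).sub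
      (IsSelfAdjoint.conjugate_self
        (IsSelfAdjoint.conjugate_self (hk.mul (hy.mul hy)).sa hUs) hGs)
  have hg2 : S.G U c b * V1 * S.G U c b * V1 * S.G U c b + S.G U c b * V2 * S.G U c b =
      S.g2 U h c b := by
    rw [WState.g2, hV2, mul_neg, neg_mul, ← sub_eq_add_neg]
  have hGle : Gn ≤ S.G U c b + s • S.g1 U h c b + s ^ 2 • S.g2 U h c b +
      (KG * s ^ 3) • (1 : M) := by
    have hds : IsSelfAdjoint (Gn - (S.G U c b + s • S.g1 U h c b + s ^ 2 • S.g2 U h c b)) :=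
      (show IsSelfAdjoint Gn from cfc_predicate _ _).sub
        ((hGs.add ((IsSelfAdjoint.all s).smul hsa1)).add ((IsSelfAdjoint.all _).smul hsa2))
    rw [← sub_le_iff_le_add']
    refine (le_norm_smul_one hds).trans (smul_le_smul_of_nonneg_right ?_ zero_le_one)
    rw [← hg2]
    exact hexp
  refine ⟨?_, ?_⟩
  · have h1 := T.tr_mono hle2
    rw [T.tr_add, T.tr_smul, T.tr_smul] at h1
    have h2 := mul_le_mul_of_nonneg_left (T.tr_mono hGle) (sq_nonneg p.a)
    simp only [T.tr_add, T.tr_smul, T.tr_one] at h2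
    rw [hG']
    show _ + T.tr (S.R c b + capAdd p.a (S.H U c b - V)) ≤ _
    rw [T.tr_add]
    linarith [mul_nonneg hKG (pow_nonneg hs 3)]
  · rw [WState.t, WState.Y, hG']
    refine (T.E_mono (hUs.conjugate_le_conjugate (hle1.trans hGle))).trans ?_
    have e1 : U b * S.g1 U h c b * U b = S.Y U c b * S.y h c * S.Y U c b := by
      simp only [WState.g1, WState.Y, mul_assoc]
    have e2 : U b * S.g2 U h c b * U b =
        S.Y U c b * S.y h c * S.Y U c b * S.y h c * S.Y U c b -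
          S.Y U c b * (S.kap c * (S.y h c * S.y h c)) * S.Y U c b := by
      simp only [WState.g2, WState.Y, mul_sub, sub_mul, mul_assoc]
    simp only [mul_add, add_mul, mul_smul_comm, smul_mul_assoc, mul_one, T.E_add, T.E_smul_real,
      e1, e2, T.E_sub, hU.diag b]
    refine add_le_add le_rfl (smul_le_smul_of_nonneg_right ?_ zero_le_one)
    nlinarith [mul_nonneg hKG (pow_nonneg hs 3), sq_nonneg p.a]

/-- The squared penalty along a move. -/
lemma exists_pen_expand (hp : p.Good) :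
    ∃ K s0 : ℝ, 0 ≤ K ∧ 0 < s0 ∧ ∀ (U : Bool → M), GoodU T U → ∀ S : T.WState p, S.Inv U →
      ∀ h : Fin p.r → M, (∀ c, T.IsRA (h c)) → (∀ c, ‖h c‖ ≤ 2) → ∀ (c : Fin p.r) (b : Bool) (s : ℝ),
        0 ≤ s → s ≤ s0 → 0 ≤ S.w c + s • h c → (S.moved U h s).Inv U →
        T.tr ((S.moved U h s).pen U c b * (S.moved U h s).pen U c b) ≤
          T.tr (S.pen U c b * S.pen U c b) + s * (2 * T.tr (S.pen U c b * S.l1 U h c b)) +
          s ^ 2 * (2 * T.tr (S.pen U c b * S.l2 U h c b) +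
            T.tr (S.l1 U h c b * S.l1 U h c b)) + K * s ^ 3 := by
  obtain ⟨KF, sF, hKF, hsF, hF⟩ := exists_profile_expand (T := T) hp
  obtain ⟨KR, sR, hKR, hsR, hR⟩ := exists_resolvent_expand (T := T) hp
  obtain ⟨B0, hB01, hBk, hBY, hB⟩ := exists_dir_bounds (T := T) hp
  set B := B0 + KF + KR with hBdef
  obtain ⟨KP, sP, hKP, hsP, hP⟩ :=
    exists_pen_scalar p.T1 B (zero_le_one.trans hp.T1_ge) (by linarith)
  refine ⟨KP, min (min sF sR) sP, hKP, lt_min (lt_min hsF hsR) hsP,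
    fun U hU S hS h hh hhn c b s hs hs0 hnn hI => ?_⟩
  obtain ⟨hyn, -, -, ht1n, ht2n⟩ := hB U hU S hS h hh hhn c b
  obtain ⟨-, ht'⟩ := hR U hU S hS h hh hhn c b s hs
    (hs0.trans ((min_le_left _ _).trans (min_le_right _ _))) hnn
  have hDn := hF U hU S hS h hh hhn c s hs (hs0.trans ((min_le_left _ _).trans (min_le_left _ _))) hnn
  have hy := WState.isRA_y hp hS hU hh c
  have hk := WState.isRA_kap hS c
  have ht := WState.isRA_t hp hS hU c b
  have hq := WState.isRA_qi hp hS hU c b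
  have hYs := IsSelfAdjoint.of_nonneg (WState.Y_nonneg hp hS hU c b)
  set t1 := T.E (S.Y U c b * S.y h c * S.Y U c b) with ht1
  set t2 := T.E (S.Y U c b * S.y h c * S.Y U c b * S.y h c * S.Y U c b) -
    T.E (S.Y U c b * (S.kap c * (S.y h c * S.y h c)) * S.Y U c b) with ht2
  have ht1R : T.IsRA t1 := isRA_E (IsSelfAdjoint.conjugate_self hy.sa hYs)
  have ht2R : T.IsRA t2 := by
    refine IsRA.sub (isRA_E ?_)
      (isRA_E (IsSelfAdjoint.conjugate_self (hk.mul (hy.mul hy)).sa hYs))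
    rw [show S.Y U c b * S.y h c * S.Y U c b * S.y h c * S.Y U c b =
      S.Y U c b * (S.y h c * S.Y U c b * S.y h c) * S.Y U c b by noncomm_ring]
    exact IsSelfAdjoint.conjugate_self (IsSelfAdjoint.conjugate_self hYs hy.sa) hYs
  have hpen := WState.isRA_pen hp hS hU c b
  have hpen' := WState.isRA_pen hp hI hU c b
  have hl1 := WState.isRA_l1 hp hS hU hh c b
  have hl2 := WState.isRA_l2 hp hS hU hh c b
  have hPP := hpen.mul hpen
  have hW1 := (hpen.mul hl1).smul 2
  have hW2 := ((hpen.mul hl2).smul 2).add (hl1.mul hl1)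
  have hkey : (S.moved U h s).pen U c b * (S.moved U h s).pen U c b ≤
      S.pen U c b * S.pen U c b + s • ((2 : ℝ) • (S.pen U c b * S.l1 U h c b)) +
      s ^ 2 • ((2 : ℝ) • (S.pen U c b * S.l2 U h c b) + S.l1 U h c b * S.l1 U h c b) +
      (KP * s ^ 3) • (1 : M) := by
    refine (hpen'.mul hpen').le_of_val
      (((hPP.add (hW1.smul _)).add (hW2.smul _)).add (isRA_one.smul _)) fun χ => ?_
    rw [((hPP.add (hW1.smul _)).add (hW2.smul _)).val_add χ (isRA_one.smul _),
      (hPP.add (hW1.smul _)).val_add χ (hW2.smul _), hPP.val_add χ (hW1.smul _), hW1.val_smul,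
      hW2.val_smul, val_smul_one, ((hpen.mul hl2).smul 2).val_add χ (hl1.mul hl1),
      (hpen.mul hl1).val_smul, (hpen.mul hl2).val_smul, hpen.val_mul χ hl1, hpen.val_mul χ hl2,
      hl1.val_mul χ hl1, hpen.val_mul χ hpen, hpen'.val_mul χ hpen', WState.val_pen hp hS hU,
      WState.val_pen hp hI hU]
    have hl1v : T.val χ (S.l1 U h c b) = (T.val χ t1 - T.val χ (S.t U c b) ^ 2 * T.val χ (S.y h c)) /
        (1 + p.Ff (T.val χ (S.w c)) * T.val χ (S.t U c b)) ^ 2 := by
      rw [WState.l1, (hq.mul hq).val_mul χ (WState.isRA_xi hp hS hU hh c b), hq.val_mul χ hq,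
        WState.val_qi hp hS hU, WState.xi_eq hp hS hU hh, ht1R.val_sub χ ((ht.mul hy).mul ht),
        (ht.mul hy).val_mul χ ht, ht.val_mul χ hy, div_eq_mul_inv,
        sq (1 + p.Ff (T.val χ (S.w c)) * T.val χ (S.t U c b)), mul_inv]
      ring
    have hl2v : T.val χ (S.l2 U h c b) = scavD2 (T.val χ (S.kap c)) (T.val χ (S.t U c b))
        (p.Ff (T.val χ (S.w c))) (T.val χ (S.y h c)) (T.val χ t1) (T.val χ t2) := by
      rw [WState.l2, (hq.mul hq).val_mul χ (WState.isRA_dd hp hS hU hh c b), hq.val_mul χ hq,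
        WState.val_qi hp hS hU, WState.val_dd hp hS hU hh, scavD2, div_eq_mul_inv,
        sq (1 + p.Ff (T.val χ (S.w c)) * T.val χ (S.t U c b)), mul_inv]
      ring
    rw [hl1v, hl2v]
    have hk01 := WPrm.kap_mem hp (WState.val_w hS c χ).2
    rw [← WState.val_kap hp hS] at hk01
    have hBB : B0 ≤ B := by rw [hBdef]; linarith only [hKF, hKR]
    refine hP _ s _ _ _ _ _ _ _ hk01.1 (hk01.2.trans (hBk.trans hBB)) hs
      (hs0.trans (min_le_right _ _)) (WState.val_t_nonneg hp hS hU c b χ)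
      ((WState.val_t_le hp hS hU c b χ).trans (hBY.trans hBB)) (WPrm.Ff_mem hp _).1
      ((WPrm.Ff_mem hp _).2.trans (by linarith only [hB01, hBB]))
      ((hy.abs_val_le χ).trans (hyn.trans hBB)) ((ht1R.abs_val_le χ).trans (ht1n.trans hBB))
      ((ht2R.abs_val_le χ).trans (ht2n.trans hBB)) (WState.val_t_nonneg hp hI hU c b χ) ?_
      (WPrm.Ff_mem hp _).1 ?_
    · have hRA := ((ht.add (ht1R.smul s)).add (ht2R.smul (s ^ 2))).add
        (isRA_one.smul (KR * s ^ 3))
      have h5 := val_mono χ (WState.isRA_t hp hI hU c b).mem hRA.mem ht'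
      rw [((ht.add (ht1R.smul s)).add (ht2R.smul (s ^ 2))).val_add χ (isRA_one.smul _),
        (ht.add (ht1R.smul s)).val_add χ (ht2R.smul (s ^ 2)), ht.val_add χ (ht1R.smul s),
        ht1R.val_smul, ht2R.val_smul, val_smul_one] at h5
      have : KR * s ^ 3 ≤ B * s ^ 3 :=
        mul_le_mul_of_nonneg_right (by rw [hBdef]; linarith only [hKF, hB01]) (pow_nonneg hs 3)
      linarith only [h5, this]
    · have hw' := (WState.isRA_w hS c).add ((hh c).smul s)
      have hDR := (hw'.cfc p.Ff).sub (WState.isRA_F hS c)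
      have hdR := (hy.smul s).sub ((hk.mul (hy.mul hy)).smul (s ^ 2))
      have h4 := ((hDR.sub hdR).abs_val_le χ).trans hDn
      rw [hDR.val_sub χ hdR, (hw'.cfc _).val_sub χ (WState.isRA_F hS c),
        (hy.smul s).val_sub χ ((hk.mul (hy.mul hy)).smul _), hy.val_smul,
        (hk.mul (hy.mul hy)).val_smul, hk.val_mul χ (hy.mul hy), hy.val_mul χ hy,
        hw'.val_cfc χ (WPrm.continuous_Ff hp), WState.val_F hp hS] at h4
      show _ ≤ p.Ff (T.val χ (S.w c + s • h c))
      have : KF * s ^ 3 ≤ B * s ^ 3 :=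
        mul_le_mul_of_nonneg_right (by rw [hBdef]; linarith only [hKR, hB01]) (pow_nonneg hs 3)
      linarith only [(abs_le.1 h4).1, this]
  have htr := T.tr_mono hkey
  simp only [T.tr_add, T.tr_smul, T.tr_one, mul_one] at htr
  linarith only [htr]

/-- Expansion of the potential along a move. -/
theorem exists_expand (hp : p.Good) :
    ∃ C s0 : ℝ, 0 ≤ C ∧ 0 < s0 ∧ ∀ (U : Bool → M), GoodU T U → ∀ S : T.WState p, S.Inv U →
      ∀ h : Fin p.r → M, (∀ c, T.IsRA (h c)) → (∀ c, ‖h c‖ ≤ 2) → ∑ c, h c = 0 →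
        ∀ s : ℝ, 0 ≤ s → s ≤ s0 → (∀ c, 0 ≤ S.w c + s • h c) →
          ∃ S' : T.WState p, S'.Inv U ∧
            S'.pot U ≤ S.pot U + s * S.lin U h + s ^ 2 * S.qd U h + C * s ^ 3 := by
  obtain ⟨KR, sR, hKR, hsR, hR⟩ := exists_resolvent_expand (T := T) hp
  obtain ⟨KP, sP, hKP, hsP, hP⟩ := exists_pen_expand (T := T) hp
  refine ⟨(p.r : ℝ) * (2 * (KR + KP)), min sR sP, by positivity, lt_min hsR hsP, ?_⟩
  intro U hU S hS h hh hhn hsum0 s hs hs0 hnn
  have hw := fun c => WState.isRA_w hS c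
  have hw' : ∀ c, T.IsRA (S.w c + s • h c) := fun c => (hw c).add ((hh c).smul s)
  set S' := S.moved U h s with hS'
  have hI : S'.Inv U :=
    { w_mem := fun c => (hw' c).mem
      w_nonneg := hnn
      w_sum := by
        show ∑ c, (S.w c + s • h c) = 1
        rw [Finset.sum_add_distrib, ← Finset.smul_sum, hsum0, smul_zero, add_zero, hS.w_sum]
      R_nonneg := fun c b => add_nonneg (hS.R_nonneg c b) (capAdd_nonneg _ _)
      barrier := fun c b => by
        rw [WState.moved_H]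
        exact (capAdd_spec hp.a_pos ((WState.isSelfAdjoint_H hp hS hU c b).sub
          (IsSelfAdjoint.conjugate_self ((hw' c).cfc _ |>.sub (WState.isRA_F hS c)).sa
            (IsSelfAdjoint.of_nonneg (hU.nonneg b))))).1 }
  refine ⟨S', hI, ?_⟩
  have hterm : ∀ c b, p.a ^ 2 * T.tr (S'.G U c b) + T.tr (S'.R c b) +
      T.tr (S'.pen U c b * S'.pen U c b) ≤
      (p.a ^ 2 * T.tr (S.G U c b) + T.tr (S.R c b) + T.tr (S.pen U c b * S.pen U c b)) +
      s * (p.a ^ 2 * T.tr (S.g1 U h c b) + 2 * T.tr (S.pen U c b * S.l1 U h c b)) +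
      s ^ 2 * (p.a ^ 2 * T.tr (S.g2 U h c b) + 2 * T.tr (S.pen U c b * S.l2 U h c b) +
        T.tr (S.l1 U h c b * S.l1 U h c b)) + (KR + KP) * s ^ 3 := fun c b => by
    have h1 := (hR U hU S hS h hh hhn c b s hs (hs0.trans (min_le_left _ _)) (hnn c)).1
    have h2 := hP U hU S hS h hh hhn c b s hs (hs0.trans (min_le_right _ _)) (hnn c) hI
    linarith only [h1, h2]
  have hsum := Finset.sum_le_sum fun c (_ : c ∈ Finset.univ) =>
    Finset.sum_le_sum fun b (_ : b ∈ Finset.univ) => hterm c b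
  have hww : ∑ c, T.tr (S'.w c * S'.w c) = ∑ c, T.tr (S.w c * S.w c) +
      s * (2 * ∑ c, T.tr (S.w c * h c)) + s ^ 2 * ∑ c, T.tr (h c * h c) := by
    rw [Finset.mul_sum, Finset.mul_sum, Finset.mul_sum, ← Finset.sum_add_distrib,
      ← Finset.sum_add_distrib]
    refine Finset.sum_congr rfl fun c _ => ?_
    show T.tr ((S.w c + s • h c) * (S.w c + s • h c)) = _
    simp only [add_mul, mul_add, smul_mul_assoc, mul_smul_comm, T.tr_add, T.tr_smul]
    rw [T.A_comm (h c) (hh c).mem (S.w c) (hw c).mem]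
    ring
  simp only [Finset.sum_add_distrib, ← Finset.mul_sum, Finset.sum_const, Finset.card_univ,
    Fintype.card_fin, Fintype.card_bool, nsmul_eq_mul] at hsum
  simp only [WState.pot, WState.lin, WState.qd, hww, Finset.sum_add_distrib, ← Finset.mul_sum]
  push_cast at hsum
  linarith only [hsum]

end SMasa

end Vale.Agent.P078.Sing
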