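import Mathlib
import Vale.Agent.P078.Sing.WalkMove
import Vale.Agent.P078.Sing.FirstHit

/-!
# Choice of the direction: two colours on every movable site and random signs on fine cells

Over a singular MASA the cross terms of the second order coefficient vanish on average, and what is
left is nonpositive where the cavity diagonal is below the curvature.
-/

open scoped ComplexOrder InnerProductSpace Topology
open Filter

set_option linter.unusedSectionVars false

namespace Vale.Agent.P078.Sing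

universe u

variable {M : Type u} [CStarAlgebra M] [PartialOrder M] [StarOrderedRing M]

/-- A choice of signs for which a quadratic form is at most the sum of its values. -/
lemma exists_signs {X ι : Type*} [AddCommGroup X] [DecidableEq ι] (q : X → ℝ) (h0 : q 0 ≤ 0)
    (hq : ∀ a b, q (a + b) + q (a - b) = 2 * q a + 2 * q b) (v : ι → X) (s : Finset ι) :
    ∃ σ : ι → Bool, q (∑ i ∈ s, if σ i then v i else -v i) ≤ ∑ i ∈ s, q (v i) := by
  induction s using Finset.induction_on with
  | empty => exact ⟨fun _ => true, by simpa using h0⟩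
  | insert i s hi ih =>
    obtain ⟨σ, hσ⟩ := ih
    set S := ∑ k ∈ s, if σ k then v k else -v k
    have hS : ∀ b, (∑ k ∈ s, if Function.update σ i b k then v k else -v k) = S := fun b =>
      Finset.sum_congr rfl fun k hk => by
        rw [Function.update_of_ne (fun h : k = i => hi (h ▸ hk))]
    have := hq S (v i)
    rcases le_total (q (S + v i)) (q (S - v i)) with h | h
    · refine ⟨Function.update σ i true, ?_⟩
      rw [Finset.sum_insert hi, Finset.sum_insert hi, hS]
      simp only [Function.update_self, if_true]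
      rw [add_comm (v i) S]
      linarith
    · refine ⟨Function.update σ i false, ?_⟩
      rw [Finset.sum_insert hi, Finset.sum_insert hi, hS]
      simp only [Function.update_self, Bool.false_eq_true, if_false]
      rw [neg_add_eq_sub]
      linarith

namespace SMasa

variable {T : SMasa M} {p : WPrm}

lemma Tends.map_E {ι : Type*} {l : Filter ι} {x : ι → M} {y : M} (h : T.Tends l x y) :
    T.Tends l (fun i => T.E (x i)) (T.E y) := by
  refine squeeze_zero (fun i => T.n2_nonneg _) (fun i => ?_) h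
  rw [← T.E_sub]; exact T.n2_E_le _

lemma Tends.finset_sum {ι κ : Type*} {l : Filter ι} (s : Finset κ) {x : κ → ι → M} {y : κ → M}
    (h : ∀ k ∈ s, T.Tends l (x k) (y k)) :
    T.Tends l (fun i => ∑ k ∈ s, x k i) (∑ k ∈ s, y k) := by
  classical
  induction s using Finset.induction_on with
  | empty => simpa using tends_const (T := T) (l := l) (0 : M)
  | insert a s ha ih =>
    simp only [Finset.sum_insert ha]
    exact (h a (Finset.mem_insert_self a s)).add (ih fun k hk => h k (Finset.mem_insert_of_mem hk))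

/-- A signed sum of the cells of a partition. -/
lemma sign_sum_spec (P : T.Part) (σ : Fin P.n → Bool) :
    T.IsRA (∑ i, if σ i then P.e i else -P.e i) ∧ ‖∑ i, if σ i then P.e i else -P.e i‖ ≤ 1 ∧
      (∑ i, if σ i then P.e i else -P.e i) * (∑ i, if σ i then P.e i else -P.e i) = 1 := by
  set g := ∑ i, if σ i then P.e i else -P.e i with hg
  have hgs : IsSelfAdjoint g := isSelfAdjoint_sum _ fun i _ => by
    split_ifs
    · exact (P.proj i).isSelfAdjoint
    · exact (P.proj i).isSelfAdjoint.neg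
  have hgA : g ∈ T.A := sum_mem fun i _ => by
    split_ifs
    · exact P.mem i
    · exact neg_mem (P.mem i)
  have hsq : g * g = 1 := by
    rw [hg, Finset.sum_mul, ← P.sum_one]
    refine Finset.sum_congr rfl fun i _ => ?_
    rw [Finset.mul_sum, Finset.sum_eq_single i]
    · split_ifs <;> simp [(P.proj i).isIdempotentElem.eq]
    · intro k _ hk; split_ifs <;> simp [P.orth i k (Ne.symm hk)]
    · simp
  refine ⟨⟨hgA, hgs⟩, ?_, hsq⟩
  have h1 : ‖g‖ * ‖g‖ ≤ 1 := by
    rw [← CStarRing.norm_star_mul_self, hgs.star_eq, hsq]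
    exact (IsStarProjection.one M).norm_le
  nlinarith [norm_nonneg g]

namespace WState

variable {S : T.WState p} {U : Bool → M}

lemma y_mul (u : Fin p.r → M) (v : M) (c : Fin p.r) :
    S.y (fun c => u c * v) c = S.dF c * u c * v := by rw [y, mul_assoc]

lemma g2_par (h k : Fin p.r → M) (c : Fin p.r) (b : Bool) :
    S.g2 U (fun c => h c + k c) c b + S.g2 U (fun c => h c - k c) c b =
      S.g2 U h c b + S.g2 U h c b + (S.g2 U k c b + S.g2 U k c b) := by
  simp only [g2, y, mul_add, add_mul, mul_sub, sub_mul]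
  abel

lemma l2_par (h k : Fin p.r → M) (c : Fin p.r) (b : Bool) :
    S.l2 U (fun c => h c + k c) c b + S.l2 U (fun c => h c - k c) c b =
      S.l2 U h c b + S.l2 U h c b + (S.l2 U k c b + S.l2 U k c b) := by
  simp only [l2, dd, y, mul_add, add_mul, mul_sub, sub_mul, T.E_add, T.E_sub]
  abel

lemma l1_sq_par (h k : Fin p.r → M) (c : Fin p.r) (b : Bool) :
    S.l1 U (fun c => h c + k c) c b * S.l1 U (fun c => h c + k c) c b +
        S.l1 U (fun c => h c - k c) c b * S.l1 U (fun c => h c - k c) c b =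
      S.l1 U h c b * S.l1 U h c b + S.l1 U h c b * S.l1 U h c b +
        (S.l1 U k c b * S.l1 U k c b + S.l1 U k c b * S.l1 U k c b) := by
  simp only [l1, xi, y, mul_add, add_mul, mul_sub, sub_mul, T.E_add, T.E_sub]
  abel

lemma qd_par (h k : Fin p.r → M) :
    S.qd U (fun c => h c + k c) + S.qd U (fun c => h c - k c) = 2 * S.qd U h + 2 * S.qd U k := by
  have e1 : ∀ c b, T.tr (S.g2 U (fun c => h c + k c) c b) + T.tr (S.g2 U (fun c => h c - k c) c b) =
      2 * T.tr (S.g2 U h c b) + 2 * T.tr (S.g2 U k c b) := fun c b => by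
    rw [← T.tr_add, g2_par, T.tr_add, T.tr_add, T.tr_add]; ring
  have e2 : ∀ c b, T.tr (S.pen U c b * S.l2 U (fun c => h c + k c) c b) +
      T.tr (S.pen U c b * S.l2 U (fun c => h c - k c) c b) =
      2 * T.tr (S.pen U c b * S.l2 U h c b) + 2 * T.tr (S.pen U c b * S.l2 U k c b) := fun c b => by
    rw [← T.tr_add, ← mul_add, l2_par]; simp only [mul_add, T.tr_add]; ring
  have e3 : ∀ c b, T.tr (S.l1 U (fun c => h c + k c) c b * S.l1 U (fun c => h c + k c) c b) +
      T.tr (S.l1 U (fun c => h c - k c) c b * S.l1 U (fun c => h c - k c) c b) =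
      2 * T.tr (S.l1 U h c b * S.l1 U h c b) + 2 * T.tr (S.l1 U k c b * S.l1 U k c b) := fun c b => by
    rw [← T.tr_add, l1_sq_par]; simp only [T.tr_add]; ring
  have e4 : ∀ c, T.tr ((h c + k c) * (h c + k c)) + T.tr ((h c - k c) * (h c - k c)) =
      2 * T.tr (h c * h c) + 2 * T.tr (k c * k c) := fun c => by
    simp only [mul_add, add_mul, mul_sub, sub_mul, T.tr_add, T.tr_sub]; ring
  have hs : ∑ c, ∑ b, (p.a ^ 2 * T.tr (S.g2 U (fun c => h c + k c) c b) +
        2 * T.tr (S.pen U c b * S.l2 U (fun c => h c + k c) c b) +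
        T.tr (S.l1 U (fun c => h c + k c) c b * S.l1 U (fun c => h c + k c) c b)) +
      ∑ c, ∑ b, (p.a ^ 2 * T.tr (S.g2 U (fun c => h c - k c) c b) +
        2 * T.tr (S.pen U c b * S.l2 U (fun c => h c - k c) c b) +
        T.tr (S.l1 U (fun c => h c - k c) c b * S.l1 U (fun c => h c - k c) c b)) =
      2 * ∑ c, ∑ b, (p.a ^ 2 * T.tr (S.g2 U h c b) + 2 * T.tr (S.pen U c b * S.l2 U h c b) +
        T.tr (S.l1 U h c b * S.l1 U h c b)) +
      2 * ∑ c, ∑ b, (p.a ^ 2 * T.tr (S.g2 U k c b) + 2 * T.tr (S.pen U c b * S.l2 U k c b) +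
        T.tr (S.l1 U k c b * S.l1 U k c b)) := by
    simp only [Finset.mul_sum, ← Finset.sum_add_distrib]
    refine Finset.sum_congr rfl fun c _ => Finset.sum_congr rfl fun b _ => ?_
    linear_combination p.a ^ 2 * e1 c b + 2 * e2 c b + e3 c b
  have hs' : ∑ c, T.tr ((h c + k c) * (h c + k c)) + ∑ c, T.tr ((h c - k c) * (h c - k c)) =
      2 * ∑ c, T.tr (h c * h c) + 2 * ∑ c, T.tr (k c * k c) := by
    simp only [Finset.mul_sum, ← Finset.sum_add_distrib]
    exact Finset.sum_congr rfl fun c _ => e4 c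
  simp only [qd]
  linear_combination hs - p.a * hs'

variable (hp : p.Good) (hS : S.Inv U) (hU : GoodU T U)
include hp hS hU

/-- Two colours carrying weight at every movable site. -/
lemma exists_pair :
    ∃ f g : Fin p.r → M, (∀ c, T.AProj (f c)) ∧ (∀ c, T.AProj (g c)) ∧ (∀ c, f c * g c = 0) ∧
      (∀ χ : T.Chi, T.val χ (S.movable U) = 1 →
        ∑ c, T.val χ (f c) = 1 ∧ ∑ c, T.val χ (g c) = 1) ∧
      (∀ c (χ : T.Chi), T.val χ (f c) = 1 ∨ T.val χ (g c) = 1 →
        1 / (4 * (p.r : ℝ)) ≤ T.val χ (S.w c)) := by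
  have hr : (0 : ℝ) < p.r := by linarith [hp.r_ge_sixty]
  set τ := 1 / (4 * (p.r : ℝ)) with hτ
  have hq := fun c => aproj_cut (T := T) (hS.w_mem c) τ
  obtain ⟨f, hfA, hfP, hfo, hfq, hf0⟩ := T.exists_first_hit (fun c => T.cut (S.w c) τ)
    (fun c => (hq c).1) (fun c => (hq c).2)
  have hf : ∀ c, T.AProj (f c) := fun c => ⟨hfA c, hfP c⟩
  have hq2 := fun c => (hq c).mul (hf c).one_sub
  obtain ⟨g, hgA, hgP, hgo, hgq, hg0⟩ := T.exists_first_hit
    (fun c => T.cut (S.w c) τ * (1 - f c)) (fun c => (hq2 c).1) (fun c => (hq2 c).2)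
  have hg : ∀ c, T.AProj (g c) := fun c => ⟨hgA c, hgP c⟩
  have hfcut : ∀ c (χ : T.Chi), T.val χ (f c) = 1 → T.val χ (T.cut (S.w c) τ) = 1 := fun c χ h => by
    have := congrArg (T.val χ) (hfq c)
    rwa [(hf c).ra.val_mul χ (hq c).ra, h, one_mul] at this
  have hgcut : ∀ c (χ : T.Chi), T.val χ (g c) = 1 →
      T.val χ (T.cut (S.w c) τ) = 1 ∧ T.val χ (f c) = 0 := fun c χ h => by
    have := congrArg (T.val χ) (hgq c)
    rw [(hg c).ra.val_mul χ (hq2 c).ra, h, one_mul, (hq c).ra.val_mul χ (hf c).one_sub.ra,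
      isRA_one.val_sub χ (hf c).ra, val_one] at this
    rcases (hq c).ra.val_proj χ (hq c).2 with h1 | h1
    · rw [h1, zero_mul] at this; exact absurd this zero_ne_one
    · rw [h1, one_mul, sub_eq_self] at this; exact ⟨h1, this⟩
  refine ⟨f, g, hf, hg, fun c => ?_, fun χ hχ => ?_, fun c χ h => ?_⟩
  · refine ((hf c).ra.mul (hg c).ra).eq_of_val isRA_zero fun χ => ?_
    rw [(hf c).ra.val_mul χ (hg c).ra, val_zero]
    rcases (hg c).ra.val_proj χ (hg c).2 with h | h
    · rw [h, mul_zero]
    · rw [(hgcut c χ h).2, zero_mul]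
  swap
  · rcases h with h | h
    · exact le_val_of_cut χ (hS.w_mem c) (isRA_w hS c).sa (hfcut c χ h)
    · exact le_val_of_cut χ (hS.w_mem c) (isRA_w hS c).sa (hgcut c χ h).1
  obtain ⟨hal, -⟩ := movable_spec hp hS hU ⟨0, by exact_mod_cast hr⟩ true χ hχ
  have hsum1 := sum_val_w hS χ
  have hsmall : ∀ s : Finset (Fin p.r),
      (∀ c ∈ s, T.val χ (T.cut (S.w c) τ) = 0) → ∑ c ∈ s, T.val χ (S.w c) ≤ 1 / 4 := fun s hs => by
    refine (Finset.sum_le_sum fun c hc => val_le_of_cut χ (hS.w_mem c) (isRA_w hS c).sa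
      (hs c hc)).trans ?_
    rw [Finset.sum_const, nsmul_eq_mul]
    calc (s.card : ℝ) * τ ≤ (p.r : ℝ) * τ := by
          refine mul_le_mul_of_nonneg_right ?_ (by positivity)
          exact_mod_cast (s.card_le_univ).trans_eq (Fintype.card_fin _)
      _ = 1 / 4 := by rw [hτ]; field_simp
  have hfsum := isRA_sum (T := T) (s := Finset.univ) fun c _ => (hf c).ra
  have hgsum := isRA_sum (T := T) (s := Finset.univ) fun c _ => (hg c).ra
  have hF1 : ∑ c, T.val χ (f c) = 1 := by
    obtain ⟨c, hc⟩ : ∃ c, T.val χ (T.cut (S.w c) τ) = 1 := by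
      by_contra hne
      push Not at hne
      have := hsmall Finset.univ fun c _ => ((hq c).ra.val_proj χ (hq c).2).resolve_right (hne c)
      linarith
    have := congrArg (T.val χ) (hf0 c)
    rw [(isRA_one.sub hfsum).val_mul χ (hq c).ra, hc, mul_one, val_zero, isRA_one.val_sub χ hfsum,
      val_one, sub_eq_zero, val_sum χ _ _ fun d _ => (hf d).1] at this
    exact this.symm
  refine ⟨hF1, ?_⟩
  obtain ⟨c, hc⟩ : ∃ c, T.val χ (T.cut (S.w c) τ * (1 - f c)) = 1 := by
    by_contra hne
    push Not at hne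
    have h0 : ∀ c, T.val χ (f c) = 0 → T.val χ (T.cut (S.w c) τ) = 0 := fun c hfc => by
      have := ((hq2 c).ra.val_proj χ (hq2 c).2).resolve_right (hne c)
      rwa [(hq c).ra.val_mul χ (hf c).one_sub.ra, isRA_one.val_sub χ (hf c).ra, val_one, hfc,
        sub_zero, mul_one] at this
    obtain ⟨d, -, hd⟩ := Finset.exists_ne_zero_of_sum_ne_zero (hF1.trans_ne one_ne_zero)
    have hd1 := ((hf d).ra.val_proj χ (hf d).2).resolve_left hd
    have hrest := hsmall (Finset.univ.erase d) fun c hc => h0 c (by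
      have := congrArg (T.val χ) (hfo c d (Finset.ne_of_mem_erase hc))
      rwa [(hf c).ra.val_mul χ (hf d).ra, hd1, mul_one, val_zero] at this)
    have h2 := alive_spec hp hS hU d χ hal
    rw [← Finset.add_sum_erase _ _ (Finset.mem_univ d)] at hsum1
    linarith
  have := congrArg (T.val χ) (hg0 c)
  rw [(isRA_one.sub hgsum).val_mul χ (hq2 c).ra, hc, mul_one, val_zero, isRA_one.val_sub χ hgsum,
    val_one, sub_eq_zero, val_sum χ _ _ fun d _ => (hg d).1] at this
  exact this.symm

/-- The average second order coefficient along fine partitions is eventually negative. -/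
lemma eventually_mean_lt (hsing : T.Singular) {f g : Fin p.r → M} (hf : ∀ c, T.AProj (f c))
    (hg : ∀ c, T.AProj (g c)) (hfg : ∀ c, f c * g c = 0)
    (hsum : ∀ χ : T.Chi, T.val χ (S.movable U) = 1 →
      ∑ c, T.val χ (f c) = 1 ∧ ∑ c, T.val χ (g c) = 1)
    (hm : p.δ ≤ T.tr (S.movable U)) :
    ∀ᶠ P : T.Part in atTop,
      ∑ i, S.qd U (fun c => S.movable U * (f c - g c) * P.e i) < -(p.a * p.δ) := by
  set m := S.movable U with hmdef
  have hmP := aproj_movable hp hS hU
  set u : Fin p.r → M := fun c => m * (f c - g c) with hu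
  have huR : ∀ c, T.IsRA (u c) := fun c => hmP.ra.mul ((hf c).ra.sub (hg c).ra)
  set bb : Fin p.r → M := fun c => S.dF c * u c with hbb
  have hbR : ∀ c, T.IsRA (bb c) := fun c => (isRA_dF hS c).mul (huR c)
  set sd : Fin p.r → M := fun c => cfc p.sdF (S.w c) with hsd
  have hsdR : ∀ c, T.IsRA (sd c) := fun c => (isRA_w hS c).cfc _
  set Wp : Fin p.r → Bool → M := fun c b => sd c * (m * f c) * S.Yo U c b with hWp
  set Wn : Fin p.r → Bool → M := fun c b => sd c * (m * g c) * S.Yo U c b with hWn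
  set K : Fin p.r → Bool → M := fun c b => (S.t U c b - S.kap c) * (bb c * bb c) with hK
  have hKR : ∀ c b, T.IsRA (K c b) := fun c b =>
    ((isRA_t hp hS hU c b).sub (isRA_kap hS c)).mul ((hbR c).mul (hbR c))
  set up : T.Part → ℝ := fun P =>
    ∑ c, ∑ b, (p.a ^ 2 * T.tr (S.G U c b * U b * bb c * pinch P (S.Y U c b) * bb c * (U b * S.G U c b)
        - S.G U c b * (U b * (S.kap c * (bb c * bb c)) * U b) * S.G U c b) +
      2 * T.tr (S.pen U c b * (S.qi U c b * S.qi U c b * (T.E (S.Yo U c b * K c b * S.Yo U c b) +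
        T.E (S.Yo U c b * bb c * pinch P (S.Yo U c b) * (bb c) * S.Yo U c b)))) +
      (2 * T.mass (Wp c b) P + 2 * T.mass (Wn c b) P)) - p.a * ∑ c, T.tr (u c * u c) with hup
  have hEYo : ∀ c b, T.E (S.Yo U c b) = 0 := fun c b => by
    rw [Yo, T.E_sub, T.E_of_mem (isRA_t hp hS hU c b).mem, ← t, sub_self]
  -- exact mean
  have hle : ∀ P : T.Part, ∑ i, S.qd U (fun c => u c * P.e i) ≤ up P := by
    intro P
    have hy : ∀ c i, S.y (fun c => u c * P.e i) c = bb c * P.e i := fun c i => y_mul u _ c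
    have hye : ∀ c i, bb c * P.e i * (bb c * P.e i) = bb c * bb c * P.e i := fun c i => by
      calc bb c * P.e i * (bb c * P.e i) = bb c * (P.e i * bb c) * P.e i := by noncomm_ring
        _ = bb c * bb c * (P.e i * P.e i) := by
          rw [T.A_comm _ (P.mem i) _ (hbR c).mem]; noncomm_ring
        _ = _ := by rw [(P.proj i).isIdempotentElem.eq]
    have hs0 : ∀ (c : Fin p.r) (X Z : M), ∑ i, X * (bb c * bb c * P.e i) * Z = X * (bb c * bb c) * Z :=
      fun c X Z => by
        rw [← Finset.sum_mul, ← Finset.mul_sum, ← Finset.mul_sum, P.sum_one, mul_one]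
    have eG : ∀ c b, ∑ i, S.g2 U (fun c => u c * P.e i) c b =
        S.G U c b * U b * bb c * pinch P (S.Y U c b) * bb c * (U b * S.G U c b) -
          S.G U c b * (U b * (S.kap c * (bb c * bb c)) * U b) * S.G U c b := fun c b => by
      simp only [g2, hy, Finset.sum_sub_distrib, hye]
      congr 1
      · rw [pinch, Finset.mul_sum, Finset.sum_mul, Finset.sum_mul]
        refine Finset.sum_congr rfl fun i _ => ?_
        rw [show S.G U c b * U b * bb c * (P.e i * S.Y U c b * P.e i) * bb c * (U b * S.G U c b) =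
          S.G U c b * U b * bb c * P.e i * S.Y U c b * (P.e i * bb c) * (U b * S.G U c b) by
            noncomm_ring, T.A_comm _ (P.mem i) _ (hbR c).mem, Y]
        noncomm_ring
      · rw [← Finset.sum_mul, ← Finset.mul_sum]
        congr 2
        rw [← Finset.sum_mul, ← Finset.mul_sum, ← Finset.mul_sum, ← Finset.mul_sum, P.sum_one,
          mul_one]
    have eL : ∀ c b, ∑ i, S.l2 U (fun c => u c * P.e i) c b =
        S.qi U c b * S.qi U c b * (T.E (S.Yo U c b * K c b * S.Yo U c b) +
          T.E (S.Yo U c b * bb c * pinch P (S.Yo U c b) * (bb c) * S.Yo U c b)) := fun c b => by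
      simp only [l2, dd, hy, hye, ← Finset.mul_sum, Finset.sum_add_distrib, ← T.E_sum]
      congr 2
      · congr 1
        rw [← Finset.sum_mul, ← Finset.mul_sum, ← Finset.mul_sum, ← Finset.mul_sum, P.sum_one,
          mul_one]
      · congr 1
        rw [pinch, Finset.mul_sum, Finset.sum_mul, Finset.sum_mul]
        refine Finset.sum_congr rfl fun i _ => ?_
        rw [show S.Yo U c b * bb c * (P.e i * S.Yo U c b * P.e i) * bb c * S.Yo U c b =
          S.Yo U c b * (bb c * P.e i) * S.Yo U c b * (P.e i * bb c) * S.Yo U c b by noncomm_ring,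
          T.A_comm _ (P.mem i) _ (hbR c).mem]
    have eM : ∀ c b, ∑ i, T.tr (S.l1 U (fun c => u c * P.e i) c b * S.l1 U (fun c => u c * P.e i) c b)
        ≤ 2 * T.mass (Wp c b) P + 2 * T.mass (Wn c b) P := fun c b => by
      rw [mass, mass, Finset.mul_sum, Finset.mul_sum, ← Finset.sum_add_distrib]
      refine Finset.sum_le_sum fun i _ => ?_
      have hYo := (IsSelfAdjoint.of_nonneg (Y_nonneg hp hS hU c b)).sub (isRA_t hp hS hU c b).sa
      have hhh : ∀ c, T.IsRA (u c * P.e i) := fun c => (huR c).mul (P.aproj i).ra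
      have hconj : ∀ k : M, T.AProj k → T.comp (sd c * (m * k) * S.Yo U c b) (P.e i) =
          T.E (S.Yo U c b * (S.dF c * (m * k) * P.e i) * S.Yo U c b) := fun k hk => by
        have hmk := hmP.mul hk
        rw [comp]
        congr 1
        rw [star_mul, ((hsdR c).mul hmk.ra).sa.star_eq, show star (S.Yo U c b) = S.Yo U c b from
          hYo.star_eq]
        have e : sd c * (m * k) * P.e i * (sd c * (m * k)) = S.dF c * (m * k) * P.e i := by
          have hl := (((hsdR c).mul hmk.ra).mul (P.aproj i).ra).mul ((hsdR c).mul hmk.ra)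
          refine hl.eq_of_val (((isRA_dF hS c).mul hmk.ra).mul (P.aproj i).ra) fun χ => ?_
          rw [(((hsdR c).mul hmk.ra).mul (P.aproj i).ra).val_mul χ ((hsdR c).mul hmk.ra),
            ((hsdR c).mul hmk.ra).val_mul χ (P.aproj i).ra, (hsdR c).val_mul χ hmk.ra,
            ((isRA_dF hS c).mul hmk.ra).val_mul χ (P.aproj i).ra,
            (isRA_dF hS c).val_mul χ hmk.ra, val_dF hp hS, hsd,
            (isRA_w hS c).val_cfc χ (WPrm.continuous_sdF hp), ← WPrm.sdF_sq hp]
          rcases hmk.ra.val_proj χ hmk.2 with hv | hv <;> rw [hv] <;> ring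
        calc S.Yo U c b * (sd c * (m * k)) * P.e i * (sd c * (m * k) * S.Yo U c b)
            = S.Yo U c b * (sd c * (m * k) * P.e i * (sd c * (m * k))) * S.Yo U c b := by
              noncomm_ring
          _ = _ := by rw [e]
      have hx : S.xi U (fun c => u c * P.e i) c b =
          T.comp (Wp c b) (P.e i) - T.comp (Wn c b) (P.e i) := by
        rw [hWp, hWn, hconj _ (hf c), hconj _ (hg c), ← T.E_sub, xi, hy]
        congr 1
        rw [← sub_mul, ← mul_sub, ← sub_mul, ← mul_sub, ← mul_sub, hbb, hu]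
      have hA := isRA_comp (W := Wp c b) (P.aproj i)
      have hB := isRA_comp (W := Wn c b) (P.aproj i)
      have hl := isRA_l1 hp hS hU hhh c b
      have hqq := (isRA_qi hp hS hU c b).mul (isRA_qi hp hS hU c b)
      rw [← T.tr_smul, ← T.tr_smul, ← T.tr_add]
      refine T.tr_mono ((hl.mul hl).le_of_val (((hA.mul hA).smul 2).add ((hB.mul hB).smul 2))
        fun χ => ?_)
      rw [hl.val_mul χ hl, ((hA.mul hA).smul 2).val_add χ ((hB.mul hB).smul 2), (hA.mul hA).val_smul,
        (hB.mul hB).val_smul, hA.val_mul χ hA, hB.val_mul χ hB, l1,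
        hqq.val_mul χ (isRA_xi hp hS hU hhh c b), (isRA_qi hp hS hU c b).val_mul χ
        (isRA_qi hp hS hU c b), hx, hA.val_sub χ hB]
      obtain ⟨q0, q1⟩ := val_qi_mem hp hS hU c b χ
      set q := T.val χ (S.qi U c b)
      set A := T.val χ (T.comp (Wp c b) (P.e i))
      set B := T.val χ (T.comp (Wn c b) (P.e i))
      have h1 : q * q ≤ 1 := by nlinarith
      have h2 : (q * q) * (q * q) ≤ 1 := by nlinarith
      nlinarith [mul_le_mul_of_nonneg_right h2 (mul_self_nonneg (A - B)), mul_self_nonneg (A + B)]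
    have eH : ∀ c, ∑ i, T.tr (u c * P.e i * (u c * P.e i)) = T.tr (u c * u c) := fun c => by
      rw [← T.tr_sum]
      congr 1
      have : ∀ i, u c * P.e i * (u c * P.e i) = u c * u c * P.e i := fun i => by
        calc u c * P.e i * (u c * P.e i) = u c * (P.e i * u c) * P.e i := by noncomm_ring
          _ = u c * u c * (P.e i * P.e i) := by
            rw [T.A_comm _ (P.mem i) _ (huR c).mem]; noncomm_ring
          _ = _ := by rw [(P.proj i).isIdempotentElem.eq]
      simp only [this, ← Finset.mul_sum, P.sum_one, mul_one]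
    simp only [qd, hup, Finset.sum_sub_distrib, ← Finset.mul_sum]
    refine sub_le_sub ?_ (le_of_eq ?_)
    · rw [Finset.sum_comm]
      refine Finset.sum_le_sum fun c _ => ?_
      rw [Finset.sum_comm]
      refine Finset.sum_le_sum fun b _ => ?_
      simp only [Finset.sum_add_distrib, ← Finset.mul_sum, ← T.tr_sum, eG, eL]
      rw [T.tr_sum]
      exact add_le_add le_rfl (eM c b)
    · rw [Finset.sum_comm]
      simp only [eH]
  -- limit of the upper bound
  set lim : ℝ := ∑ c, ∑ b, (p.a ^ 2 * T.tr (S.G U c b * U b * bb c * S.t U c b * bb c *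
        (U b * S.G U c b) - S.G U c b * (U b * (S.kap c * (bb c * bb c)) * U b) * S.G U c b) +
      2 * T.tr (S.pen U c b * (S.qi U c b * S.qi U c b * (T.E (S.Yo U c b * K c b * S.Yo U c b) +
        T.E (S.Yo U c b * bb c * 0 * (bb c) * S.Yo U c b)))) +
      (2 * 0 + 2 * 0)) - p.a * ∑ c, T.tr (u c * u c) with hlim
  have hup_lim : Tendsto up atTop (𝓝 lim) := by
    refine (tendsto_finsetSum _ fun c _ => tendsto_finsetSum _ fun b _ => ?_).sub tendsto_const_nhds
    have hWE : ∀ k : M, T.AProj k → T.E (sd c * (m * k) * S.Yo U c b) = 0 := fun k hk => by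
      rw [T.E_mul_left (mul_mem (hsdR c).mem (hmP.mul hk).1), hEYo, mul_zero]
    refine ((Tendsto.const_mul _ ?_).add (Tendsto.const_mul _ ?_)).add
      (((tendsto_mass hsing (hWE _ (hf c))).const_mul 2).add
        ((tendsto_mass hsing (hWE _ (hg c))).const_mul 2))
    · refine (((((T.tends_E (S.Y U c b)).const_mul _).mul_mem (hbR c).mem).mul_right
        (C := ‖S.G U c b * U b * bb c‖ * ‖S.Y U c b‖ * ‖bb c‖) ?_ _).sub
          (tends_const _)).tendsto_tr
      exact Eventually.of_forall fun P => norm_mul_le_of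
        (norm_mul_le_of le_rfl (norm_pinch_le P _)) le_rfl
    · refine ((((tends_const (T.E (S.Yo U c b * K c b * S.Yo U c b))).add
        (Tends.map_E ?_)).const_mul _).const_mul _).tendsto_tr
      have h0 := (T.tends_E (S.Yo U c b))
      rw [hEYo] at h0
      refine ((h0.const_mul (S.Yo U c b * bb c)).mul_mem (hbR c).mem).mul_right
        (C := ‖S.Yo U c b * bb c‖ * ‖S.Yo U c b‖ * ‖bb c‖) ?_ _
      exact Eventually.of_forall fun P => norm_mul_le_of
        (norm_mul_le_of le_rfl (norm_pinch_le P _)) le_rfl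
  have hlim_le : lim ≤ -(2 * p.a * p.δ) := by
    have hterm : ∀ c b, p.a ^ 2 * T.tr (S.G U c b * U b * bb c * S.t U c b * bb c *
          (U b * S.G U c b) - S.G U c b * (U b * (S.kap c * (bb c * bb c)) * U b) * S.G U c b) +
        2 * T.tr (S.pen U c b * (S.qi U c b * S.qi U c b * (T.E (S.Yo U c b * K c b * S.Yo U c b) +
          T.E (S.Yo U c b * bb c * 0 * (bb c) * S.Yo U c b)))) + (2 * 0 + 2 * 0) ≤ 0 := fun c b => by
      have hK0 : 0 ≤ -K c b := by
        refine (hKR c b).neg.nonneg_of_val fun χ => ?_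
        have ht := isRA_t hp hS hU c b
        have hk := isRA_kap hS c
        rw [(hKR c b).val_neg, hK, (ht.sub hk).val_mul χ ((hbR c).mul (hbR c)),
          (hbR c).val_mul χ (hbR c), ht.val_sub χ hk, hbb, (isRA_dF hS c).val_mul χ (huR c), hu,
          hmP.ra.val_mul χ ((hf c).ra.sub (hg c).ra)]
        rcases hmP.ra.val_proj χ hmP.2 with hv | hv
        · rw [hv]; simp
        · have := (movable_spec hp hS hU c b χ hv).2
          rw [hv, neg_nonneg]
          exact mul_nonpos_of_nonpos_of_nonneg (by linarith) (mul_self_nonneg _)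
      have hUs := IsSelfAdjoint.of_nonneg (hU.nonneg b)
      have hGs := IsSelfAdjoint.of_nonneg (G_nonneg hp hS hU c b)
      have e1 : S.G U c b * U b * bb c * S.t U c b * bb c * (U b * S.G U c b) -
          S.G U c b * (U b * (S.kap c * (bb c * bb c)) * U b) * S.G U c b =
          -(S.G U c b * (U b * (-K c b) * U b) * S.G U c b) := by
        have e : bb c * S.t U c b * bb c = S.t U c b * (bb c * bb c) := by
          rw [T.A_comm _ (hbR c).mem _ (isRA_t hp hS hU c b).mem, mul_assoc]
        rw [show S.G U c b * U b * bb c * S.t U c b * bb c * (U b * S.G U c b) =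
          S.G U c b * (U b * (bb c * S.t U c b * bb c) * U b) * S.G U c b by noncomm_ring, e, hK]
        noncomm_ring
      have hA := T.tr_nonneg (hGs.conjugate_nonneg (hUs.conjugate_nonneg hK0))
      have hpen := isRA_pen hp hS hU c b
      have hqq := (isRA_qi hp hS hU c b).mul (isRA_qi hp hS hU c b)
      have hYo : IsSelfAdjoint (S.Yo U c b) :=
        (IsSelfAdjoint.of_nonneg (Y_nonneg hp hS hU c b)).sub (isRA_t hp hS hU c b).sa
      have hEK := T.E_nonneg (hYo.conjugate_nonneg hK0)
      have hEKR : T.IsRA (T.E (S.Yo U c b * (-K c b) * S.Yo U c b)) :=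
        ⟨T.E_mem _, IsSelfAdjoint.of_nonneg hEK⟩
      have hB : 0 ≤ T.tr (S.pen U c b * (S.qi U c b * S.qi U c b *
          T.E (S.Yo U c b * (-K c b) * S.Yo U c b))) := by
        refine T.tr_nonneg ((hpen.mul (hqq.mul hEKR)).nonneg_of_val fun χ => ?_)
        rw [hpen.val_mul χ (hqq.mul hEKR), hqq.val_mul χ hEKR, val_pen hp hS hU,
          (isRA_qi hp hS hU c b).val_mul χ (isRA_qi hp hS hU c b)]
        exact mul_nonneg (le_max_right _ _) (mul_nonneg (mul_self_nonneg _)
          (val_nonneg χ hEKR.mem hEK))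
      simp only [mul_zero, zero_mul, T.E_zero, add_zero, e1, T.tr_neg, mul_neg, neg_mul, T.E_neg]
        at hA hB ⊢
      nlinarith [mul_nonneg (sq_nonneg p.a) hA]
    have hu2 : 2 * p.δ ≤ ∑ c, T.tr (u c * u c) := by
      rw [← T.tr_sum]
      refine le_trans ?_ (T.tr_mono ((hmP.ra.smul (2 : ℝ)).le_of_val
        (isRA_sum fun c _ => (huR c).mul (huR c)) fun χ => ?_))
      · rw [T.tr_smul]; linarith
      rw [hmP.ra.val_smul, val_sum χ _ _ fun c _ => ((huR c).mul (huR c)).mem]
      rcases hmP.ra.val_proj χ hmP.2 with hv | hv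
      · rw [hv, mul_zero]
        exact Finset.sum_nonneg fun c _ => by rw [(huR c).val_mul χ (huR c)]; exact mul_self_nonneg _
      · obtain ⟨h1, h2⟩ := hsum χ hv
        have e : ∀ c, T.val χ (u c * u c) = T.val χ (f c) + T.val χ (g c) := fun c => by
          rw [(huR c).val_mul χ (huR c), hu, hmP.ra.val_mul χ ((hf c).ra.sub (hg c).ra),
            (hf c).ra.val_sub χ (hg c).ra, hv, one_mul]
          have h0 := congrArg (T.val χ) (hfg c)
          rw [(hf c).ra.val_mul χ (hg c).ra, val_zero] at h0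
          rcases (hf c).ra.val_proj χ (hf c).2 with a | a <;>
            rcases (hg c).ra.val_proj χ (hg c).2 with b | b <;>
            rw [a, b] at h0 ⊢ <;> linarith
        rw [Finset.sum_congr rfl fun c _ => e c, Finset.sum_add_distrib, h1, h2, hv]
        norm_num
    have h0 := Finset.sum_nonpos fun c (_ : c ∈ Finset.univ) =>
      Finset.sum_nonpos fun b (_ : b ∈ Finset.univ) => hterm c b
    rw [hlim]
    nlinarith [hp.a_pos]
  have had : 0 < p.a * p.δ := mul_pos hp.a_pos hp.δ_pos
  exact (hup_lim.eventually (gt_mem_nhds (by linarith : lim < -(p.a * p.δ)))).mono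
    fun P hP => (hle P).trans_lt hP

/-- A direction along which the potential decreases at second order. -/
theorem exists_direction (hsing : T.Singular) (hm : p.δ ≤ T.tr (S.movable U)) :
    ∃ h : Fin p.r → M, (∀ c, T.IsRA (h c)) ∧ (∀ c, ‖h c‖ ≤ 2) ∧ ∑ c, h c = 0 ∧
      (∀ s : ℝ, 0 ≤ s → s ≤ 1 / (4 * (p.r : ℝ)) → ∀ c, 0 ≤ S.w c + s • h c) ∧
      S.lin U h ≤ 0 ∧ S.qd U h ≤ -(p.a * p.δ) := by
  obtain ⟨f, g, hf, hg, hfg, hsum, hsupp⟩ := exists_pair hp hS hU
  obtain ⟨P, hP⟩ := (eventually_mean_lt hp hS hU hsing hf hg hfg hsum hm).exists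
  set u : Fin p.r → M := fun c => S.movable U * (f c - g c) with hu
  have hmP := aproj_movable hp hS hU
  have huR : ∀ c, T.IsRA (u c) := fun c => hmP.ra.mul ((hf c).ra.sub (hg c).ra)
  obtain ⟨σ, hσ⟩ := exists_signs (fun v : M => S.qd U (fun c => u c * v))
    (by simp [qd, g2, l1, l2, xi, dd, y, T.E_zero, T.tr_zero])
    (fun a b => by
      simp only [mul_add, mul_sub]
      exact qd_par _ _) P.e Finset.univ
  obtain ⟨hsR, hsn, hs1⟩ := sign_sum_spec P σ
  set v := ∑ i, if σ i then P.e i else -P.e i with hv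
  have huv : ∀ c (χ : T.Chi), |T.val χ (u c)| ≤ 1 ∧
      (T.val χ (u c) = 0 ∨ 1 / (4 * (p.r : ℝ)) ≤ T.val χ (S.w c)) := fun c χ => by
    rw [hu, hmP.ra.val_mul χ ((hf c).ra.sub (hg c).ra), (hf c).ra.val_sub χ (hg c).ra]
    rcases hmP.ra.val_proj χ hmP.2 with a | a <;>
      rcases (hf c).ra.val_proj χ (hf c).2 with b | b <;>
      rcases (hg c).ra.val_proj χ (hg c).2 with d | d <;>
      refine ⟨by rw [a, b, d]; norm_num, ?_⟩
    all_goals
      first
      | (left; rw [a, b, d]; norm_num; done)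
      | exact Or.inr (hsupp c χ (Or.inl b))
      | exact Or.inr (hsupp c χ (Or.inr d))
  have hun : ∀ c, ‖u c‖ ≤ 1 := fun c => (huR c).norm_le zero_le_one fun χ => (huv c χ).1
  have hzero : ∑ c, u c = 0 := by
    refine (isRA_sum fun c _ => huR c).eq_of_val isRA_zero fun χ => ?_
    rw [val_sum χ _ _ fun c _ => (huR c).mem, val_zero]
    have e : ∀ c, T.val χ (u c) =
        T.val χ (S.movable U) * (T.val χ (f c) - T.val χ (g c)) := fun c => by
      rw [hu, hmP.ra.val_mul χ ((hf c).ra.sub (hg c).ra), (hf c).ra.val_sub χ (hg c).ra]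
    rw [Finset.sum_congr rfl fun c _ => e c, ← Finset.mul_sum, Finset.sum_sub_distrib]
    rcases hmP.ra.val_proj χ hmP.2 with a | a
    · rw [a, zero_mul]
    · rw [(hsum χ a).1, (hsum χ a).2, sub_self, mul_zero]
  have hfin : ∀ z : M, T.IsRA z → ‖z‖ ≤ 1 → S.lin U (fun c => u c * z) ≤ 0 →
      S.qd U (fun c => u c * z) ≤ -(p.a * p.δ) →
      ∃ h : Fin p.r → M, (∀ c, T.IsRA (h c)) ∧ (∀ c, ‖h c‖ ≤ 2) ∧ ∑ c, h c = 0 ∧
        (∀ s : ℝ, 0 ≤ s → s ≤ 1 / (4 * (p.r : ℝ)) → ∀ c, 0 ≤ S.w c + s • h c) ∧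
        S.lin U h ≤ 0 ∧ S.qd U h ≤ -(p.a * p.δ) := by
    intro z hz hzn hlin hq
    refine ⟨fun c => u c * z, fun c => (huR c).mul hz, fun c => ?_, ?_, fun s hs hsr c => ?_,
      hlin, hq⟩
    · exact (norm_mul_le_of (hun c) hzn).trans (by norm_num)
    · rw [← Finset.sum_mul, hzero, zero_mul]
    · refine ((isRA_w hS c).add (((huR c).mul hz).smul s)).nonneg_of_val fun χ => ?_
      rw [(isRA_w hS c).val_add χ (((huR c).mul hz).smul s), ((huR c).mul hz).val_smul,
        (huR c).val_mul χ hz]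
      have hw0 := (val_w hS c χ).1
      rcases (huv c χ).2 with h0 | h0
      · rw [h0]; simpa using hw0
      · have hz1 := (hz.abs_val_le χ).trans hzn
        have : |T.val χ (u c) * T.val χ z| ≤ 1 := by
          rw [abs_mul]; exact mul_le_one₀ (huv c χ).1 (abs_nonneg _) hz1
        nlinarith [(abs_le.1 this).1]
  have hqv : S.qd U (fun c => u c * v) ≤ -(p.a * p.δ) := hσ.trans hP.le
  rcases le_total (S.lin U (fun c => u c * v)) 0 with h | h
  · exact hfin v hsR hsn h hqv
  · have e : (fun c => u c * -v) = fun c => -(u c * v) := funext fun c => mul_neg _ _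
    refine hfin (-v) hsR.neg (by rwa [norm_neg]) ?_ ?_
    · rw [e, lin_neg]; linarith
    · rw [e, qd_neg]; exact hqv

end WState

end SMasa

end Vale.Agent.P078.Sing
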