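import Mathlib
import Vale.Agent.P078.Sing.WalkDir

/-!
# The walk, run until almost nothing is alive
-/

open scoped ComplexOrder InnerProductSpace Topology
open Filter

set_option linter.unusedSectionVars false

namespace Vale.Agent.P078.Sing

open Vale.Agent.P078 (capInv capInv_mul_self norm_capInv_le)

universe u

variable {M : Type u} [CStarAlgebra M] [PartialOrder M] [StarOrderedRing M]

namespace SMasa

variable {T : SMasa M} {p : WPrm}

/-- Trace of a spectral projection of a nonnegative element. -/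
lemma smul_tr_cut_le {b : M} (hb : 0 ≤ b) (θ : ℝ) : θ * T.tr (T.cut b θ) ≤ T.tr b := by
  have hbs := IsSelfAdjoint.of_nonneg hb
  have hc : IsStarProjection (T.cut b θ) := T.cut_isStarProjection θ b
  have hcomm : Commute (T.cut b θ) b := T.commute_cut θ (Commute.refl b)
  have h1 : 0 ≤ b - b * T.cut b θ := by
    have h2 := hc.one_sub.isSelfAdjoint.conjugate_nonneg hb
    have e : (1 - T.cut b θ) * b * (1 - T.cut b θ) = b - b * T.cut b θ := by
      rw [sub_mul, one_mul, hcomm.eq, mul_sub, mul_one, sub_mul, mul_assoc b (T.cut b θ),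
        hc.isIdempotentElem.eq]
      abel
    rwa [e] at h2
  rw [← T.tr_smul]
  exact T.tr_mono ((T.smul_cut_le θ hbs).trans (sub_nonneg.1 h1))

namespace WState

variable {S : T.WState p} {U : Bool → M} (hp : p.Good) (hS : S.Inv U) (hU : GoodU T U)
include hp hS hU

lemma tr_stuck_le : p.sl ^ 2 * T.tr (S.stuck U) ≤
    2 * ∑ c, ∑ b, T.tr (S.pen U c b * S.pen U c b) := by
  have hc := fun c b => aproj_cut (T := T) (isRA_pen hp hS hU c b).mem p.sl
  have h1 := smul_tr_cut_le (T := T) (Finset.sum_nonneg fun c (_ : c ∈ Finset.univ) =>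
    Finset.sum_nonneg fun b (_ : b ∈ Finset.univ) => (hc c b).2.nonneg) (1 / 2)
  have h2 : ∀ c b, p.sl ^ 2 * T.tr (T.cut (S.pen U c b) p.sl) ≤
      T.tr (S.pen U c b * S.pen U c b) := fun c b => by
    have hpen := isRA_pen hp hS hU c b
    rw [← T.tr_smul]
    refine T.tr_mono (((hc c b).ra.smul _).le_of_val (hpen.mul hpen) fun χ => ?_)
    rw [(hc c b).ra.val_smul, hpen.val_mul χ hpen]
    rcases (hc c b).ra.val_proj χ (hc c b).2 with h | h
    · rw [h, mul_zero]; exact mul_self_nonneg _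
    · have h3 := le_val_of_cut χ hpen.mem hpen.sa h
      rw [h, mul_one, sq]
      exact mul_self_le_mul_self hp.sl_pos.le h3
  have h3 := Finset.sum_le_sum fun c (_ : c ∈ Finset.univ) =>
    Finset.sum_le_sum fun b (_ : b ∈ Finset.univ) => h2 c b
  simp only [← Finset.mul_sum] at h3
  rw [← Finset.sum_congr rfl fun c _ => T.tr_sum Finset.univ fun b => T.cut (S.pen U c b) p.sl,
    ← T.tr_sum] at h3
  change p.sl ^ 2 * T.tr (T.cut _ (1 / 2)) ≤ _
  nlinarith [mul_le_mul_of_nonneg_left h1 (sq_nonneg p.sl)]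

lemma tr_alive_le : T.tr S.alive ≤ T.tr (S.movable U) + T.tr (S.stuck U) := by
  have hA := aproj_alive hp hS hU
  have hK := aproj_stuck hp hS hU
  have hm := aproj_movable hp hS hU
  rw [← T.tr_add]
  refine T.tr_mono (hA.ra.le_of_val (hm.ra.add hK.ra) fun χ => ?_)
  rw [hm.ra.val_add χ hK.ra, movable, hA.ra.val_mul χ hK.one_sub.ra, isRA_one.val_sub χ hK.ra,
    val_one]
  rcases hA.ra.val_proj χ hA.2 with h | h <;> rcases hK.ra.val_proj χ hK.2 with h' | h' <;>
    rw [h, h'] <;> norm_num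

lemma sum_tr_sq_le : ∑ c, T.tr (S.w c * S.w c) ≤ 1 := by
  calc ∑ c, T.tr (S.w c * S.w c) ≤ ∑ c, T.tr (S.w c) := Finset.sum_le_sum fun c _ => by
        have hw := isRA_w hS c
        refine T.tr_mono ((hw.mul hw).le_of_val hw fun χ => ?_)
        rw [hw.val_mul χ hw]
        obtain ⟨h0, h1⟩ := val_w hS c χ
        exact mul_le_of_le_one_left h0 h1
    _ = 1 := by rw [← T.tr_sum, hS.w_sum, T.tr_one]

/-- What a bound on the potential gives. -/
lemma bounds_of_pot {B : ℝ} (hpot : S.pot U ≤ B) :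
    ∑ c, ∑ b, T.tr (S.R c b) ≤ B + p.a ∧ p.sl ^ 2 * T.tr (S.stuck U) ≤ 2 * (B + p.a) ∧
      -p.a ≤ S.pot U := by
  have hG : 0 ≤ ∑ c, ∑ b, p.a ^ 2 * T.tr (S.G U c b) := Finset.sum_nonneg fun c _ =>
    Finset.sum_nonneg fun b _ => mul_nonneg (sq_nonneg _) (T.tr_nonneg (G_nonneg hp hS hU c b))
  have hR : 0 ≤ ∑ c, ∑ b, T.tr (S.R c b) := Finset.sum_nonneg fun c _ =>
    Finset.sum_nonneg fun b _ => T.tr_nonneg (hS.R_nonneg c b)
  have hP : 0 ≤ ∑ c, ∑ b, T.tr (S.pen U c b * S.pen U c b) := Finset.sum_nonneg fun c _ =>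
    Finset.sum_nonneg fun b _ => T.tr_nonneg (by
      have := (isRA_pen hp hS hU c b).sa
      conv => arg 2; arg 1; rw [← this.star_eq]
      exact star_mul_self_nonneg _)
  have hw : p.a * ∑ c, T.tr (S.w c * S.w c) ≤ p.a := by
    exact mul_le_of_le_one_right hp.a_pos.le (sum_tr_sq_le hp hS hU)
  have hst := tr_stuck_le hp hS hU
  simp only [pot, Finset.sum_add_distrib] at hpot ⊢
  refine ⟨?_, ?_, ?_⟩ <;> linarith

end WState

/-- The walk, run until almost nothing is alive. -/
theorem exists_finished (hp : p.Good) (hsing : T.Singular) {U : Bool → M} (hU : GoodU T U) :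
    ∃ S : T.WState p, S.Inv U ∧ T.tr S.alive ≤ p.δ + 6 * (p.r : ℝ) * p.a / p.sl ^ 2 ∧
      ∑ c, ∑ b, T.tr (S.R c b) ≤ 3 * (p.r : ℝ) * p.a := by
  have he := hp.e_pos
  have ha := hp.a_pos
  have hr : (0 : ℝ) < p.r := by linarith [hp.r_ge_sixty]
  have hr1 : (1 : ℝ) ≤ p.r := by linarith [hp.r_ge_sixty]
  obtain ⟨C, s0, hC, hs0, hexp⟩ := exists_expand (T := T) hp
  set d0 := p.a * p.δ with hd0
  have hd0p : 0 < d0 := mul_pos ha hp.δ_pos
  set s := min (min s0 (1 / (4 * (p.r : ℝ)))) (d0 / (2 * (C + 1))) with hs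
  have hsp : 0 < s := by positivity
  set d := d0 / 2 * s ^ 2 with hd
  have hdp : 0 < d := by positivity
  have hdec : ∀ S : T.WState p, S.Inv U → p.δ ≤ T.tr (S.movable U) →
      ∃ S' : T.WState p, S'.Inv U ∧ S'.pot U ≤ S.pot U - d := by
    intro S hS hm
    obtain ⟨h, hh, hhn, hsum, hnn, hlin, hq⟩ := WState.exists_direction hp hS hU hsing hm
    obtain ⟨S', hI, hle⟩ := hexp U hU S hS h hh hhn hsum s hsp.le
      ((min_le_left _ _).trans (min_le_left _ _))
      (hnn s hsp.le ((min_le_left _ _).trans (min_le_right _ _)))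
    refine ⟨S', hI, hle.trans ?_⟩
    have h1 : s * S.lin U h ≤ 0 := mul_nonpos_of_nonneg_of_nonpos hsp.le hlin
    have h2 : s ^ 2 * S.qd U h ≤ s ^ 2 * -d0 := mul_le_mul_of_nonneg_left hq (sq_nonneg s)
    have h3 : s * (2 * (C + 1)) ≤ d0 := (le_div_iff₀ (by positivity)).1 (min_le_right _ _)
    have h4 : C * s ≤ d0 / 2 := by linarith [hsp]
    have h5 := mul_le_mul_of_nonneg_right h4 (sq_nonneg s)
    rw [hd]
    linarith
  -- the initial state
  set S0 : T.WState p := ⟨fun _ => ((1 : ℝ) / p.r) • (1 : M), fun _ _ => 0⟩ with hS0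
  set f0 := p.Ff (1 / p.r) with hf0
  have hf00 : 0 ≤ f0 := (WPrm.Ff_mem hp _).1
  have hf0e : f0 ≤ p.e / 10 := by
    have hC' := hp.C_pos
    rw [hf0, WPrm.Ff, max_eq_left (by positivity)]
    refine (div_le_self (by have := hp.β_pos; positivity)
      (le_add_of_nonneg_right (by positivity))).trans ?_
    calc p.β * p.C * (1 / p.r) ≤ 1 * p.C * (1 / p.r) := by gcongr; exact hp.β_le
      _ ≤ p.e / 10 := by
        have h1 := (div_le_iff₀ (pow_pos he 2)).1 hp.r_ge
        rw [WPrm.C, one_mul, div_mul_div_comm, mul_one, div_le_div_iff₀ (by positivity) (by norm_num)]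
        nlinarith
  have hcap : 0 < 1 - 4 * f0 := by linarith [hp.e_le]
  have hF0 : ∀ c, S0.F c = f0 • (1 : M) := fun c => by
    show cfc p.Ff (((1 : ℝ) / p.r) • (1 : M)) = _
    rw [← Algebra.algebraMap_eq_smul_one, cfc_algebraMap _ p.Ff, Algebra.algebraMap_eq_smul_one]
  have hH0 : ∀ c b, (1 - 4 * f0) • (1 : M) ≤ S0.H U c b := fun c b => by
    have hUs := IsSelfAdjoint.of_nonneg (hU.nonneg b)
    show _ ≤ 1 - U b * S0.F c * U b + 0
    rw [hF0, add_zero, mul_smul_comm, mul_one, smul_mul_assoc, sub_smul, one_smul]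
    refine sub_le_sub le_rfl ((smul_le_smul_of_nonneg_left
      (le_norm_smul_one ((IsSelfAdjoint.commute_iff hUs hUs).1 rfl)) hf00).trans ?_)
    rw [smul_smul]
    refine smul_le_smul_of_nonneg_right ?_ zero_le_one
    have := mul_le_mul_of_nonneg_left (norm_mul_le_of (hU.norm_le b) (hU.norm_le b)) hf00
    linarith
  have hI0 : S0.Inv U :=
    { w_mem := fun _ => T.real_smul_mem_A (one_mem _) _
      w_nonneg := fun _ => smul_nonneg (by positivity) zero_le_one
      w_sum := by
        show ∑ _c : Fin p.r, ((1 : ℝ) / p.r) • (1 : M) = 1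
        rw [Finset.sum_const, Finset.card_univ, Fintype.card_fin, ← Nat.cast_smul_eq_nsmul ℝ,
          smul_smul, mul_one_div_cancel hr.ne', one_smul]
      R_nonneg := fun _ _ => le_rfl
      barrier := fun c b => (smul_le_smul_of_nonneg_right
        (show p.a ≤ 1 - 4 * f0 by linarith [hp.a_le, hp.e_le]) zero_le_one).trans (hH0 c b) }
  have hpot0 : S0.pot U ≤ 2 * p.r * p.a := by
    have hpen0 : ∀ c b, S0.pen U c b = 0 := fun c b => by
      refine (WState.isRA_pen hp hI0 hU c b).eq_of_val isRA_zero fun χ => ?_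
      rw [WState.val_pen hp hI0 hU, val_zero]
      refine max_eq_right ?_
      set t := T.val χ (S0.t U c b) with htdef
      have hsa := WState.isSelfAdjoint_H hp hI0 hU c b
      have hG : S0.G U c b = capInv (1 - 4 * f0) (S0.H U c b) := by
        have h1 := (capInv_mul_self ha hsa (hI0.barrier c b)).1
        have h2 := (capInv_mul_self hcap hsa (hH0 c b)).2
        calc S0.G U c b = S0.G U c b * (S0.H U c b * capInv (1 - 4 * f0) (S0.H U c b)) := by
              rw [h2, mul_one]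
          _ = S0.G U c b * S0.H U c b * capInv (1 - 4 * f0) (S0.H U c b) := (mul_assoc _ _ _).symm
          _ = _ := by rw [WState.G, h1, one_mul]
      have hGle : S0.G U c b ≤ (1 / (1 - 4 * f0)) • (1 : M) := by
        rw [hG]
        refine (le_norm_smul_one (cfc_predicate _ _)).trans
          (smul_le_smul_of_nonneg_right ?_ zero_le_one)
        rw [one_div]
        exact norm_capInv_le hcap _
      have hY := T.E_mono ((IsSelfAdjoint.of_nonneg (hU.nonneg b)).conjugate_le_conjugate hGle)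
      rw [mul_smul_comm, mul_one, smul_mul_assoc, T.E_smul_real, hU.diag b] at hY
      have h1 := val_mono χ (T.E_mem _) (T.real_smul_mem_A (one_mem _) _) hY
      rw [val_smul_one] at h1
      have h2 : scav t (p.Ff (T.val χ (S0.w c))) ≤ t :=
        div_le_self (WState.val_t_nonneg hp hI0 hU c b χ) (by
          nlinarith [(WPrm.Ff_mem hp (T.val χ (S0.w c))).1, WState.val_t_nonneg hp hI0 hU c b χ])
      have h3 : 1 / (1 - 4 * f0) ≤ p.T1 := by
        rw [div_le_iff₀ hcap, WPrm.T1]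
        nlinarith [hp.e_le]
      have h4 : t ≤ 1 / (1 - 4 * f0) := h1
      linarith
    have hterm : ∀ c b, p.a ^ 2 * T.tr (S0.G U c b) + T.tr (S0.R c b) +
        T.tr (S0.pen U c b * S0.pen U c b) ≤ p.a := fun c b => by
      rw [hpen0, mul_zero]
      show _ + T.tr (0 : M) + _ ≤ _
      rw [T.tr_zero, add_zero, add_zero]
      have h1 := (le_abs_self _).trans ((T.abs_tr_le_norm _).trans (WState.norm_G_le hp hI0 hU c b))
      refine (mul_le_mul_of_nonneg_left h1 (sq_nonneg _)).trans_eq ?_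
      field_simp
    have hsum := Finset.sum_le_sum fun c (_ : c ∈ Finset.univ) =>
      Finset.sum_le_sum fun b (_ : b ∈ Finset.univ) => hterm c b
    simp only [Finset.sum_const, Finset.card_univ, Fintype.card_fin, Fintype.card_bool,
      nsmul_eq_mul] at hsum
    push_cast at hsum
    have hw : 0 ≤ p.a * ∑ c, T.tr (S0.w c * S0.w c) := mul_nonneg ha.le
      (Finset.sum_nonneg fun c _ => T.tr_nonneg (by
        conv => arg 2; arg 1; rw [← (WState.isRA_w hI0 c).sa.star_eq]
        exact star_mul_self_nonneg _))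
    simp only [WState.pot]
    linarith
  by_contra hcon
  push Not at hcon
  have hgood : ∀ S : T.WState p, S.Inv U → S.pot U ≤ 2 * p.r * p.a → p.δ ≤ T.tr (S.movable U) := by
    intro S hS hpot
    obtain ⟨hR, hst, -⟩ := WState.bounds_of_pot hp hS hU hpot
    by_contra hlt
    have h1 := hcon S hS
    have hK : 2 * (p.r : ℝ) * p.a + p.a ≤ 3 * p.r * p.a := by nlinarith
    have h2 : T.tr (S.stuck U) ≤ 6 * (p.r : ℝ) * p.a / p.sl ^ 2 := by
      rw [le_div_iff₀ (pow_pos hp.sl_pos 2)]; nlinarith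
    have h3 := WState.tr_alive_le hp hS hU
    have h4 := h1 (by linarith)
    linarith
  have hiter : ∀ n : ℕ, ∃ S : T.WState p, S.Inv U ∧ S.pot U ≤ 2 * p.r * p.a - n * d := by
    intro n
    induction n with
    | zero => exact ⟨S0, hI0, by simpa using hpot0⟩
    | succ n ih =>
      obtain ⟨S, hI, hle⟩ := ih
      have hnd : 0 ≤ (n : ℝ) * d := by positivity
      obtain ⟨S', hI', hle'⟩ := hdec S hI (hgood S hI (by linarith))
      exact ⟨S', hI', by push_cast; linarith⟩
  obtain ⟨n, hn⟩ := exists_nat_gt ((2 * p.r * p.a + p.a) / d)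
  obtain ⟨S, hI, hle⟩ := hiter n
  rw [div_lt_iff₀ hdp] at hn
  have hnd : 0 ≤ (n : ℝ) * d := by positivity
  obtain ⟨-, -, hlow⟩ := WState.bounds_of_pot hp hI hU (B := 2 * p.r * p.a) (by linarith)
  linarith

end SMasa

end Vale.Agent.P078.Sing
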