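import Mathlib
import Vale.Agent.P078.Sing.WalkRun
import Vale.Agent.P078.Sing.WalkSpec

/-!
# From a finished state of the walk to a paving
-/

open scoped ComplexOrder InnerProductSpace Topology
open Filter

set_option linter.unusedSectionVars false

namespace Vale.Agent.P078.Sing

universe u

variable {M : Type u} [CStarAlgebra M] [PartialOrder M] [StarOrderedRing M]

namespace SMasa

variable {T : SMasa M} {p : WPrm}

lemma norm_le_of_two_sided {z : M} {c : ℝ} (hz : IsSelfAdjoint z) (hc : 0 ≤ c)
    (h1 : z ≤ c • (1 : M)) (h2 : -z ≤ c • (1 : M)) : ‖z‖ ≤ c := by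
  have h2' : (-c) • (1 : M) ≤ z := by rw [neg_smul]; exact neg_le.1 h2
  have e1 := (le_algebraMap_iff_spectrum_le (r := c) (a := z)).1 (by
    rwa [Algebra.algebraMap_eq_smul_one])
  have e2 := (algebraMap_le_iff_le_spectrum (r := -c) (a := z)).1 (by
    rwa [Algebra.algebraMap_eq_smul_one])
  rw [← cfc_id' ℝ z]
  exact norm_cfc_le hc fun x hx => by
    rw [Real.norm_eq_abs]; exact abs_le.2 ⟨e2 x hx, e1 x hx⟩

/-- Compressing `U U` under a cell whose conjugate is bounded outside a small projection. -/
lemma cell_square_le {U e q : M} {c : ℝ} (hU : IsSelfAdjoint U) (he : IsStarProjection e)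
    (hq : IsStarProjection q) (hc : 0 ≤ c) (h : q * (U * e * U) * q ≤ c • (1 : M)) :
    e * (U * U) * e ≤ c • e + e * (U * (1 - q) * U) * e := by
  set X := q * U * e with hX
  have hXs : star X = e * U * q := by
    rw [hX, star_mul, star_mul, hq.isSelfAdjoint.star_eq, hU.star_eq, he.isSelfAdjoint.star_eq,
      mul_assoc]
  have h1 : X * star X = q * (U * e * U) * q := by
    rw [hXs, hX]
    calc q * U * e * (e * U * q) = q * (U * (e * e) * U) * q := by noncomm_ring
      _ = _ := by rw [he.isIdempotentElem.eq]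
  have h2 : ‖star X * X‖ ≤ c := by
    rw [CStarRing.norm_star_mul_self, ← CStarRing.norm_self_mul_star (x := X), h1]
    refine norm_le_of_two_sided (IsSelfAdjoint.conjugate_self
      (IsSelfAdjoint.conjugate_self he.isSelfAdjoint hU) hq.isSelfAdjoint) hc h ?_
    exact (neg_nonpos.2 (hq.isSelfAdjoint.conjugate_nonneg (hU.conjugate_nonneg he.nonneg))).trans
      (smul_nonneg hc zero_le_one)
  have h3 : star X * X ≤ c • (1 : M) :=
    (le_norm_smul_one (IsSelfAdjoint.star_mul_self X)).trans
      (smul_le_smul_of_nonneg_right h2 zero_le_one)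
  have h4 := he.isSelfAdjoint.conjugate_le_conjugate h3
  rw [mul_smul_comm, mul_one, smul_mul_assoc, he.isIdempotentElem.eq] at h4
  have h5 : e * (star X * X) * e = e * (U * q * U) * e := by
    rw [hXs, hX]
    calc e * (e * U * q * (q * U * e)) * e = (e * e) * (U * (q * q) * U) * (e * e) := by
          noncomm_ring
      _ = _ := by rw [he.isIdempotentElem.eq, hq.isIdempotentElem.eq]
  rw [h5] at h4
  have e : e * (U * U) * e = e * (U * q * U) * e + e * (U * (1 - q) * U) * e := by noncomm_ring
  rw [e]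
  exact add_le_add h4 le_rfl

/-- The cells of a finished state. -/
lemma exists_cells (hp : p.Good) {U : Bool → M} (hU : GoodU T U) {S : T.WState p} (hS : S.Inv U) :
    ∃ P : T.Part, P.n ≤ p.r + 1 ∧ ∀ b, ∃ D : M, 0 ≤ D ∧
      pinch P (U b * U b) ≤ (1 + 3 * p.e) • (1 : M) + D ∧
      ∀ η : ℝ, (∀ z : M, IsStarProjection z → p.e * T.tr z ≤ 3 * ∑ c, T.tr (S.R c b) →
        T.n2 (z * U b) ≤ η) → T.tr D ≤ η ^ 2 + 4 * T.tr S.alive := by
  have he := hp.e_pos
  have hA := WState.aproj_alive hp hS hU
  have hq := fun c => aproj_cut (T := T) (hS.w_mem c) (1 / 2)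
  obtain ⟨f, hfA, hfP, hfo, hfq, hf0⟩ := T.exists_first_hit (fun c => T.cut (S.w c) (1 / 2))
    (fun c => (hq c).1) (fun c => (hq c).2)
  have hf : ∀ c, T.AProj (f c) := fun c => ⟨hfA c, hfP c⟩
  set s := ∑ c, f c with hs
  have hsR : T.IsRA s := isRA_sum fun c _ => (hf c).ra
  have hfs : ∀ c, f c * s = f c := fun c => by
    rw [hs, Finset.mul_sum, Finset.sum_eq_single c]
    · exact (hfP c).isIdempotentElem.eq
    · exact fun d _ hd => hfo c d (Ne.symm hd)
    · simp
  have hsP : IsStarProjection s := ⟨by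
    show s * s = s
    conv_lhs => arg 1; rw [hs]
    rw [Finset.sum_mul]
    exact Finset.sum_congr rfl fun c _ => hfs c, hsR.sa⟩
  let P : T.Part :=
    { n := p.r + 1
      e := Fin.cons (1 - s) f
      mem := fun i => by
        refine Fin.cases ?_ (fun j => ?_) i
        · simpa using sub_mem (one_mem _) hsR.mem
        · simpa using hfA j
      proj := fun i => by
        refine Fin.cases ?_ (fun j => ?_) i
        · simpa using hsP.one_sub
        · simpa using hfP j
      orth := fun i j => by
        have h0 : ∀ c, (1 - s) * f c = 0 := fun c => by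
          rw [sub_mul, one_mul, T.A_comm _ hsR.mem _ (hfA c), hfs, sub_self]
        refine Fin.cases ?_ (fun a => ?_) i <;> refine Fin.cases ?_ (fun b => ?_) j
        · exact fun h => absurd rfl h
        · intro _; simpa using h0 b
        · intro _; simp only [Fin.cons_succ, Fin.cons_zero]
          rw [T.A_comm _ (hfA a) _ (sub_mem (one_mem _) hsR.mem), h0]
        · intro h; simpa using hfo a b fun e => h (by rw [e])
      sum_one := by
        rw [Fin.sum_univ_succ]
        simp only [Fin.cons_zero, Fin.cons_succ, ← hs]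
        exact sub_add_cancel 1 s }
  have h0le : T.tr (1 - s) ≤ T.tr S.alive := by
    refine T.tr_mono ((isRA_one.sub hsR).le_of_val hA.ra fun χ => ?_)
    rw [isRA_one.val_sub χ hsR, val_one]
    rcases hA.ra.val_proj χ hA.2 with h | h
    · rw [h]
      rw [WState.alive] at h
      have hcs : T.IsRA (∑ c, T.cut (S.w c) (1 / 2)) := isRA_sum fun c _ => (hq c).ra
      rw [isRA_one.val_sub χ (aproj_cut hcs.mem _).ra, val_one, sub_eq_zero] at h
      have h1 := le_val_of_cut χ hcs.mem hcs.sa h.symm
      rw [val_sum χ _ _ fun c _ => (hq c).1] at h1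
      obtain ⟨c, -, hc⟩ := Finset.exists_ne_zero_of_sum_ne_zero
        (show ∑ c, T.val χ (T.cut (S.w c) (1 / 2)) ≠ 0 by linarith)
      have hc1 := ((hq c).ra.val_proj χ (hq c).2).resolve_left hc
      have h2 := congrArg (T.val χ) (hf0 c)
      rw [(isRA_one.sub hsR).val_mul χ (hq c).ra, hc1, mul_one, val_zero,
        isRA_one.val_sub χ hsR, val_one] at h2
      exact h2.le
    · rw [h]; linarith [(hsR.val_proj_mem χ hsP).1]
  refine ⟨P, le_rfl, fun b => ?_⟩
  have hUb := hU.nonneg b
  have hUs := IsSelfAdjoint.of_nonneg hUb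
  set W := (3 : ℝ) • ∑ c, S.R c b with hW
  have hW0 : 0 ≤ W := smul_nonneg (by norm_num) (Finset.sum_nonneg fun c _ => hS.R_nonneg c b)
  set z := T.cut W p.e with hz
  have hzP : IsStarProjection z := T.cut_isStarProjection _ _
  have hzW : (1 - z) * W * (1 - z) ≤ p.e • (1 : M) := by
    have hc : Commute (1 - z) W :=
      (Commute.one_left W).sub_left (T.commute_cut p.e (Commute.refl W))
    rw [hc.eq, mul_assoc, hzP.one_sub.isIdempotentElem.eq]
    exact (T.mul_one_sub_cut_le p.e (IsSelfAdjoint.of_nonneg hW0)).trans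
      (smul_le_smul_of_nonneg_left hzP.one_sub.le_one he.le)
  set f1 := p.Ff (1 / 2) with hf1
  have hf1e : 1 ≤ (1 + 2 * p.e) * f1 := by
    have hb : p.T1 + p.sl = 1 + 5 * p.e / 4 := by rw [WPrm.T1, WPrm.sl]; ring
    rw [hf1, WPrm.Ff, max_eq_left (by norm_num), WPrm.β, hb, WPrm.C, mul_div_assoc',
      le_div_iff₀ (by positivity)]
    field_simp
    nlinarith [hp.e_le]
  have hf1p : 0 < f1 := pos_of_mul_pos_right (zero_lt_one.trans_le hf1e) (by linarith)
  have hcell : ∀ c, (1 - z) * (U b * f c * U b) * (1 - z) ≤ (1 + 3 * p.e) • (1 : M) := fun c => by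
    have hFf : f1 • f c ≤ S.F c := by
      refine ((hf c).ra.smul _).le_of_val (WState.isRA_F hS c) fun χ => ?_
      rw [(hf c).ra.val_smul, WState.val_F hp hS]
      rcases (hf c).ra.val_proj χ (hfP c) with h | h
      · rw [h, mul_zero]; exact (WPrm.Ff_mem hp _).1
      · have h1 := congrArg (T.val χ) (hfq c)
        rw [(hf c).ra.val_mul χ (hq c).ra, h, one_mul] at h1
        rw [h, mul_one]
        exact WPrm.Ff_mono hp (by norm_num)
          (le_val_of_cut χ (hS.w_mem c) (WState.isRA_w hS c).sa h1)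
    have hbar : U b * S.F c * U b ≤ 1 + S.R c b := by
      have hH : 0 ≤ 1 - U b * S.F c * U b + S.R c b :=
        (smul_nonneg hp.a_pos.le zero_le_one).trans (hS.barrier c b)
      rw [← sub_nonneg]
      calc (0 : M) ≤ 1 - U b * S.F c * U b + S.R c b := hH
        _ = _ := by abel
    have h1 : f1 • (U b * f c * U b) ≤ 1 + S.R c b := by
      refine le_trans ?_ hbar
      have := hUs.conjugate_le_conjugate hFf
      rwa [mul_smul_comm, smul_mul_assoc] at this
    have hX : 0 ≤ U b * f c * U b := hUs.conjugate_nonneg (hfP c).nonneg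
    have h2 : U b * f c * U b ≤ (1 + 2 * p.e) • (1 : M) + W := by
      calc U b * f c * U b = (1 : ℝ) • (U b * f c * U b) := (one_smul _ _).symm
        _ ≤ ((1 + 2 * p.e) * f1) • (U b * f c * U b) := smul_le_smul_of_nonneg_right hf1e hX
        _ = (1 + 2 * p.e) • (f1 • (U b * f c * U b)) := (smul_smul _ _ _).symm
        _ ≤ (1 + 2 * p.e) • (1 + S.R c b) := smul_le_smul_of_nonneg_left h1 (by linarith)
        _ ≤ _ := by
          rw [smul_add, hW]
          refine add_le_add le_rfl ((smul_le_smul_of_nonneg_right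
            (show 1 + 2 * p.e ≤ 3 by linarith [hp.e_le]) (hS.R_nonneg c b)).trans
              (smul_le_smul_of_nonneg_left ?_ (by norm_num)))
          exact Finset.single_le_sum (fun d _ => hS.R_nonneg d b) (Finset.mem_univ c)
    refine (hzP.one_sub.isSelfAdjoint.conjugate_le_conjugate h2).trans ?_
    rw [mul_add, add_mul, mul_smul_comm, mul_one, smul_mul_assoc,
      hzP.one_sub.isIdempotentElem.eq]
    refine (add_le_add (smul_le_smul_of_nonneg_left hzP.one_sub.le_one (by linarith)) hzW).trans ?_
    rw [← add_smul]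
    exact smul_le_smul_of_nonneg_right (by linarith) zero_le_one
  set D := pinch P (U b * z * U b) + (4 : ℝ) • (1 - s) with hD
  have hUzU : 0 ≤ U b * z * U b := hUs.conjugate_nonneg hzP.nonneg
  refine ⟨D, add_nonneg (pinch_nonneg P hUzU) (smul_nonneg (by norm_num) hsP.one_sub.nonneg), ?_, ?_⟩
  · have hbig : ∀ i, P.e i * (U b * U b) * P.e i ≤
        (1 + 3 * p.e) • P.e i + P.e i * (U b * z * U b) * P.e i +
          (if i = 0 then (4 : ℝ) • (1 - s) else 0) := by
      refine Fin.cases ?_ fun c => ?_
      · rw [if_pos rfl]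
        refine le_trans ?_ (le_add_of_nonneg_left (add_nonneg
          (smul_nonneg (by linarith) (P.proj _).nonneg)
          ((P.proj _).isSelfAdjoint.conjugate_nonneg hUzU)))
        show (1 - s) * (U b * U b) * (1 - s) ≤ _
        refine (hsP.one_sub.isSelfAdjoint.conjugate_le_conjugate
          (le_norm_smul_one ((IsSelfAdjoint.commute_iff hUs hUs).1 rfl))).trans ?_
        rw [mul_smul_comm, mul_one, smul_mul_assoc, hsP.one_sub.isIdempotentElem.eq]
        exact smul_le_smul_of_nonneg_right ((norm_mul_le_of (hU.norm_le b) (hU.norm_le b)).trans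
          (by norm_num)) hsP.one_sub.nonneg
      · rw [if_neg (Fin.succ_ne_zero c), add_zero]
        show f c * (U b * U b) * f c ≤ _
        refine (cell_square_le hUs (hfP c) hzP.one_sub (by linarith) (hcell c)).trans ?_
        rw [sub_sub_cancel]
        exact le_rfl
    refine (Finset.sum_le_sum fun i _ => hbig i).trans_eq ?_
    rw [Finset.sum_add_distrib, Finset.sum_add_distrib, ← Finset.smul_sum, P.sum_one,
      Finset.sum_ite_eq', if_pos (Finset.mem_univ _), hD, pinch, add_assoc]
  · intro η hη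
    rw [hD, T.tr_add, T.tr_smul]
    refine add_le_add ?_ (mul_le_mul_of_nonneg_left h0le (by norm_num))
    have e : T.tr (pinch P (U b * z * U b)) = T.n2 (z * U b) ^ 2 := by
      rw [tr, φ_pinch, T.n2_sq, tr, star_mul, hUs.star_eq, hzP.isSelfAdjoint.star_eq]
      congr 2
      calc U b * z * U b = U b * (z * z) * U b := by rw [hzP.isIdempotentElem.eq]
        _ = _ := by noncomm_ring
    rw [e]
    refine pow_le_pow_left₀ (T.n2_nonneg _) (hη z hzP ?_) 2
    refine (smul_tr_cut_le (T := T) hW0 p.e).trans_eq ?_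
    rw [hW, T.tr_smul, T.tr_sum]

end SMasa

/-- Paving over a singular MASA in the language of states. -/
theorem walkPaving : WalkPaving.{u} := by
  intro M _ _ _ T hsing x hx hxn hEx e he he1 r hr δ hδ
  set δ1 := e * δ / 48 with hδ1
  have hδ1p : 0 < δ1 := by positivity
  set η := Real.sqrt (e * δ / 4) with hη
  have hηp : 0 < η := by positivity
  have hbd : -(1 : M) ≤ x ∧ x ≤ 1 := by
    have h1 := IsSelfAdjoint.le_algebraMap_norm_self hx
    have h2 := IsSelfAdjoint.neg_algebraMap_norm_le_self hx
    rw [Algebra.algebraMap_eq_smul_one] at h1 h2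
    have h3 : ‖x‖ • (1 : M) ≤ 1 :=
      (smul_le_smul_of_nonneg_right hxn zero_le_one).trans_eq (one_smul _ _)
    exact ⟨(neg_le_neg h3).trans h2, h1.trans h3⟩
  set U : Bool → M := fun b => CFC.sqrt (cond b (1 + x) (1 - x)) with hUdef
  have hUU : ∀ b, U b * U b = cond b (1 + x) (1 - x) := fun b => by
    refine CFC.sqrt_mul_sqrt_self _ ?_
    cases b
    · exact sub_nonneg.2 hbd.2
    · have := neg_le_iff_add_nonneg'.1 hbd.1
      simpa using this
  have hU : SMasa.GoodU T U :=
    { nonneg := fun b => CFC.sqrt_nonneg _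
      norm_le := fun b => by
        have h1 : ‖U b * U b‖ ≤ 2 := by
          rw [hUU]
          cases b <;> refine le_trans ?_ (show (1 : ℝ) + 1 ≤ 2 by norm_num)
          · exact (norm_sub_le _ _).trans (add_le_add ((IsStarProjection.one M).norm_le) hxn)
          · exact (norm_add_le _ _).trans (add_le_add ((IsStarProjection.one M).norm_le) hxn)
        have h2 : ‖U b * U b‖ = ‖U b‖ * ‖U b‖ := by
          have h3 := CStarRing.norm_star_mul_self (x := U b)
          rwa [(IsSelfAdjoint.of_nonneg (CFC.sqrt_nonneg _ : (0 : M) ≤ U b)).star_eq] at h3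
        nlinarith [norm_nonneg (U b)]
      diag := fun b => by
        rw [hUU]
        cases b
        · show T.E (1 - x) = 1
          rw [T.E_sub, hEx, sub_zero, T.E_of_mem (one_mem _)]
        · show T.E (1 + x) = 1
          rw [T.E_add, hEx, add_zero, T.E_of_mem (one_mem _)] }
  obtain ⟨d1, hd1, hr1⟩ := T.right_cont (U true) 1 η hηp
  obtain ⟨d2, hd2, hr2⟩ := T.right_cont (U false) 1 η hηp
  set dd := min d1 d2 with hdd
  have hddp : 0 < dd := lt_min hd1 hd2
  set sl := e / 4 with hsl
  have hr0 : (0 : ℝ) < r := lt_of_lt_of_le (by positivity) hr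
  set a := min (1 / 2) (min (e * dd ^ 2 / (9 * r)) (δ1 * sl ^ 2 / (6 * r))) with hadef
  have hslp : 0 < sl := by rw [hsl]; positivity
  have ha : 0 < a := lt_min (by norm_num) (lt_min (by positivity) (by positivity))
  have hp : (WPrm.mk r e a δ1).Good := ⟨he, he1, ha, min_le_left _ _, hδ1p, hr⟩
  obtain ⟨S, hS, halive, hR⟩ := SMasa.exists_finished hp hsing hU
  obtain ⟨P, hPn, hP⟩ := SMasa.exists_cells hp hU hS
  choose D hD0 hDle hDtr using hP
  have hDb : ∀ b, T.tr (D b) ≤ e * δ / 4 + 4 * (2 * δ1) := fun b => by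
    refine (hDtr b η fun z hz hztr => ?_).trans ?_
    · have h1 : T.n2 z ≤ dd := by
        refine le_of_pow_le_pow_left₀ two_ne_zero hddp.le ?_
        rw [T.n2_sq_proj hz]
        have h2 : ∑ c, T.tr (S.R c b) ≤ ∑ c, ∑ b, T.tr (S.R c b) :=
          Finset.sum_le_sum fun c _ => Finset.single_le_sum
            (fun b _ => T.tr_nonneg (hS.R_nonneg c b)) (Finset.mem_univ b)
        have h3 : a * (9 * r) ≤ e * dd ^ 2 := (le_div_iff₀ (by positivity)).1
          ((min_le_right _ _).trans (min_le_left _ _))
        simp only at hztr hR h2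
        refine le_of_mul_le_mul_left ?_ he
        linarith
      cases b
      · exact hr2 z hz.norm_le (h1.trans (min_le_right _ _))
      · exact hr1 z hz.norm_le (h1.trans (min_le_left _ _))
    · rw [hη, Real.sq_sqrt (by positivity)]
      have h3 : a * (6 * r) ≤ δ1 * sl ^ 2 := (le_div_iff₀ (by positivity)).1
        ((min_le_right _ _).trans (min_le_right _ _))
      have h4 : 6 * (r : ℝ) * a / (WPrm.mk r e a δ1).sl ^ 2 ≤ δ1 := by
        rw [div_le_iff₀ (by positivity), show (WPrm.mk r e a δ1).sl = sl from rfl]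
        linarith
      simp only at halive
      linarith
  set Dt := D true + D false with hDt
  have hDt0 : 0 ≤ Dt := add_nonneg (hD0 _) (hD0 _)
  have hup : SMasa.pinch P x ≤ (3 * e) • (1 : M) + Dt := by
    have h1 := hDle true
    simp only [hUU, cond_true] at h1
    rw [SMasa.pinch_add, SMasa.pinch_eq_self P (one_mem _), add_smul, one_smul, add_assoc,
      add_le_add_iff_left] at h1
    exact h1.trans (add_le_add le_rfl (le_add_of_nonneg_right (hD0 _)))
  have hdown : -SMasa.pinch P x ≤ (3 * e) • (1 : M) + Dt := by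
    have h1 := hDle false
    simp only [hUU, cond_false] at h1
    have e1 : SMasa.pinch P (1 - x) = 1 - SMasa.pinch P x := by
      rw [sub_eq_add_neg, SMasa.pinch_add, SMasa.pinch_eq_self P (one_mem _), ← neg_one_smul ℂ x,
        SMasa.pinch_smul, neg_one_smul, ← sub_eq_add_neg]
    rw [e1, add_smul, one_smul, add_assoc, sub_eq_add_neg, add_le_add_iff_left] at h1
    exact h1.trans (add_le_add le_rfl (le_add_of_nonneg_left (hD0 _)))
  set z := T.cut Dt e with hz
  have hzP : IsStarProjection z := T.cut_isStarProjection _ _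
  refine ⟨P, 1 - z, hPn, hzP.one_sub, ?_, ?_⟩
  · rw [sub_sub_cancel]
    have h1 := SMasa.smul_tr_cut_le (T := T) hDt0 e
    have h2 : T.tr Dt ≤ e * δ := by
      rw [hDt, T.tr_add]
      refine (add_le_add (hDb true) (hDb false)).trans ?_
      rw [hδ1]
      nlinarith [mul_pos he hδ]
    nlinarith
  · have hpxs : IsSelfAdjoint (SMasa.pinch P x) := by
      rw [IsSelfAdjoint, SMasa.pinch_star, hx.star_eq]
    have hzW : (1 - z) * Dt * (1 - z) ≤ e • (1 : M) := by
      have hc : Commute (1 - z) Dt :=
        (Commute.one_left Dt).sub_left (T.commute_cut e (Commute.refl Dt))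
      rw [hc.eq, mul_assoc, hzP.one_sub.isIdempotentElem.eq]
      exact (T.mul_one_sub_cut_le e (IsSelfAdjoint.of_nonneg hDt0)).trans
        (smul_le_smul_of_nonneg_left hzP.one_sub.le_one he.le)
    have key : ∀ y : M, y ≤ (3 * e) • (1 : M) + Dt → (1 - z) * y * (1 - z) ≤ (4 * e) • (1 : M) := by
      intro y hy
      refine (hzP.one_sub.isSelfAdjoint.conjugate_le_conjugate hy).trans ?_
      rw [mul_add, add_mul, mul_smul_comm, mul_one, smul_mul_assoc,
        hzP.one_sub.isIdempotentElem.eq]
      refine (add_le_add (smul_le_smul_of_nonneg_left hzP.one_sub.le_one (by positivity))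
        hzW).trans_eq ?_
      rw [← add_smul]
      congr 1; ring
    refine SMasa.norm_le_of_two_sided (IsSelfAdjoint.conjugate_self hpxs hzP.one_sub.isSelfAdjoint)
      (by positivity) (key _ hup) ?_
    rw [← neg_mul, ← mul_neg]
    exact key _ hdown

end Vale.Agent.P078.Sing
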